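import Claimed.Agent.R256.Act.E2H.CdDoc
import Claimed.Agent.R256.Nm.Grd.Kit

/-!
# Row 256, section Act, block E2H (hybrid boundary experiment), part CD, file 3: LISTS OF ATOMIC QUERIES      (helper156; prefix `ae2c_`)

EXIT `ae2c_ats` (TYPE A) = the hypothesis `hcd` of `ae2v_mass_sel` (`Act/E2H/Vf.lean`, helper98) for the observations `D.ats π L` of `S.Flat`, `S.FlatP` (`L` a finite list of atomic queries):
two final rows `ω`, `ω'` with a common predecessor at the gate near `j`:   `D.ats π L ω' ∈ T (D.ats π L ω)`,   `#T(y) ≤ s^(-acc)`,   `T` DETERMINED BY THE VALUE `y`.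
Admissible atoms `Ae2cAt π j`:   names `𝒞(a, v)` of the boundary template `ae2Q π 1` with `a < j`, `w < 0`, `l < min (b_1 j) 0`;   ALL angular cells `X^(x)`;   time cells `t_z`, `z < j`.
-/

set_option autoImplicit false

namespace Claimed.Agent.R256

open Claimed.Agent.R255
open Classical

noncomputable section

/-- the atoms whose values on two final rows with a common predecessor at the depth `j` list each other -/
def Ae2cAt (π : SfPar) (j : ℝ) : NmAt → Prop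
  | NmAt.nm q a v => q = ae2Q π 1 ∧ 0 ≤ a ∧ a < j ∧ q.w π a v < 0 ∧ q.l π a v < min (π.b1 j) 0
  | NmAt.Xc _ => True
  | NmAt.tc z => z < j
  | NmAt.Pc _ _ => False
  | NmAt.bc _ _ => False
  | NmAt.y0 => False

/-- two final rows with a common predecessor at the gate `j0` -/
def SfDoc.Cop (D : SfDoc) (j0 : ℝ) (ω ω' : D.Row 1) : Prop := ∃ ρ : D.Row j0, D.Conn j0 1 ρ ω ∧ D.Conn j0 1 ρ ω'

/-- the observation `f` has lists of size `N` determined by its value, along the relation `Rel` -/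
def Ae2cLs {Ω β : Type} (Rel : Ω → Ω → Prop) (f : Ω → β) (N : ℝ) : Prop :=
  ∃ T : β → Finset β, (∀ y, ((T y).card : ℝ) ≤ N) ∧ ∀ ω ω', Rel ω ω' → f ω' ∈ T (f ω)

theorem ae2c_ats_eqns_cite : True := by
  have := @Ae2cAt.eq_1; have := @SfDoc.Cop.eq_1; have := @Ae2cLs.eq_1
  trivial

/-- lists are transported by an injection of the values.      LEAF L-256-E2H-CD-A1 (25 l.): `T' z := ((Finset.univ.filter ..)` is not available (`β` infinite): take `T' z := if h : ∃ y, e y = z then (T h.choose).image e else ∅`; `he` gives `h.choose = y`; `Finset.card_image_le`. -/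
theorem ae2c_ls_inj {Ω β γ : Type} {Rel : Ω → Ω → Prop} {f : Ω → β} {N : ℝ} (hN : 0 ≤ N) (e : β → γ) (he : Function.Injective e) (h : Ae2cLs Rel f N) :
    Ae2cLs Rel (fun ω => e (f ω)) N := by
  obtain ⟨T, hT, hm⟩ := h
  refine ⟨fun z => if hz : ∃ y, e y = z then (T hz.choose).image e else ∅, fun z => ?_, fun ω ω' hR => ?_⟩
  · by_cases hz : ∃ y, e y = z
    · simp only [dif_pos hz]
      exact (Nat.cast_le.2 Finset.card_image_le).trans (hT _)
    · simp only [dif_neg hz, Finset.card_empty, Nat.cast_zero]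
      exact hN
  · have hz : ∃ y, e y = e (f ω) := ⟨_, rfl⟩
    simp only [dif_pos hz]
    have hc : hz.choose = f ω := he hz.choose_spec
    rw [hc]
    exact Finset.mem_image_of_mem e (hm ω ω' hR)

/-- integer observations which move by `≤ 3`.      LEAF L-256-E2H-CD-A2 (25 l.): `T c := Finset.Icc (c - 3) (c + 3)`, `Int.card_Icc`; from `|((f ω' - f ω : ℤ) : ℝ)| ≤ 3` get `|f ω' - f ω| ≤ 3` in `ℤ` (`exact_mod_cast`), `abs_le`, `Finset.mem_Icc`. -/
theorem ae2c_ls_int {Ω : Type} {Rel : Ω → Ω → Prop} {f : Ω → ℤ} (h : ∀ ω ω', Rel ω ω' → |((f ω' - f ω : ℤ) : ℝ)| ≤ 3) : Ae2cLs Rel f 7 := by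
  refine ⟨fun c => Finset.Icc (c - 3) (c + 3), fun y => ?_, fun ω ω' hR => ?_⟩
  · rw [Int.card_Icc]
    have e : (y + 3 + 1 - (y - 3)).toNat = 7 := by
      have : y + 3 + 1 - (y - 3) = 7 := by ring
      rw [this]
      rfl
    rw [e]
    norm_num
  · have h1 : |f ω' - f ω| ≤ 3 := by
      have := h ω ω' hR
      exact_mod_cast this
    obtain ⟨a, b⟩ := abs_le.1 h1
    rw [Finset.mem_Icc]
    constructor <;> linarith

/-- **products of lists**.      LEAF L-256-E2H-CD-A3 (60 l.): induction on `L`;   `[]`: `T _ := {[]}`;   `x :: L`: `T [] := ∅`, `T (y :: ys) := ((Tx y) ×ˢ (TL ys)).image fun p => p.1 :: p.2`; `Finset.card_image_le`, `Finset.card_product`, `pow_succ`. -/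
theorem ae2c_ls_prod {Ω ι β : Type} (Rel : Ω → Ω → Prop) (g : ι → Ω → β) (N : ℝ) (hN : 1 ≤ N) (L : List ι) (h : ∀ x ∈ L, Ae2cLs Rel (g x) N) :
    Ae2cLs Rel (fun ω => L.map fun x => g x ω) (N ^ L.length) := by
  induction L with
  | nil => exact ⟨fun _ => {[]}, fun _ => by simp, fun _ _ _ => by simp⟩
  | cons x L ih =>
    obtain ⟨TL, hTL, hmL⟩ := ih fun y hy => h y (List.mem_cons_of_mem _ hy)
    obtain ⟨Tx, hTx, hmx⟩ := h x List.mem_cons_self
    refine ⟨fun l => match l with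
      | [] => ∅
      | y :: ys => ((Tx y) ×ˢ (TL ys)).image fun p => p.1 :: p.2, fun l => ?_, fun ω ω' hR => ?_⟩
    · cases l with
      | nil =>
        simp only [Finset.card_empty, Nat.cast_zero]
        positivity
      | cons y ys =>
        refine (Nat.cast_le.2 Finset.card_image_le).trans ?_
        rw [Finset.card_product]
        push_cast
        rw [List.length_cons, pow_succ, mul_comm (N ^ L.length)]
        exact mul_le_mul (hTx y) (hTL ys) (Nat.cast_nonneg _) (by linarith)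
    · simp only [List.map_cons]
      exact Finset.mem_image.2 ⟨(g x ω', L.map fun x => g x ω'), Finset.mem_product.2 ⟨hmx ω ω' hR, hmL ω ω' hR⟩, rfl⟩

/-- the angular cells.      LEAF L-256-E2H-CD-A4 (70 l.): `nm_gk_A_of`; `t0 ≤ min (1 - j) / 2 ..`, `1 / t0 ≥ |x| + 1`, `t0 ≤ 1/2`, and `7 ≤ s^(-acc)` (`nm_cn_const`);   `j0 = D.gt j ∈ D.G`, `j0 < 1` (`nm_gt_near`, `nm_gt_mem`);   `hD.ok.core.base j0 _ 1 _ _ ρ ω h` for `ω`, `ω'`:
`|X' - X| ≤ 2 s^(1/t0) ≤ s^x` (first coordinate of `bdist`);   `nm_cell_close hs.1 hs.2 x x (K := 1)`: `≤ 2 * 1 * s^(-(x - x)) + 1 = 3`;   `ae2c_ls_int`, monotone in `N`. -/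
theorem ae2c_Xc (π : SfPar) (C0 τ κ0 j x : ℝ) (hj : 0 < j ∧ j < 1) :
    NmA π C0 τ κ0 fun acc D => Ae2cLs (D.Cop (D.gt j)) (D.Xc x) (D.s ^ (-acc)) := by
  refine nm_gk_A_of fun acc hacc => ?_
  obtain ⟨t1, ht1, hc⟩ := nm_cn_const (c := 7) (κ := acc) (by norm_num) hacc
  have hx2 : 0 < |x| + 2 := by positivity
  have hj2 : 0 < (1 - j) / 2 := by linarith [hj.2]
  refine ⟨min t1 (min ((1 - j) / 2) (min (1 / 2) (1 / (|x| + 2)))), by positivity, fun D hD => ?_⟩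
  set t0 := min t1 (min ((1 - j) / 2) (min (1 / 2) (1 / (|x| + 2)))) with ht0
  have a1 : t0 ≤ t1 := min_le_left _ _
  have a2 : t0 ≤ (1 - j) / 2 := (min_le_right _ _).trans (min_le_left _ _)
  have a3 : t0 ≤ 1 / 2 := (min_le_right _ _).trans ((min_le_right _ _).trans (min_le_left _ _))
  have a4 : t0 ≤ 1 / (|x| + 2) := (min_le_right _ _).trans ((min_le_right _ _).trans (min_le_right _ _))
  have ht0p : 0 < t0 := hD.pos
  have a5 : |x| + 2 ≤ 1 / t0 := by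
    rw [le_div_iff₀ ht0p]
    have := mul_le_mul_of_nonneg_left a4 hx2.le
    rwa [mul_one_div, div_self hx2.ne'] at this
  have hs := hD.ok.core.hs
  have h7 : (7 : ℝ) ≤ D.s ^ (-acc) := hc D.s hs.1 (hD.sm.trans a1)
  have hG : D.G.Nonempty := ⟨1, hD.ok.core.gate.1⟩
  have hj0 : D.gt j ∈ D.G := nm_gt_mem D hG j
  have hnear := abs_le.1 (nm_gt_near hD hj.1.le hj.2.le)
  have hj1 : D.gt j < 1 := by linarith [hnear.2, hj.2]
  have hsm : 2 * D.s ^ (1 / t0) ≤ 1 * D.s ^ x := by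
    have e1 : D.s ^ (1 / t0) = D.s * D.s ^ (1 / t0 - 1) := by
      rw [← Real.rpow_one_add' hs.1.le (by linarith [abs_nonneg x])]
      congr 1
      ring
    have e2 : D.s ^ (1 / t0 - 1) ≤ D.s ^ x :=
      Real.rpow_le_rpow_of_exponent_ge hs.1 hs.2.le (by linarith [le_abs_self x])
    have e3 : 2 * D.s ≤ 1 := by linarith [hD.sm]
    have e4 : 0 < D.s ^ (1 / t0 - 1) := Real.rpow_pos_of_pos hs.1 _
    calc 2 * D.s ^ (1 / t0) = 2 * D.s * D.s ^ (1 / t0 - 1) := by rw [e1]; ring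
      _ ≤ 1 * D.s ^ (1 / t0 - 1) := mul_le_mul_of_nonneg_right e3 e4.le
      _ ≤ 1 * D.s ^ x := by linarith
  have key : ∀ ω ω', D.Cop (D.gt j) ω ω' → |((D.Xc x ω' - D.Xc x ω : ℤ) : ℝ)| ≤ 3 := by
    rintro ω ω' ⟨ρ, c1, c2⟩
    have b1 := (hD.ok.core.base (D.gt j) hj0 1 hD.ok.core.gate.1 hj1 ρ ω c1).2.2.2
    have b2 := (hD.ok.core.base (D.gt j) hj0 1 hD.ok.core.gate.1 hj1 ρ ω' c2).2.2.2
    have e1 : |(D.ray (D.gt j) ρ).X - (D.ray 1 ω).X| ≤ D.s ^ (1 / t0) := (le_max_left _ _).trans b1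
    have e2 : |(D.ray (D.gt j) ρ).X - (D.ray 1 ω').X| ≤ D.s ^ (1 / t0) := (le_max_left _ _).trans b2
    have e3 : |(D.ray 1 ω').X - (D.ray 1 ω).X| ≤ 1 * D.s ^ x := by
      refine le_trans ?_ hsm
      have := abs_le.1 e1
      have := abs_le.1 e2
      rw [abs_le]
      constructor <;> linarith
    have e4 := nm_cell_close hs.1 hs.2 x x (K := 1) e3
    rw [sub_self, neg_zero, Real.rpow_zero] at e4
    have e5 : (2 : ℝ) * 1 * 1 + 1 = 3 := by norm_num
    rw [e5] at e4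
    exact e4
  obtain ⟨T, hT, hm⟩ := ae2c_ls_int key
  exact ⟨T, fun y => (hT y).trans h7, hm⟩

/-- the time cells.      LEAF L-256-E2H-CD-A5 (70 l.): as `ae2c_Xc`;   `base`: `Tρ ≤ T`, `T + len 1 ≤ Tρ + len j0`, so `|T' - T| ≤ len j0 ≤ s^(j0 - t0) ≤ s^z` (`hlen`; `z + 2 t0 ≤ j`). -/
theorem ae2c_tc (π : SfPar) (C0 τ κ0 j z : ℝ) (hj : 0 < j ∧ j < 1) (hz : z < j) :
    NmA π C0 τ κ0 fun acc D => Ae2cLs (D.Cop (D.gt j)) (D.tc z) (D.s ^ (-acc)) := by
  refine nm_gk_A_of fun acc hacc => ?_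
  obtain ⟨t1, ht1, H1⟩ := nm_cn_const (c := 7) (κ := acc) (by norm_num) hacc
  refine ⟨min (min t1 ((1 - j) / 2)) ((j - z) / 2), by
    have : 0 < (1 - j) / 2 := by linarith [hj.2]
    have : 0 < (j - z) / 2 := by linarith
    positivity, fun D hD => ?_⟩
  obtain ⟨t0, ht0⟩ : ∃ t0 : ℝ, t0 = min (min t1 ((1 - j) / 2)) ((j - z) / 2) := ⟨_, rfl⟩
  rw [← ht0] at hD
  have b1 : t0 ≤ t1 := by rw [ht0]; exact (min_le_left _ _).trans (min_le_left _ _)
  have b2 : t0 ≤ (1 - j) / 2 := by rw [ht0]; exact (min_le_left _ _).trans (min_le_right _ _)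
  have b3 : t0 ≤ (j - z) / 2 := by rw [ht0]; exact min_le_right _ _
  have hcore := hD.ok.core
  obtain ⟨h0, h1⟩ := hcore.hs
  have htp := hD.pos
  have hne : D.G.Nonempty := ⟨1, hcore.gate.1⟩
  have hjm : D.gt j ∈ D.G := nm_gt_mem D hne j
  have hjn := nm_gt_near hD hj.1.le hj.2.le
  have hj1 : D.gt j < 1 := by
    have := (abs_le.1 hjn).2
    linarith
  have h7 : (7 : ℝ) ≤ D.s ^ (-acc) := H1 D.s h0 (hD.sm.trans b1)
  have key : Ae2cLs (D.Cop (D.gt j)) (D.tc z) 7 := ae2c_ls_int fun ω ω' ⟨ρ, c, d⟩ => by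
    obtain ⟨a1, a2, -, -⟩ := hcore.base (D.gt j) hjm 1 hcore.gate.1 hj1 ρ ω c
    obtain ⟨a1', a2', -, -⟩ := hcore.base (D.gt j) hjm 1 hcore.gate.1 hj1 ρ ω' d
    have hl : 0 < D.len 1 := by rw [hcore.hlen.1]; exact h0
    have hlen : D.len (D.gt j) ≤ D.s ^ z :=
      ((hcore.hlen.2 _ hjm).2).trans (nm_pow_anti h0 h1 (by have := (abs_le.1 hjn).1; linarith))
    have hT : |D.T 1 ω' - D.T 1 ω| ≤ 1 * D.s ^ z := by
      rw [one_mul]
      refine le_trans ?_ hlen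
      rw [abs_le]
      constructor <;> linarith
    have hc := nm_cell_close h0 h1 z z hT
    simp only [sub_self, neg_zero, Real.rpow_zero, mul_one] at hc
    refine le_trans ?_ (hc.trans (by norm_num))
    exact le_of_eq rfl
  obtain ⟨T, hT, hm⟩ := key
  exact ⟨T, fun y => (hT y).trans h7, hm⟩

/-- **one atom** -/
theorem ae2c_at (π : SfPar) (hπ : π.Valid) (h1 : π.c2 = 1) (h2 : π.q < 1) (C0 τ κ0 j : ℝ) (hj : 0 < j ∧ j < 1) (x : NmAt) (hx : Ae2cAt π j x) :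
    NmA π C0 τ κ0 fun acc D => Ae2cLs (D.Cop (D.gt j)) (D.atq π x) (D.s ^ (-acc)) := by
  have hpos : ∀ (acc : ℝ) (D : SfDoc), 0 < D.s ∧ D.s < 1 → 0 ≤ D.s ^ (-acc) := fun acc D hs => (Real.rpow_pos_of_pos hs.1 _).le
  cases x with
  | nm q a v =>
    obtain ⟨rfl, ha, haj, hw, hl⟩ := hx
    refine nm_gk_A_mono (ae2c_names π hπ h1 h2 C0 τ κ0 j a v ⟨ha, haj, hj.2⟩ hw hl) fun acc D _ hs h => ?_
    obtain ⟨L, hL, hm⟩ := h
    exact ae2c_ls_inj (hpos acc D hs) Sum.inl Sum.inl_injective ⟨L, hL, fun ω ω' ⟨ρ, a1, a2⟩ => hm ρ ω ω' a1 a2⟩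
  | Xc x =>
    refine nm_gk_A_mono (ae2c_Xc π C0 τ κ0 j x hj) fun acc D _ hs h => ?_
    exact ae2c_ls_inj (hpos acc D hs) (fun c : ℤ => (Sum.inr (Sum.inl c) : NmVl D.Idx)) (fun a b hab => Sum.inl_injective (Sum.inr_injective hab)) h
  | tc z =>
    refine nm_gk_A_mono (ae2c_tc π C0 τ κ0 j z hj hx) fun acc D _ hs h => ?_
    exact ae2c_ls_inj (hpos acc D hs) (fun c : ℤ => (Sum.inr (Sum.inl c) : NmVl D.Idx)) (fun a b hab => Sum.inl_injective (Sum.inr_injective hab)) h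
  | Pc ds x => exact absurd hx (by simp [Ae2cAt])
  | bc ds x => exact absurd hx (by simp [Ae2cAt])
  | y0 => exact absurd hx (by simp [Ae2cAt])

/-- **EXIT**: lists of atoms -/
theorem ae2c_ats (π : SfPar) (hπ : π.Valid) (h1 : π.c2 = 1) (h2 : π.q < 1) (C0 τ κ0 j : ℝ) (hj : 0 < j ∧ j < 1) (L : List NmAt) (hL : ∀ x ∈ L, Ae2cAt π j x) :
    NmA π C0 τ κ0 fun acc D => Ae2cLs (D.Cop (D.gt j)) (D.ats π L) (D.s ^ (-acc)) := by
  intro acc hacc
  have hn : (0 : ℝ) < (L.length : ℝ) + 1 := by positivity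
  obtain ⟨t0, ht0, H⟩ := nm_gk_A_fin L.toFinset (fun x acc D => Ae2cLs (D.Cop (D.gt j)) (D.atq π x) (D.s ^ (-acc)))
    (fun x hx => ae2c_at π hπ h1 h2 C0 τ κ0 j hj x (hL x (List.mem_toFinset.1 hx))) (acc / ((L.length : ℝ) + 1)) (by positivity)
  refine ⟨t0, ht0, fun D hD hX => ?_⟩
  have hs := hD.ok.core.hs
  have h3 := ae2c_ls_prod (D.Cop (D.gt j)) (D.atq π) (D.s ^ (-(acc / ((L.length : ℝ) + 1))))
    (Real.one_le_rpow_of_pos_of_le_one_of_nonpos hs.1 hs.2.le (by have : 0 < acc / ((L.length : ℝ) + 1) := by positivity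
                                                                  linarith)) L
    (fun x hx => H D hD hX x (List.mem_toFinset.2 hx))
  obtain ⟨T, hT, hm⟩ := h3
  refine ⟨T, fun y => (hT y).trans ?_, hm⟩
  rw [← Real.rpow_natCast, ← Real.rpow_mul hs.1.le]
  refine Real.rpow_le_rpow_of_exponent_ge hs.1 hs.2.le ?_
  have h4 : acc / ((L.length : ℝ) + 1) * (L.length : ℝ) ≤ acc := by
    rw [div_mul_eq_mul_div, div_le_iff₀ hn]
    nlinarith
  linarith

end

end Claimed.Agent.R256
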