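import Claimed.Agent.R256.Act.E2H.Defs
import Claimed.Agent.R256.Act.E2H.CdAts

/-!
# Row 256, Act, block E2 HYBRID, unit CD = CO-DESCENDANTS      (owners helper209 (doc level), helper156 (raw level), helper8 (pairs, leaves); chief helper198; prefix `ae2c_`, exit `ae2h_cd`)      06 l.470-486

EXIT `ae2h_cd`: two CHARGED final rows `ω, ω'` with a common predecessor at the gate `j0 = D.gt p.j` have the values of the boundary names `nm (ae2Q π 1) y (u 1)`, `a ≤ y ≤ a + 40 h`, and of the angular cells `Xc z`, `u 1 ≤ z ≤ u 1 + 6 h`,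
in lists of size `s^(-acc)` determined by the VALUE at the other row (`D.E2hCd`, Defs.lean; symmetric).   `j - a ≥ 400 h` (`p.Ok`).
WHY TRUE: both rows are within the accuracies of the gate `j0` (`cmpA`, `base`, `normH`, `lay_near`) of the label / ray of `ρ`, far finer than the depths `≤ a + 40 h` of the entries; the global bins `k̄` differ by `≤ s^(-t)` cells, the frames by the corresponding shear.
A list for `L` = product of the lists of the atoms.   The implementing files (`CdDefs`, `CdRaw`, ...) are imported HERE; they import `Defs.lean` only.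
CONSUMERS: `ae2h_sco` (hypotheses `hl1`, `hl2` of `ae2v_mass` with `Nj = N1 ∘ sel`), `ae2h_spb` (label overlap).
-/

set_option autoImplicit false

namespace Claimed.Agent.R256

open Claimed.Agent.R255
open Claimed.Agent.R255.FLaw (pair)
open Filter Topology
open Classical

noncomputable section

/-- **(CD)** (contract) -/
theorem ae2h_cd (π : SfPar) (hπ : π.Valid) (h1 : π.c2 = 1) (h2 : π.q < 1) (hc : π.hyb = true) (C0 τ κ0 Λ : ℝ) (p : Ae2P) (hp : p.Ok π Λ) (hD1 : p.De = 1)
    (L : List NmAt) (hL : ∀ x ∈ L, (∃ y : ℝ, p.a ≤ y ∧ y ≤ p.a + 40 * p.h ∧ x = NmAt.nm (ae2Q π 1) y (π.u 1)) ∨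
      (∃ z : ℝ, π.u 1 ≤ z ∧ z ≤ π.u 1 + 6 * p.h ∧ x = NmAt.Xc z)) :
    NmA π C0 τ κ0 fun acc D => D.E2hCd π (D.gt p.j) L (D.s ^ (-acc)) := by
  have ha0 : 0 < p.a := hp.root.ha.1
  have hj1 : p.j < 1 := hD1 ▸ hp.hjD
  have hh := hp.h0
  have hg : 400 * p.h ≤ p.j - p.a := hp.hgap.trans (min_le_left _ _)
  have hu : π.u 1 = 0 := by simp [SfPar.u]
  have hqJ : π.q - π.J < 1 := by
    have := hπ.pl hc
    have := hπ.J0
    linarith
  have hat : ∀ x ∈ L, Ae2cAt π p.j x := by
    intro x hx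
    rcases hL x hx with ⟨y, hy1, hy2, rfl⟩ | ⟨z, -, -, rfl⟩
    · have hyj : y < p.j := by linarith
      refine ⟨rfl, by linarith, hyj, ?_, ?_⟩
      · simp only [ae2Q, nmDsStr, NmQ.w, NmDs.b, SfPar.b2, hu]
        linarith
      · simp only [ae2Q, nmDsStr, NmQ.l, NmDs.b, SfPar.b2, hu]
        refine lt_min ?_ (by linarith)
        unfold SfPar.b1
        nlinarith
    · trivial
  refine nm_gk_A_mono (ae2c_ats π hπ h1 h2 C0 τ κ0 p.j ⟨by linarith [hp.haj], hj1⟩ L hat) fun acc D _ _ h => ?_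
  obtain ⟨T, hT, hm⟩ := h
  exact fun x => ⟨T x, hT x, fun ρ ω ω' a1 a2 a3 => a3 ▸ hm ω ω' ⟨ρ, a1.1, a2.1⟩⟩

end

end Claimed.Agent.R256
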