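import Claimed.Agent.R256.Act.E2H.CdRaw
import Claimed.Agent.R256.Act.E2.Defs
import Claimed.Agent.R256.Nm.Can.Main

/-!
# Row 256, section Act, block E2H (hybrid boundary experiment), part CD, file 2: TWO FINAL ROWS WITH A COMMON PREDECESSOR ARE NEAR      (helper156; prefix `ae2c_`)

06-cylinder-actions.tex l.470-486.   Strict family `c2 = 1`, `q < 1`, endpoint `De = 1` (display `nmDsStr π 1`, query `ae2Q π 1`): `ζ = -1`, `b a = a - 1`, `l = a - 1 + v`, `w = a - 1 + 2 v`, `g = 0`.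
`ρ` a row of a gate `j0 < 1`, `ω`, `ω'` two final rows with `Conn j0 1 ρ ω`, `Conn j0 1 ρ ω'`;  `a + t ≤ j0`.      Classical AND hybrid (`D.dN π t ≤ s^(-2t)`).
* `ae2cA D π a v : NmAv`, the constants `M = 12 s^(-t)`, `S = s^(-(15 E0 + 1))`, `ε = 2 s^(1/t)`, `kp = 4 s^(-1-t)`, `Mk = 8 s^(-t)`.
* `Ae2cPar π t a v j0 E0` = the linear inequalities between the parameters.
* leaves D1-D4 = the fields of `Ae2cNear`, D5 = `Ae2cNum`;   `ae2c_doc` (glue) ;   `ae2c_fin` = finite-scale exit;   `ae2c_names` = TYPE A exit (leaf D6: numerology of approximated gates).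
-/

set_option autoImplicit false

namespace Claimed.Agent.R256

open Claimed.Agent.R255
open Classical

noncomputable section

/-- the parameter of the names `𝒞(a, v)` of the boundary template ending at `1` -/
def ae2cA (D : SfDoc) (π : SfPar) (a v : ℝ) : NmAv := ⟨D.s, π, ae2Q π 1, a, v⟩

/-- the linear inequalities -/
structure Ae2cPar (π : SfPar) (t a v j0 E0 : ℝ) : Prop where
  t0 : 0 < t
  a0 : 0 ≤ a
  aj : a + t ≤ j0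
  j1 : j0 < 1
  hw : a - 1 + 2 * v ≤ -t
  hl : a - 1 + v ≤ min (π.b1 j0) 0
  e1 : |a| ≤ E0
  e2 : |v| ≤ E0
  e3 : |a + v| ≤ E0
  e4 : |a + 2 * v| ≤ E0
  e5 : |a - 1| ≤ E0
  e6 : (1 : ℝ) ≤ E0
  e7 : |a - 1 + v| ≤ E0
  e8 : |a - 1 + 2 * v| ≤ E0
  e9 : |a + (a - 1 + 2 * v)| ≤ E0
  eT : 31 * E0 + 3 ≤ 1 / t

theorem ae2c_doc_eqns_cite : True := by
  have := @ae2cA.eq_1
  trivial

/-- the exponents of the boundary template -/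
theorem ae2c_exp (D : SfDoc) (π : SfPar) (a v : ℝ) :
    (ae2cA D π a v).s = D.s ∧ (ae2cA D π a v).a = a ∧ (ae2cA D π a v).v = v ∧ (ae2cA D π a v).q.g = 0 ∧ (ae2cA D π a v).q.ds.b a = a - 1 ∧
      (ae2cA D π a v).l = a - 1 + v ∧ (ae2cA D π a v).w = a - 1 + 2 * v ∧ π.b2 (ae2cA D π a v).q.ds.De - (ae2cA D π a v).q.ds.De = -1 ∧
      (ae2cA D π a v).q.ds.cut = NmCut.const := by
  refine ⟨rfl, rfl, rfl, rfl, ?_, ?_, ?_, ?_, rfl⟩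
  · simp [ae2cA, ae2Q, nmDsStr, NmDs.b, SfPar.b2]
  · simp [ae2cA, ae2Q, nmDsStr, NmDs.b, SfPar.b2, NmAv.l, NmQ.l]
  · simp [ae2cA, ae2Q, nmDsStr, NmDs.b, SfPar.b2, NmAv.w, NmQ.w]
  · simp [ae2cA, ae2Q, nmDsStr, SfPar.b2]

variable {D : SfDoc} {π : SfPar} {C0 τ κ0 t a v j0 E0 : ℝ}

/-- the decoded bin is `k̄`; the raw data at the endpoint `1`.      LEAF L-256-E2H-CD-D0 (30 l.): `nm_cn_kbar` (Nm/Can/Geo) for the first; unfold `SfDoc.kbar`, `SfDoc.raw`, `nmDsStr`, `nm_labAt_one`, `SfPar.b2` (`π.q * (1 - 1) - 1 = -1`); `(D.lab 1 ω).T = D.T 1 ω` is `rfl`. -/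
theorem ae2c_rawv (D : SfDoc) (π : SfPar) (a v : ℝ) (ω : D.Row 1) :
    (ae2cA D π a v).kv (D.raw π (nmDsStr π 1) ω).kb = D.kbar π (nmDsStr π 1) ω ∧
      D.kbar π (nmDsStr π 1) ω = nmRep D.s (-1) (D.lab 1 ω).K ∧
      (D.raw π (nmDsStr π 1) ω).T = D.T 1 ω ∧
      (D.raw π (nmDsStr π 1) ω).be = (D.lab 1 ω).be - D.kbar π (nmDsStr π 1) ω * D.T 1 ω ∧
      (D.raw π (nmDsStr π 1) ω).P = (D.lab 1 ω).Pd (D.ray 1 ω) + 2 * D.kbar π (nmDsStr π 1) ω * (D.ray 1 ω).B := by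
  have hl : D.labAt (nmDsStr π 1).De ω = D.lab 1 ω := nm_labAt_one D ω
  refine ⟨(nm_cn_kbar D π (nmDsStr π 1) ω).symm, ?_, rfl, ?_, ?_⟩
  · unfold SfDoc.kbar
    rw [hl]
    have e : π.b2 (nmDsStr π 1).De - (nmDsStr π 1).De = -1 := by
      simp [nmDsStr, SfPar.b2]
    rw [e]
    rfl
  · show (D.labAt (nmDsStr π 1).De ω).be - D.kbar π (nmDsStr π 1) ω * (D.labAt (nmDsStr π 1).De ω).T = _
    rw [hl]
    rfl
  · show (D.labAt (nmDsStr π 1).De ω).Pd (D.ray 1 ω) + 2 * D.kbar π (nmDsStr π 1) ω * (D.ray 1 ω).B = _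
    rw [hl]

/-- **D1**: times, sizes, base.      LEAF L-256-E2H-CD-D1 (110 l.): `nm_conn_ray hD hπ hp.t0 hj hp.j1 h` (and `h'`): `Tρ ≤ T ≤ Tρ + len j0`, `bdist ≤ s^(1/t)`;   `hD.core.hlen.2 j0 hj`: `len j0 ≤ s^(j0 - t) ≤ s^a` (`hp.aj`, `nm_pw`);   `hD.core.own 1`: `0 ≤ T`, `T + len 1 ≤ 1`;
`hD.core.bdd 1`: sizes `≤ s^(-C0) ≤ s^(-(15 E0 + 1))`;   the test: it is `nmTs D.s π (ae2Q π 1) a v (D.nm π (ae2Q π 1) a v ω) T0 0 0` with `T0 = nmRep D.s a (D.T 1 ω) ∈ [0,1]` (`rfl`; `nm_rep_le`; the floor of a nonnegative number is nonnegative): `nm_cn_sz` with `ae2c_exp` for `e5 .. e10`;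
`bdist` : triangle inequality through `D.ray j0 ρ` in each of the three coordinates (`nm_cn_bdist_comm`). -/
theorem ae2c_d1 (hD : D.Ok π C0 τ κ0 t) (hπ : π.Valid) (hp : Ae2cPar π t a v j0 E0) (hC : |C0| ≤ E0) (hsm : (3200000000 : ℝ) ≤ D.s ^ (-(1 : ℝ)))
    (hj : j0 ∈ D.G) {ρ : D.Row j0} {ω ω' : D.Row 1} (h : D.Conn j0 1 ρ ω) (h' : D.Conn j0 1 ρ ω') :
    (0 ≤ D.T 1 ω ∧ D.T 1 ω ≤ 1) ∧ |D.T 1 ω' - D.T 1 ω| ≤ D.s ^ a ∧ D.len j0 ≤ D.s ^ a ∧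
      (D.ray 1 ω).size ≤ D.s ^ (-(15 * E0 + 1)) ∧ (D.ray 1 ω').size ≤ D.s ^ (-(15 * E0 + 1)) ∧
      ((ae2cA D π a v).ts ((ae2cA D π a v).nm (D.raw π (nmDsStr π 1) ω))).size ≤ D.s ^ (-(15 * E0 + 1)) ∧
      (D.ray 1 ω).bdist (D.ray 1 ω') ≤ 2 * D.s ^ (1 / t) := by
  have hs := hD.core.hs
  obtain ⟨x1, x2, x3, x4, x5, x6, x7, x8, x9⟩ := ae2c_exp D π a v
  obtain ⟨n1, n2, n3, -, -⟩ := nm_conn_ray hD hπ hp.t0 hj hp.j1 h
  obtain ⟨m1, m2, m3, -, -⟩ := nm_conn_ray hD hπ hp.t0 hj hp.j1 h'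
  have hlen : D.len j0 ≤ D.s ^ a := (hD.core.hlen.2 j0 hj).2.trans (nm_pw hs (by linarith [hp.aj]))
  have h1G := hD.core.gate.1
  obtain ⟨-, -, -, o1, o2⟩ := hD.core.own 1 h1G ω
  have hlen1 : 0 < D.len 1 := by
    rw [hD.core.hlen.1]
    exact hs.1
  have hT : 0 ≤ D.T 1 ω ∧ D.T 1 ω ≤ 1 := ⟨o1, by linarith⟩
  have hE1 := hp.e6
  have hsz : D.s ^ (-C0) ≤ D.s ^ (-(15 * E0 + 1)) := nm_pw hs (by linarith [le_abs_self C0])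
  have hm1 : |(-1 : ℝ)| ≤ E0 := by
    rw [abs_neg, abs_one]
    exact hE1
  refine ⟨hT, ?_, hlen, ((hD.core.bdd 1 h1G ω).1).trans hsz, ((hD.core.bdd 1 h1G ω').1).trans hsz, ?_, ?_⟩
  · rw [abs_le]
    constructor <;> linarith
  · have y5 : (ae2Q π 1).ds.b a = a - 1 := x5
    have y6 : (ae2Q π 1).l π a v = a - 1 + v := x6
    have y7 : (ae2Q π 1).w π a v = a - 1 + 2 * v := x7
    have y4 : (ae2Q π 1).g = 0 := x4
    have y8 : π.b2 (ae2Q π 1).ds.De - (ae2Q π 1).ds.De = -1 := x8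
    have hrep : |nmRep D.s a (D.T 1 ω)| ≤ 1 := by
      rw [abs_of_nonneg (ae2c_aux_fit_rep0 _ _ _ hT.1)]
      exact (nm_rep_le _ _ _).trans hT.2
    exact nm_cn_sz hD.core (ae2Q π 1) a v E0 hC hp.e1 hp.e2 hp.e3 hp.e4 (by rw [y5]; exact hp.e5)
      (by rw [y5]; have : a - 1 - a = -1 := by ring
          rw [this]; exact hm1)
      (by rw [y6]; exact hp.e7) (by rw [y7, y4, sub_zero]; exact hp.e8) (by rw [y7, y4, sub_zero]; exact hp.e9) (by rw [y8]; exact hm1)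
      hsm ω (nmRep D.s a (D.T 1 ω)) 0 0 hrep
  · simp only [SfRay.bdist, max_le_iff, abs_le] at n3 m3 ⊢
    obtain ⟨⟨p1, p2⟩, ⟨p3, p4⟩, p5, p6⟩ := n3
    obtain ⟨⟨q1, q2⟩, ⟨q3, q4⟩, q5, q6⟩ := m3
    refine ⟨⟨?_, ?_⟩, ⟨?_, ?_⟩, ?_, ?_⟩ <;> linarith

/-- **D2**: the normal coordinates.      LEAF L-256-E2H-CD-D2 (110 l.): `nm_conn_ray` for `ω`, `ω'`: `|N - Nρ| ≤ dN`, `|Dt Tρ - ρ.Dt Tρ| ≤ 2 len dN`, `dN := D.dN π t ≤ s^(-2t)` (unfold `SfDoc.dN`; `0` in the classical case);   `|N' - N| ≤ 2 dN`;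
with `τ = nmRep s a T`: `z.Dt τ - ρ.Dt τ = (z.Dt Tρ - ρ.Dt Tρ) + (τ - Tρ) (z.N - ρ.N)` (`ring` after `SfRay.Dt`), `|τ - Tρ| ≤ s^a` (`nm_rep_le`, `nm_rep_lt`, `nm_wd_le`, `Tρ ≤ T ≤ Tρ + len`, `len ≤ s^a`), so `|z'.Dt τ - z.Dt τ| ≤ 6 s^a dN`;
`s^(-2t) ≤ s^(-t) s^w` by `hp.hw` (`Real.rpow_add`, `nm_pw`). -/
theorem ae2c_d2 (hD : D.Ok π C0 τ κ0 t) (hπ : π.Valid) (hp : Ae2cPar π t a v j0 E0)
    (hj : j0 ∈ D.G) {ρ : D.Row j0} {ω ω' : D.Row 1} (h : D.Conn j0 1 ρ ω) (h' : D.Conn j0 1 ρ ω') :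
    |(D.ray 1 ω').N - (D.ray 1 ω).N| ≤ 12 * D.s ^ (-t) * D.s ^ (a - 1 + 2 * v) ∧
      |(D.ray 1 ω').Dt (nmRep D.s a (D.T 1 ω)) - (D.ray 1 ω).Dt (nmRep D.s a (D.T 1 ω))| ≤ 12 * D.s ^ (-t) * D.s ^ (a + (a - 1 + 2 * v)) := by
  have hs := hD.core.hs
  obtain ⟨p1, p2, -, p4, p5⟩ := nm_conn_ray hD hπ hp.t0 hj hp.j1 h
  obtain ⟨-, -, -, q4, q5⟩ := nm_conn_ray hD hπ hp.t0 hj hp.j1 h'
  have hlen0 := nm_len_pos hD.core hj
  have hlen : D.len j0 ≤ D.s ^ a := (hD.core.hlen.2 j0 hj).2.trans (nm_pw hs (by linarith [hp.aj]))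
  have hd0 := nm_dN_nonneg D π hs.1 t
  have hsa : 0 < D.s ^ a := Real.rpow_pos_of_pos hs.1 _
  have hst : 0 < D.s ^ (-t) := Real.rpow_pos_of_pos hs.1 _
  have hsw : 0 < D.s ^ (a - 1 + 2 * v) := Real.rpow_pos_of_pos hs.1 _
  have hd1 : D.dN π t ≤ D.s ^ (-t) * D.s ^ (a - 1 + 2 * v) := by
    have h1 : D.dN π t ≤ D.s ^ (-(2 * t)) := by
      unfold SfDoc.dN
      split_ifs
      · exact le_rfl
      · exact (Real.rpow_pos_of_pos hs.1 _).le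
    refine h1.trans ?_
    rw [← Real.rpow_add hs.1]
    exact nm_pw hs (by linarith [hp.hw])
  obtain ⟨dN, hdN⟩ : ∃ dN, dN = D.dN π t := ⟨_, rfl⟩
  rw [← hdN] at p4 p5 q4 q5 hd0 hd1
  obtain ⟨θ, hθ⟩ : ∃ θ, θ = nmRep D.s a (D.T 1 ω) := ⟨_, rfl⟩
  have t1 : θ ≤ D.T 1 ω := hθ ▸ nm_rep_le _ _ _
  have t2 : D.T 1 ω < θ + D.s ^ a := by
    have := nm_rep_lt D.s a (D.T 1 ω)
    rw [← hθ] at this
    linarith [nm_wd_le hs.1 hs.2 a]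
  rw [← hθ]
  have hθρ : |θ - D.T j0 ρ| ≤ D.s ^ a := abs_le.2 ⟨by linarith, by linarith⟩
  have key : ∀ z : SfRay, |z.N - (D.ray j0 ρ).N| ≤ dN → |z.Dt (D.T j0 ρ) - (D.ray j0 ρ).Dt (D.T j0 ρ)| ≤ 2 * D.len j0 * dN →
      |z.Dt θ - (D.ray j0 ρ).Dt θ| ≤ 3 * (D.s ^ a * dN) := by
    intro z z1 z2
    have e : z.Dt θ - (D.ray j0 ρ).Dt θ = (z.Dt (D.T j0 ρ) - (D.ray j0 ρ).Dt (D.T j0 ρ)) + (θ - D.T j0 ρ) * (z.N - (D.ray j0 ρ).N) := by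
      unfold SfRay.Dt
      ring
    rw [e]
    have m1 : |(θ - D.T j0 ρ) * (z.N - (D.ray j0 ρ).N)| ≤ D.s ^ a * dN := by
      rw [abs_mul]
      exact mul_le_mul hθρ z1 (abs_nonneg _) hsa.le
    have m2 : 2 * D.len j0 * dN ≤ 2 * (D.s ^ a * dN) := by
      have := mul_le_mul_of_nonneg_right hlen hd0
      linarith
    calc _ ≤ |z.Dt (D.T j0 ρ) - (D.ray j0 ρ).Dt (D.T j0 ρ)| + |(θ - D.T j0 ρ) * (z.N - (D.ray j0 ρ).N)| := abs_add_le _ _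
      _ ≤ 3 * (D.s ^ a * dN) := by linarith
  have hpos : 0 < D.s ^ (-t) * D.s ^ (a - 1 + 2 * v) := by positivity
  constructor
  · have e : (D.ray 1 ω').N - (D.ray 1 ω).N = ((D.ray 1 ω').N - (D.ray j0 ρ).N) - ((D.ray 1 ω).N - (D.ray j0 ρ).N) := by ring
    rw [e]
    calc _ ≤ |(D.ray 1 ω').N - (D.ray j0 ρ).N| + |(D.ray 1 ω).N - (D.ray j0 ρ).N| := abs_sub _ _
      _ ≤ 12 * D.s ^ (-t) * D.s ^ (a - 1 + 2 * v) := by linarith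
  · have k1 := key _ p4 p5
    have k2 := key _ q4 q5
    have e : (D.ray 1 ω').Dt θ - (D.ray 1 ω).Dt θ = ((D.ray 1 ω').Dt θ - (D.ray j0 ρ).Dt θ) - ((D.ray 1 ω).Dt θ - (D.ray j0 ρ).Dt θ) := by ring
    rw [e, Real.rpow_add hs.1 a]
    have m3 : D.s ^ a * dN ≤ D.s ^ a * (D.s ^ (-t) * D.s ^ (a - 1 + 2 * v)) := mul_le_mul_of_nonneg_left hd1 hsa.le
    have hpos2 : 0 < D.s ^ a * (D.s ^ (-t) * D.s ^ (a - 1 + 2 * v)) := by positivity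
    calc _ ≤ |(D.ray 1 ω').Dt θ - (D.ray j0 ρ).Dt θ| + |(D.ray 1 ω).Dt θ - (D.ray j0 ρ).Dt θ| := abs_sub _ _
      _ ≤ 6 * (D.s ^ a * (D.s ^ (-t) * D.s ^ (a - 1 + 2 * v))) := by linarith
      _ ≤ 12 * D.s ^ (-t) * (D.s ^ a * D.s ^ (a - 1 + 2 * v)) := by nlinarith

/-- **D3**: the global bins and the residual curvatures.      LEAF L-256-E2H-CD-D3 (160 l.): `μ = D.lab j0 ρ`, `lam = D.lab 1 ω`;   `hD.aff.cmpA j0 hj 1 _ hp.j1 ρ ω h`: `|μ.beAt T - lam.be| ≤ s^(min (b2 j0) (b2 1) - t)`, `|μ.K - lam.K| ≤ s^(min (b2 j0 - j0) (b2 1 - 1) - t)`;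
`b2 1 = 0`;   `-1 ≤ b2 j0 - j0` (`(q - 1) (j0 - 1) ≥ 0`), `a - 1 ≤ b2 j0` (`q ≥ 0`: `q (j0 - 1) ≥ j0 - 1`; `q < 0`: `≥ 0`): both errors are `≤ s^(-1-t)`, `≤ s^(a-1-t)`;   `ae2c_rawv`: `k̄ = nmRep s (-1) lam.K`, `nm_rep_abs`: `|lam.K - k̄| ≤ s^(-1) ≤ s^(-1-t)`.
First claim: four terms.   Second claim: IDENTITY (`ring` after `SfTest.beAt`):  expression `= (lam'.be - μ.beAt T') - (lam.be - μ.beAt T) + (T' - T) (μ.K - k̄) - (k̄' - k̄) (T' - τ)`, `τ = nmRep s a T`;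
`|T' - T| ≤ s^a` (as in D1), `|T' - τ| ≤ 2 s^a`, `|μ.K - k̄| ≤ 2 s^(-1-t)`: total `(2 + 2 + 8) s^(a-1-t)`. -/
theorem ae2c_d3 (hD : D.Ok π C0 τ κ0 t) (hπ : π.Valid) (h2 : π.q < 1) (hp : Ae2cPar π t a v j0 E0)
    (hj : j0 ∈ D.G) {ρ : D.Row j0} {ω ω' : D.Row 1} (h : D.Conn j0 1 ρ ω) (h' : D.Conn j0 1 ρ ω') :
    |D.kbar π (nmDsStr π 1) ω' - D.kbar π (nmDsStr π 1) ω| ≤ 4 * D.s ^ (-1 - t) ∧
      |((D.lab 1 ω').be - D.kbar π (nmDsStr π 1) ω' * D.T 1 ω') - ((D.lab 1 ω).be - D.kbar π (nmDsStr π 1) ω * D.T 1 ω)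
        + (D.kbar π (nmDsStr π 1) ω' - D.kbar π (nmDsStr π 1) ω) * nmRep D.s a (D.T 1 ω)| ≤ 12 * D.s ^ (-t) * D.s ^ (a - 1) := by
  have hc := hD.core
  obtain ⟨hs0, hs1⟩ := hc.hs
  have hs : 0 < D.s ∧ D.s < 1 := ⟨hs0, hs1⟩
  have h1G : (1 : ℝ) ∈ D.G := hc.gate.1
  obtain ⟨-, r2, -, -, -⟩ := ae2c_rawv D π a v ω
  obtain ⟨-, r2', -, -, -⟩ := ae2c_rawv D π a v ω'
  obtain ⟨c1, c2, -⟩ := hD.aff.cmpA j0 hj 1 h1G hp.j1 ρ ω h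
  obtain ⟨c1', c2', -⟩ := hD.aff.cmpA j0 hj 1 h1G hp.j1 ρ ω' h'
  obtain ⟨t1, t2, -, -, -⟩ := nm_conn_ray hD hπ hp.t0 hj hp.j1 h
  obtain ⟨t1', t2', -, -, -⟩ := nm_conn_ray hD hπ hp.t0 hj hp.j1 h'
  have ht0 := hp.t0
  have haj := hp.aj
  have hj1 := hp.j1
  have hq : 0 ≤ (π.q - 1) * (j0 - 1) := by nlinarith
  have e21 : π.b2 1 = 0 := by simp [SfPar.b2]
  have eb : π.b2 j0 = π.q * (j0 - 1) := rfl
  have x1 : a - 1 - t ≤ min (π.b2 j0) (π.b2 1) - t := by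
    rw [e21, eb]
    have : a - 1 ≤ min (π.q * (j0 - 1)) 0 := le_min (by nlinarith) (by linarith)
    linarith
  have x2 : -1 - t ≤ min (π.b2 j0 - j0) (π.b2 1 - 1) - t := by
    rw [e21, eb]
    have : -1 ≤ min (π.q * (j0 - 1) - j0) (0 - 1) := le_min (by nlinarith) (by norm_num)
    linarith
  have hA0 : 0 < D.s ^ a := Real.rpow_pos_of_pos hs0 _
  have hK0 : 0 < D.s ^ (-1 - t) := Real.rpow_pos_of_pos hs0 _
  have hP : D.s ^ (a - 1 - t) = D.s ^ a * D.s ^ (-1 - t) := by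
    rw [← Real.rpow_add hs0]
    congr 1
    ring
  have hP2 : D.s ^ (-t) * D.s ^ (a - 1) = D.s ^ a * D.s ^ (-1 - t) := by
    rw [← Real.rpow_add hs0, ← Real.rpow_add hs0]
    congr 1
    ring
  have b1 : |(D.lab j0 ρ).beAt (D.T 1 ω) - (D.lab 1 ω).be| ≤ D.s ^ a * D.s ^ (-1 - t) := c1.trans ((nm_pw hs x1).trans_eq hP)
  have b1' : |(D.lab j0 ρ).beAt (D.T 1 ω') - (D.lab 1 ω').be| ≤ D.s ^ a * D.s ^ (-1 - t) := c1'.trans ((nm_pw hs x1).trans_eq hP)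
  have k1 : |(D.lab j0 ρ).K - (D.lab 1 ω).K| ≤ D.s ^ (-1 - t) := c2.trans (nm_pw hs x2)
  have k1' : |(D.lab j0 ρ).K - (D.lab 1 ω').K| ≤ D.s ^ (-1 - t) := c2'.trans (nm_pw hs x2)
  have n1 : |(D.lab 1 ω).K - D.kbar π (nmDsStr π 1) ω| ≤ D.s ^ (-1 - t) := by
    rw [r2]
    exact (nm_rep_abs hs0 hs1 (-1) _).trans (nm_pw hs (by linarith))
  have n1' : |(D.lab 1 ω').K - D.kbar π (nmDsStr π 1) ω'| ≤ D.s ^ (-1 - t) := by
    rw [r2']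
    exact (nm_rep_abs hs0 hs1 (-1) _).trans (nm_pw hs (by linarith))
  have hlen : D.len j0 ≤ D.s ^ a := ((hc.hlen.2 j0 hj).2).trans (nm_pw hs (by linarith))
  have hTT : |D.T 1 ω' - D.T 1 ω| ≤ D.s ^ a := by
    rw [abs_le]
    constructor <;> linarith
  have hTτ : |D.T 1 ω - nmRep D.s a (D.T 1 ω)| ≤ D.s ^ a := nm_rep_abs hs0 hs1 a _
  obtain ⟨kb, hkb⟩ : ∃ kb, kb = D.kbar π (nmDsStr π 1) ω := ⟨_, rfl⟩
  obtain ⟨kb', hkb'⟩ : ∃ kb', kb' = D.kbar π (nmDsStr π 1) ω' := ⟨_, rfl⟩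
  obtain ⟨τ0, hτ0⟩ : ∃ τ0, τ0 = nmRep D.s a (D.T 1 ω) := ⟨_, rfl⟩
  rw [← hkb, ← hkb', ← hτ0]
  rw [← hkb] at n1
  rw [← hkb'] at n1'
  rw [← hτ0] at hTτ
  have f1 : |kb' - kb| ≤ 4 * D.s ^ (-1 - t) := by
    have a1 := abs_le.1 n1
    have a2 := abs_le.1 n1'
    have a3 := abs_le.1 k1
    have a4 := abs_le.1 k1'
    rw [abs_le]
    constructor <;> linarith [a1.1, a1.2, a2.1, a2.2, a3.1, a3.2, a4.1, a4.2]
  refine ⟨f1, ?_⟩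
  have hμk : |(D.lab j0 ρ).K - kb| ≤ 2 * D.s ^ (-1 - t) := by
    have a1 := abs_le.1 n1
    have a3 := abs_le.1 k1
    rw [abs_le]
    constructor <;> linarith [a1.1, a1.2, a3.1, a3.2]
  have hT2 : |D.T 1 ω' - τ0| ≤ 2 * D.s ^ a := by
    have a1 := abs_le.1 hTT
    have a3 := abs_le.1 hTτ
    rw [abs_le]
    constructor <;> linarith [a1.1, a1.2, a3.1, a3.2]
  have m1 : |(D.T 1 ω' - D.T 1 ω) * ((D.lab j0 ρ).K - kb)| ≤ D.s ^ a * (2 * D.s ^ (-1 - t)) := by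
    rw [abs_mul]
    exact mul_le_mul hTT hμk (abs_nonneg _) hA0.le
  have m2 : |(kb' - kb) * (D.T 1 ω' - τ0)| ≤ 4 * D.s ^ (-1 - t) * (2 * D.s ^ a) := by
    rw [abs_mul]
    exact mul_le_mul f1 hT2 (abs_nonneg _) (by positivity)
  have e : ((D.lab 1 ω').be - kb' * D.T 1 ω') - ((D.lab 1 ω).be - kb * D.T 1 ω) + (kb' - kb) * τ0
      = -((D.lab j0 ρ).beAt (D.T 1 ω') - (D.lab 1 ω').be) + ((D.lab j0 ρ).beAt (D.T 1 ω) - (D.lab 1 ω).be)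
        + (D.T 1 ω' - D.T 1 ω) * ((D.lab j0 ρ).K - kb) - (kb' - kb) * (D.T 1 ω' - τ0) := by
    simp only [SfTest.beAt]
    ring
  rw [e, mul_assoc, hP2]
  have a1 := abs_le.1 b1
  have a2 := abs_le.1 b1'
  have a3 := abs_le.1 m1
  have a4 := abs_le.1 m2
  rw [abs_le]
  constructor <;> linarith [a1.1, a1.2, a2.1, a2.2, a3.1, a3.2, a4.1, a4.2]

/-- **D4**: the actual derivatives.      LEAF L-256-E2H-CD-D4 (40 l.): third clause of `hD.aff.cmpA j0 hj 1 _ hp.j1 ρ ω h` and `.. ω' h'`, triangle inequality; `b1 1 = 0`; `hp.hl`; `2 s^(l - t) ≤ 12 s^(-t) s^l`. -/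
theorem ae2c_d4 (hD : D.Ok π C0 τ κ0 t) (hp : Ae2cPar π t a v j0 E0)
    (hj : j0 ∈ D.G) {ρ : D.Row j0} {ω ω' : D.Row 1} (h : D.Conn j0 1 ρ ω) (h' : D.Conn j0 1 ρ ω') :
    |(D.lab 1 ω').Pd (D.ray 1 ω') - (D.lab 1 ω).Pd (D.ray 1 ω)| ≤ 12 * D.s ^ (-t) * D.s ^ (a - 1 + v) := by
  have hs := hD.core.hs
  have h1 := (hD.aff.cmpA j0 hj 1 hD.core.gate.1 hp.j1 ρ ω h).2.2
  have h2 := (hD.aff.cmpA j0 hj 1 hD.core.gate.1 hp.j1 ρ ω' h').2.2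
  have hb : π.b1 1 = 0 := by
    unfold SfPar.b1
    ring
  rw [hb] at h1 h2
  have hm : D.s ^ (min (π.b1 j0) 0 - t) ≤ D.s ^ (-t) * D.s ^ (a - 1 + v) := by
    rw [← Real.rpow_add hs.1]
    exact Real.rpow_le_rpow_of_exponent_ge hs.1 hs.2.le (by linarith [hp.hl])
  have hpos : 0 ≤ D.s ^ (-t) * D.s ^ (a - 1 + v) := mul_nonneg (Real.rpow_nonneg hs.1.le _) (Real.rpow_nonneg hs.1.le _)
  have h3 : |(D.lab 1 ω').Pd (D.ray 1 ω') - (D.lab 1 ω).Pd (D.ray 1 ω)|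
      ≤ |(D.lab j0 ρ).Pd (D.ray j0 ρ) - (D.lab 1 ω').Pd (D.ray 1 ω')| + |(D.lab j0 ρ).Pd (D.ray j0 ρ) - (D.lab 1 ω).Pd (D.ray 1 ω)| := by
    have e : (D.lab 1 ω').Pd (D.ray 1 ω') - (D.lab 1 ω).Pd (D.ray 1 ω)
        = -((D.lab j0 ρ).Pd (D.ray j0 ρ) - (D.lab 1 ω').Pd (D.ray 1 ω')) + ((D.lab j0 ρ).Pd (D.ray j0 ρ) - (D.lab 1 ω).Pd (D.ray 1 ω)) := by ring
    rw [e]
    refine (abs_add_le _ _).trans ?_
    rw [abs_neg]
  nlinarith [h1.trans hm, h2.trans hm]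

/-- **D5**: the numerical hypotheses of `ae2c_raw`.      LEAF L-256-E2H-CD-D5 (120 l.): rewrite the exponents by `ae2c_exp`;   `q`: all fields of `NmQ.Ok` are trivial for `ae2Q π 1` (`bs = 1`, `cut = const`, `tp = quad`, `g = 0`);   `kp1`, `kp2`: `s^(-1-t) = s^(-t) s^(-1)`;
`θ`: `14 S² ε = 28 s^(1/t - 30 E0 - 2) ≤ s^(1/t - 30 E0 - 3) ≤ s^E0 ≤ s^x` for `|x| ≤ E0` (`hsm`: `28 ≤ s^(-1)`; `hp.eT`; `hp.e2, e3, e4, e7, e8, e9`). -/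
theorem ae2c_d5 (hs : 0 < D.s ∧ D.s < 1) (hπ : π.Valid) (h1 : π.c2 = 1) (h2 : π.q < 1) (hp : Ae2cPar π t a v j0 E0) (hsm : (3200000000 : ℝ) ≤ D.s ^ (-(1 : ℝ))) :
    Ae2cNum (ae2cA D π a v) (12 * D.s ^ (-t)) (D.s ^ (-(15 * E0 + 1))) (2 * D.s ^ (1 / t)) (4 * D.s ^ (-1 - t)) (8 * D.s ^ (-t)) := by
  obtain ⟨-, -, -, x4, x5, x6, x7, x8, x9⟩ := ae2c_exp D π a v
  have s0 := hs.1
  have pp : ∀ x : ℝ, 0 < D.s ^ x := fun x => Real.rpow_pos_of_pos s0 x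
  have anti : ∀ x y : ℝ, x ≤ y → D.s ^ y ≤ D.s ^ x := fun x y h => Real.rpow_le_rpow_of_exponent_ge s0 hs.2.le h
  have one : ∀ x : ℝ, x ≤ 0 → 1 ≤ D.s ^ x := by
    intro x hx
    have := anti x 0 hx
    rwa [Real.rpow_zero] at this
  have ht := hp.t0
  have hE := hp.e6
  have key : ∀ x : ℝ, |x| ≤ E0 → 14 * (D.s ^ (-(15 * E0 + 1))) ^ 2 * (2 * D.s ^ (1 / t)) ≤ D.s ^ x := by
    intro x hx
    have e1 : (D.s ^ (-(15 * E0 + 1))) ^ 2 = D.s ^ (-(30 * E0 + 2)) := by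
      rw [← Real.rpow_natCast, ← Real.rpow_mul s0.le]
      congr 1
      push_cast
      ring
    have h28 : (28 : ℝ) ≤ D.s ^ (-(1 : ℝ)) := le_trans (by norm_num) hsm
    have hpos : 0 ≤ D.s ^ (-(30 * E0 + 2)) * D.s ^ (1 / t) := (mul_pos (pp _) (pp _)).le
    calc 14 * (D.s ^ (-(15 * E0 + 1))) ^ 2 * (2 * D.s ^ (1 / t)) = 28 * (D.s ^ (-(30 * E0 + 2)) * D.s ^ (1 / t)) := by rw [e1]; ring
      _ ≤ D.s ^ (-(1 : ℝ)) * (D.s ^ (-(30 * E0 + 2)) * D.s ^ (1 / t)) := mul_le_mul_of_nonneg_right h28 hpos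
      _ = D.s ^ (-(1 : ℝ) + (-(30 * E0 + 2) + 1 / t)) := by rw [Real.rpow_add s0, Real.rpow_add s0]
      _ ≤ D.s ^ x := anti _ _ (by
          have := hp.eT
          have := (abs_le.1 hx).2
          linarith)
  have eb : (ae2cA D π a v).q.ds.b (ae2cA D π a v).a = a - 1 := x5
  have ea : (ae2cA D π a v).a = a := rfl
  have ev : (ae2cA D π a v).v = v := rfl
  have es : (ae2cA D π a v).s = D.s := rfl
  have e8 : (ae2cA D π a v).π.b2 (ae2cA D π a v).q.ds.De - (ae2cA D π a v).q.ds.De = -1 := x8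
  have em : D.s ^ (-t) * D.s ^ (-1 : ℝ) = D.s ^ (-1 - t) := by
    rw [← Real.rpow_add s0]
    congr 1
    ring
  refine ⟨s0, hs.2, ⟨?_, ?_, ?_, ?_, ?_⟩, x9, ?_, ?_, ?_, ?_, ?_, ?_, ?_, ?_, ?_, ?_, ?_, ?_, ?_⟩
  · show (0 : ℝ) ≤ 1
    norm_num
  · intro h
    rw [x9] at h
    cases h
  · intro h
    exact absurd rfl h
  · intro h
    cases h
  · exact le_of_eq x4.symm
  · have := one (-t) (by linarith)
    linarith
  · exact one _ (by linarith)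
  · exact (mul_pos (by norm_num) (pp _)).le
  · exact (mul_pos (by norm_num) (pp _)).le
  · rw [eb, ea, es]
    have e : a - 1 - a = (-1 : ℝ) := by ring
    rw [e, mul_assoc, em]
    exact mul_le_mul_of_nonneg_right (by norm_num) (pp _).le
  · rw [e8, es, mul_assoc, em]
    exact le_of_eq (by ring)
  · rw [x6, eb, ev]
  · rw [es, ev]
    exact key v hp.e2
  · rw [es, ea, ev]
    exact key _ hp.e3
  · rw [es, ea, ev]
    exact key _ hp.e4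
  · rw [es, x6]
    exact key _ hp.e7
  · rw [es, x7, x4, sub_zero]
    exact key _ hp.e8
  · rw [es, x7, x4, sub_zero, ea]
    exact key _ hp.e9

/-- **two final rows with a common predecessor are near** (glue) -/
theorem ae2c_doc (hD : D.Ok π C0 τ κ0 t) (hπ : π.Valid) (h2 : π.q < 1) (hp : Ae2cPar π t a v j0 E0) (hC : |C0| ≤ E0)
    (hsm : (3200000000 : ℝ) ≤ D.s ^ (-(1 : ℝ))) (hj : j0 ∈ D.G) {ρ : D.Row j0} {ω ω' : D.Row 1} (h : D.Conn j0 1 ρ ω) (h' : D.Conn j0 1 ρ ω') :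
    Ae2cNear (ae2cA D π a v) (12 * D.s ^ (-t)) (D.s ^ (-(15 * E0 + 1))) (2 * D.s ^ (1 / t)) (4 * D.s ^ (-1 - t))
      (D.ray 1 ω) (D.ray 1 ω') (D.raw π (nmDsStr π 1) ω) (D.raw π (nmDsStr π 1) ω') := by
  obtain ⟨x1, x2, x3, x4, x5, x6, x7, x8, x9⟩ := ae2c_exp D π a v
  obtain ⟨r1, r2, r3, r4, r5⟩ := ae2c_rawv D π a v ω
  obtain ⟨r1', r2', r3', r4', r5'⟩ := ae2c_rawv D π a v ω'
  obtain ⟨a1, a2, a3, a4, a5, a6, a7⟩ := ae2c_d1 hD hπ hp hC hsm hj h h'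
  obtain ⟨b1, b2⟩ := ae2c_d2 hD hπ hp hj h h'
  obtain ⟨c1, c2⟩ := ae2c_d3 hD hπ h2 hp hj h h'
  have d1 := ae2c_d4 hD hp hj h h'
  refine ⟨?_, ?_, ?_, ?_, a4, a5, a6, a7, ?_, ?_, ?_, ?_, ?_⟩
  · rw [r1]; rfl
  · rw [r1']; rfl
  · rw [r3]; exact a1
  · rw [r3, r3']; exact a2
  · rw [x7, x4, sub_zero]; exact b1
  · rw [x7, x4, sub_zero]
    exact b2
  · rw [r1, r1']; exact c1
  · rw [r1, r1', r4, r4']
    have e : (ae2cA D π a v).q.ds.b (ae2cA D π a v).a = a - 1 := x5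
    rw [e]
    exact c2
  · rw [r1, r1', r5, r5', x6]
    have e : (D.lab 1 ω').Pd (D.ray 1 ω') + 2 * D.kbar π (nmDsStr π 1) ω' * (D.ray 1 ω').B - 2 * D.kbar π (nmDsStr π 1) ω' * (D.ray 1 ω').B
        - ((D.lab 1 ω).Pd (D.ray 1 ω) + 2 * D.kbar π (nmDsStr π 1) ω * (D.ray 1 ω).B - 2 * D.kbar π (nmDsStr π 1) ω * (D.ray 1 ω).B)
        = (D.lab 1 ω').Pd (D.ray 1 ω') - (D.lab 1 ω).Pd (D.ray 1 ω) := by ring
    rw [e]
    exact d1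

/-- **finite-scale exit** -/
theorem ae2c_fin (hD : D.Ok π C0 τ κ0 t) (hπ : π.Valid) (h1 : π.c2 = 1) (h2 : π.q < 1) (hp : Ae2cPar π t a v j0 E0) (hC : |C0| ≤ E0)
    (hsm : (3200000000 : ℝ) ≤ D.s ^ (-(1 : ℝ))) (hj : j0 ∈ D.G) :
    ∃ L : NmNm → Finset NmNm, (∀ n, ((L n).card : ℝ) ≤ (2 * (8 * D.s ^ (-t)) + 1) * (10 ^ 12 * (20 * (12 * D.s ^ (-t))) ^ 10)) ∧
      ∀ (ρ : D.Row j0) (ω ω' : D.Row 1), D.Conn j0 1 ρ ω → D.Conn j0 1 ρ ω' → D.nm π (ae2Q π 1) a v ω' ∈ L (D.nm π (ae2Q π 1) a v ω) := by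
  obtain ⟨L, hL, hm⟩ := ae2c_raw (ae2c_d5 hD.core.hs hπ h1 h2 hp hsm)
  exact ⟨L, hL, fun ρ ω ω' h h' => hm _ _ _ _ (ae2c_doc hD hπ h2 hp hC hsm hj h h')⟩

/-- **TYPE A EXIT**: the names of two final rows with a common predecessor at the gate near `j` lie in mutual lists determined by the names.      LEAF L-256-E2H-CD-D6 (150 l.): unfold `NmA`; `w = a - 1 + 2 v`, `l = a - 1 + v` (`ae2c_exp` or `simp [ae2Q, nmDsStr, NmQ.w, NmQ.l, NmDs.b, SfPar.b2]`);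
`E0 := |C0| + 2 |a| + 2 |v| + 3`;   `t0 ≤` each of: `(j - a) / 2`, `(1 - j) / 2`, `-w`, `(min (b1 j) 0 - l) / (|q - J| + 1)`, `1 / (31 E0 + 3)`, `acc / 22`, `1 / 3200000000`, and the `t1` of `nm_cn_const` for `c = 17 * 10^12 * 240^10`, `κ = acc / 2`;
`j0 = D.gt j`: `nm_gt_near`, `nm_gt_mem`;   `D.Fine` gives `D.Ok .. t0`, `D.s ≤ t0`;   `Ae2cPar π t0 a v j0 E0`;   `ae2c_fin`;   count: `(16 x + 1) 10^12 (240 x)^10 ≤ 17 * 10^12 * 240^10 x^11`, `x = s^(-t0) ≥ 1`, `x^11 = s^(-11 t0) ≤ s^(-acc/2)`. -/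
theorem ae2c_names (π : SfPar) (hπ : π.Valid) (h1 : π.c2 = 1) (h2 : π.q < 1) (C0 τ κ0 j a v : ℝ) (ha : 0 ≤ a ∧ a < j ∧ j < 1)
    (hw : (ae2Q π 1).w π a v < 0) (hl : (ae2Q π 1).l π a v < min (π.b1 j) 0) :
    NmA π C0 τ κ0 fun acc D => ∃ L : NmNm → Finset NmNm, (∀ n, ((L n).card : ℝ) ≤ D.s ^ (-acc)) ∧
      ∀ (ρ : D.Row (D.gt j)) (ω ω' : D.Row 1), D.Conn (D.gt j) 1 ρ ω → D.Conn (D.gt j) 1 ρ ω' →
        D.nm π (ae2Q π 1) a v ω' ∈ L (D.nm π (ae2Q π 1) a v ω) := by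
  have ew : (ae2Q π 1).w π a v = a - 1 + 2 * v := by simp [ae2Q, nmDsStr, NmQ.w, NmDs.b, SfPar.b2]
  have el : (ae2Q π 1).l π a v = a - 1 + v := by simp [ae2Q, nmDsStr, NmQ.l, NmDs.b, SfPar.b2]
  rw [ew] at hw
  rw [el] at hl
  intro acc hacc
  obtain ⟨E0, hE0⟩ : ∃ E0 : ℝ, E0 = |C0| + 2 * |a| + 2 * |v| + 3 := ⟨_, rfl⟩
  obtain ⟨Q, hQ⟩ : ∃ Q : ℝ, Q = |π.q - π.J| + 1 := ⟨_, rfl⟩
  obtain ⟨m, hm⟩ : ∃ m : ℝ, m = min (π.b1 j) 0 := ⟨_, rfl⟩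
  rw [← hm] at hl
  have hQ1 : 1 ≤ Q := by rw [hQ]; linarith [abs_nonneg (π.q - π.J)]
  have hQ0 : 0 < Q := by linarith
  have hE3 : 3 ≤ E0 := by rw [hE0]; linarith [abs_nonneg C0, abs_nonneg a, abs_nonneg v]
  have hE31 : 0 < 31 * E0 + 3 := by linarith
  obtain ⟨t1, ht1, hc⟩ := nm_cn_const (c := 17 * 10 ^ 12 * 240 ^ 10) (κ := acc / 2) (by norm_num) (by linarith)
  obtain ⟨t0, ht0, g1, g2, g3, g4, g5, g6, g7, g8⟩ : ∃ t0 : ℝ, 0 < t0 ∧ t0 ≤ (j - a) / 2 ∧ t0 ≤ (1 - j) / 2 ∧ t0 ≤ -(a - 1 + 2 * v) ∧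
      t0 ≤ (m - (a - 1 + v)) / Q ∧ t0 ≤ 1 / (31 * E0 + 3) ∧ t0 ≤ acc / 22 ∧ t0 ≤ 1 / 3200000000 ∧ t0 ≤ t1 := by
    refine ⟨min ((j - a) / 2) (min ((1 - j) / 2) (min (-(a - 1 + 2 * v)) (min ((m - (a - 1 + v)) / Q) (min (1 / (31 * E0 + 3))
      (min (acc / 22) (min (1 / 3200000000) t1)))))), ?_, ?_, ?_, ?_, ?_, ?_, ?_, ?_, ?_⟩
    · have p1 : 0 < (j - a) / 2 := by linarith [ha.2.1]
      have p2 : 0 < (1 - j) / 2 := by linarith [ha.2.2]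
      have p3 : 0 < -(a - 1 + 2 * v) := by linarith
      have p4 : 0 < (m - (a - 1 + v)) / Q := div_pos (by linarith) hQ0
      have p5 : 0 < 1 / (31 * E0 + 3) := div_pos one_pos hE31
      have p6 : 0 < acc / 22 := by linarith
      have p7 : (0 : ℝ) < 1 / 3200000000 := by norm_num
      exact lt_min p1 (lt_min p2 (lt_min p3 (lt_min p4 (lt_min p5 (lt_min p6 (lt_min p7 ht1))))))
    · exact min_le_left _ _
    · exact (min_le_right _ _).trans (min_le_left _ _)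
    · exact (min_le_right _ _).trans ((min_le_right _ _).trans (min_le_left _ _))
    · exact (min_le_right _ _).trans ((min_le_right _ _).trans ((min_le_right _ _).trans (min_le_left _ _)))
    · exact (min_le_right _ _).trans ((min_le_right _ _).trans ((min_le_right _ _).trans ((min_le_right _ _).trans (min_le_left _ _))))
    · exact (min_le_right _ _).trans ((min_le_right _ _).trans ((min_le_right _ _).trans ((min_le_right _ _).trans ((min_le_right _ _).trans (min_le_left _ _)))))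
    · exact (min_le_right _ _).trans ((min_le_right _ _).trans ((min_le_right _ _).trans ((min_le_right _ _).trans ((min_le_right _ _).trans
        ((min_le_right _ _).trans (min_le_left _ _))))))
    · exact (min_le_right _ _).trans ((min_le_right _ _).trans ((min_le_right _ _).trans ((min_le_right _ _).trans ((min_le_right _ _).trans
        ((min_le_right _ _).trans (min_le_right _ _))))))
  refine ⟨t0, ht0, fun D hF _ => ?_⟩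
  have hD := hF.ok
  have hs := hD.core.hs
  have hnear := abs_le.1 (nm_gt_near hF (by linarith [ha.1, ha.2.1] : (0 : ℝ) ≤ j) ha.2.2.le)
  have hj : D.gt j ∈ D.G := by
    obtain ⟨i, hi, -⟩ := hF.mesh j (by linarith [ha.1, ha.2.1]) ha.2.2.le
    exact nm_gt_mem D ⟨i, hi⟩ j
  obtain ⟨j0, hj0⟩ : ∃ j0 : ℝ, j0 = D.gt j := ⟨_, rfl⟩
  rw [← hj0] at hnear hj
  have hQt : Q * t0 ≤ m - (a - 1 + v) := by
    have := (le_div_iff₀ hQ0).1 g4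
    linarith
  have hb : π.b1 j - Q * t0 ≤ π.b1 j0 := by
    have e : π.b1 j0 = π.b1 j + (π.q - π.J) * (j0 - j) := by unfold SfPar.b1; ring
    have h3 : |(π.q - π.J) * (j0 - j)| ≤ |π.q - π.J| * t0 := by
      rw [abs_mul]
      exact mul_le_mul_of_nonneg_left (abs_le.2 hnear) (abs_nonneg _)
    have h4 := (abs_le.1 h3).1
    rw [e, hQ]
    nlinarith
  have hQt0 : 0 ≤ Q * t0 := by positivity
  have hp : Ae2cPar π t0 a v j0 E0 := by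
    have A1 := abs_le.1 (le_refl |a|)
    have A2 := abs_le.1 (le_refl |v|)
    have A3 := abs_nonneg C0
    refine ⟨ht0, ha.1, by linarith [hnear.1], by linarith [hnear.2, ha.2.2], by linarith, ?_, ?_, ?_, ?_, ?_, ?_, by linarith, ?_, ?_, ?_, ?_⟩
    · refine le_min ?_ ?_
      · have : m ≤ π.b1 j := by rw [hm]; exact min_le_left _ _
        linarith
      · have : m ≤ 0 := by rw [hm]; exact min_le_right _ _
        linarith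
    · rw [hE0]; linarith [abs_nonneg a, abs_nonneg v]
    · rw [hE0]; linarith [abs_nonneg a, abs_nonneg v]
    · rw [hE0]; exact abs_le.2 ⟨by linarith [A1.1, A1.2, A2.1, A2.2], by linarith [A1.1, A1.2, A2.1, A2.2]⟩
    · rw [hE0]; exact abs_le.2 ⟨by linarith [A1.1, A1.2, A2.1, A2.2], by linarith [A1.1, A1.2, A2.1, A2.2]⟩
    · rw [hE0]; exact abs_le.2 ⟨by linarith [A1.1, A1.2, A2.1, A2.2], by linarith [A1.1, A1.2, A2.1, A2.2]⟩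
    · rw [hE0]; exact abs_le.2 ⟨by linarith [A1.1, A1.2, A2.1, A2.2], by linarith [A1.1, A1.2, A2.1, A2.2]⟩
    · rw [hE0]; exact abs_le.2 ⟨by linarith [A1.1, A1.2, A2.1, A2.2], by linarith [A1.1, A1.2, A2.1, A2.2]⟩
    · rw [hE0]; exact abs_le.2 ⟨by linarith [A1.1, A1.2, A2.1, A2.2], by linarith [A1.1, A1.2, A2.1, A2.2]⟩
    · rw [le_div_iff₀ ht0]
      have := (le_div_iff₀ hE31).1 g5
      linarith
  have hC : |C0| ≤ E0 := by rw [hE0]; linarith [abs_nonneg a, abs_nonneg v]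
  have hsm : (3200000000 : ℝ) ≤ D.s ^ (-(1 : ℝ)) := by
    rw [Real.rpow_neg_one, ← one_div, le_div_iff₀ hs.1]
    have : D.s ≤ 1 / 3200000000 := hF.sm.trans g7
    linarith
  subst hj0
  obtain ⟨L, hL, hmem⟩ := ae2c_fin hD hπ h1 h2 hp hC hsm hj
  refine ⟨L, fun n => (hL n).trans ?_, hmem⟩
  obtain ⟨x, hx⟩ : ∃ x : ℝ, x = D.s ^ (-t0) := ⟨_, rfl⟩
  rw [← hx]
  have hx1 : 1 ≤ x := by
    rw [hx]
    exact Real.one_le_rpow_of_pos_of_le_one_of_nonpos hs.1 hs.2.le (by linarith)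
  have hx11 : x ^ 11 ≤ D.s ^ (-(acc / 2)) := by
    rw [hx, ← Real.rpow_natCast, ← Real.rpow_mul hs.1.le]
    refine nm_pw hs ?_
    push_cast
    linarith
  have hcc := hc D.s hs.1 (hF.sm.trans g8)
  have e1 : D.s ^ (-acc) = D.s ^ (-(acc / 2)) * D.s ^ (-(acc / 2)) := by
    rw [← Real.rpow_add hs.1]
    congr 1
    ring
  have hx10 : 0 ≤ x ^ 10 := by positivity
  calc (2 * (8 * x) + 1) * (10 ^ 12 * (20 * (12 * x)) ^ 10) = (16 * x + 1) * x ^ 10 * (10 ^ 12 * 240 ^ 10) := by ring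
    _ ≤ (17 * x) * x ^ 10 * (10 ^ 12 * 240 ^ 10) := by
        refine mul_le_mul_of_nonneg_right (mul_le_mul_of_nonneg_right (by linarith) hx10) (by positivity)
    _ = (17 * 10 ^ 12 * 240 ^ 10) * x ^ 11 := by ring
    _ ≤ D.s ^ (-(acc / 2)) * D.s ^ (-(acc / 2)) := mul_le_mul hcc hx11 (by positivity) (Real.rpow_nonneg hs.1.le _)
    _ = D.s ^ (-acc) := e1.symm

end

end Claimed.Agent.R256
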