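import Claimed.Agent.R256.Nm.Can.Test
import Claimed.Agent.R256.Nm.Fit.Main

/-!
# Row 256, section Act, block E2H (hybrid boundary experiment), part CD, file 1: NEAR RAW DATA HAVE NAMES IN MUTUAL LISTS DETERMINED BY THE NAME      (helper156; prefix `ae2c_`)

PAPER-FREE, no `SfDoc`   (06-cylinder-actions.tex l.470-486).
* `A.kv c` = the decoded global bin;   `A.ts n` = the test of the name `n` at its own time `t_a`, ACTUAL frame (`nmTs` of `Nm/Can/Test.lean`).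
* `Ae2cNear A M S ε kp z z' x x'` = INTERFACE (producer: CD-DOC, helper209): two raw data `x`, `x'` of a display with a CONSTANT cut, with their actual rays `z`, `z'`, which are near at the depth `(a, v)`:
  times within `s^a`, base rays within `ε` (negligible), normal coordinates within `M s^(w-g)`, `M s^(a+w-g)` (at `t_a`), global bins within `kp`,
  residual curvatures equal up to `M s^(b a)` AFTER the change of the global bin at the time `t_a`, actual derivatives within `M s^l`.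
* EXIT `ae2c_raw` : a list `L n` of `≤ (2 Mk + 1) 10^12 (20 M)^10` names, DETERMINED BY THE NAME `n = A.nm x`, contains `A.nm x'`.
PROOF: `x` lies in the test of its name (`nm_cn_cell`), `z'` is a perturbation of `z` (`nm_cn_pert`), so `x'` fits the test `(A.ts n).res (A.kv x'.kb)` (`nm_res_N`, `nm_res_D`, `nm_res_Pd`); `nm_fit_list_Q`; union over the bins `x'.kb` near `n.kb`.
-/

set_option autoImplicit false

namespace Claimed.Agent.R256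

open Classical

noncomputable section

/-- the decoded global bin -/
def NmAv.kv (A : NmAv) (c : ℤ) : ℝ := nmVal A.s (A.π.b2 A.q.ds.De - A.q.ds.De) c

/-- the test of the name `n` at its own time, actual frame -/
def NmAv.ts (A : NmAv) (n : NmNm) : SfTest := nmTs A.s A.π A.q A.a A.v n (n.tv A.s A.a) 0 0

/-- **two near raw data** (with their actual rays) -/
structure Ae2cNear (A : NmAv) (M S ε kp : ℝ) (z z' : SfRay) (x x' : NmRaw) : Prop where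
  hz : x.z = z.res (A.kv x.kb)
  hz' : x'.z = z'.res (A.kv x'.kb)
  T0 : 0 ≤ x.T ∧ x.T ≤ 1
  time : |x'.T - x.T| ≤ A.s ^ A.a
  sz : z.size ≤ S
  sz' : z'.size ≤ S
  sQ : (A.ts (A.nm x)).size ≤ S
  base : z.bdist z' ≤ ε
  N : |z'.N - z.N| ≤ M * A.s ^ (A.w - A.q.g)
  D : |z'.Dt (x.ta A.s A.a) - z.Dt (x.ta A.s A.a)| ≤ M * A.s ^ (A.a + A.w - A.q.g)
  kb : |A.kv x'.kb - A.kv x.kb| ≤ kp
  be : |x'.be - x.be + (A.kv x'.kb - A.kv x.kb) * x.ta A.s A.a| ≤ M * A.s ^ (A.q.ds.b A.a)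
  P : |(x'.P - 2 * A.kv x'.kb * z'.B) - (x.P - 2 * A.kv x.kb * z.B)| ≤ M * A.s ^ A.l

/-- the numerical hypotheses -/
structure Ae2cNum (A : NmAv) (M S ε kp Mk : ℝ) : Prop where
  s0 : 0 < A.s
  s1 : A.s < 1
  q : A.q.Ok A.π
  cut : A.q.ds.cut = NmCut.const
  M1 : 1 ≤ M
  S1 : 1 ≤ S
  ε0 : 0 ≤ ε
  kp0 : 0 ≤ kp
  kp1 : kp ≤ M * A.s ^ (A.q.ds.b A.a - A.a)
  kp2 : 2 * kp ≤ Mk * A.s ^ (A.π.b2 A.q.ds.De - A.q.ds.De)
  hl : A.l ≤ A.q.ds.b A.a + A.v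
  θ1 : 14 * S ^ 2 * ε ≤ A.s ^ A.v
  θ2 : 14 * S ^ 2 * ε ≤ A.s ^ (A.a + A.v)
  θ3 : 14 * S ^ 2 * ε ≤ A.s ^ (A.a + 2 * A.v)
  θ4 : 14 * S ^ 2 * ε ≤ A.s ^ A.l
  θ5 : 14 * S ^ 2 * ε ≤ A.s ^ (A.w - A.q.g)
  θ6 : 14 * S ^ 2 * ε ≤ A.s ^ (A.a + A.w - A.q.g)

/-- the widths of the fit -/
def ae2cW (A : NmAv) (M kp : ℝ) : NmFw :=
  ⟨20 * M, 3 * A.s ^ (A.a + A.v), 15 * A.s ^ (A.a + 2 * A.v), (M + 1) * A.s ^ (A.q.ds.b A.a), kp⟩

theorem ae2c_raw_eqns_cite : True := by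
  have := @NmAv.kv.eq_1; have := @NmAv.ts.eq_1; have := @ae2cW.eq_1
  trivial

variable {A : NmAv} {M S ε kp Mk : ℝ}

/-- the widths are admissible.      LEAF L-256-E2H-CD-R1 (60 l.): fields of `NmAv.Ok` for `ae2cW`: `h1`, `h2`, `hR`: constants `3, 15, M + 1 ≤ 20 M`;
`h3`: `(M+1) s^(b a) s^v = (M+1) s^(b a + v) ≤ (M+1) s^l` (`h.hl`, `nm_pow_anti`);   `h4`: `kp * 3 s^(a+v) ≤ 3 M s^(b a - a) s^(a+v) = 3 M s^(b a + v) ≤ 3 M s^l` (`h.kp1`);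
`h6`: `kp * 15 s^(a+2v) ≤ 15 M s^(b a + 2 v) ≤ 15 M s^(w - g)` (`nm_w_eq : w = l + v`, `h.q.g0`);   `hk`: `h.cut` contradicts `slope`. -/
theorem ae2c_ok (h : Ae2cNum A M S ε kp Mk) : A.Ok (ae2cW A M kp) := by
  have s0 := h.s0
  have s1 := h.s1
  have hM := h.M1
  have pp : ∀ x : ℝ, 0 < A.s ^ x := fun x => Real.rpow_pos_of_pos s0 x
  have e1 : A.s ^ (A.q.ds.b A.a) * A.s ^ A.v = A.s ^ (A.q.ds.b A.a + A.v) := (Real.rpow_add s0 _ _).symm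
  have e2 : A.s ^ (A.q.ds.b A.a - A.a) * A.s ^ (A.a + A.v) = A.s ^ (A.q.ds.b A.a + A.v) := by
    rw [← Real.rpow_add s0]; congr 1; ring
  have e3 : A.s ^ (A.q.ds.b A.a - A.a) * A.s ^ (A.a + 2 * A.v) = A.s ^ (A.q.ds.b A.a + 2 * A.v) := by
    rw [← Real.rpow_add s0]; congr 1; ring
  have a1 : A.s ^ (A.q.ds.b A.a + A.v) ≤ A.s ^ A.l := nm_pow_anti s0 s1 h.hl
  have hw : A.w = A.l + A.v := nm_w_eq A.q A.π A.a A.v
  have a2 : A.s ^ (A.q.ds.b A.a + 2 * A.v) ≤ A.s ^ (A.w - A.q.g) := by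
    apply nm_pow_anti s0 s1
    have := h.q.g0
    have := h.hl
    rw [hw]; linarith
  refine ⟨s0, s1, h.q, ?_, ?_, ?_, ?_, ?_, ?_, ?_, ?_, ?_, ?_, ?_, ?_⟩
  · show (1 : ℝ) ≤ 20 * M
    linarith
  · show (0 : ℝ) ≤ 3 * A.s ^ (A.a + A.v)
    have := pp (A.a + A.v); linarith
  · show (0 : ℝ) ≤ 15 * A.s ^ (A.a + 2 * A.v)
    have := pp (A.a + 2 * A.v); linarith
  · show (0 : ℝ) ≤ (M + 1) * A.s ^ (A.q.ds.b A.a)
    exact mul_nonneg (by linarith) (pp _).le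
  · exact h.kp0
  · show 3 * A.s ^ (A.a + A.v) ≤ 20 * M * A.s ^ (A.a + A.v)
    exact mul_le_mul_of_nonneg_right (by linarith) (pp _).le
  · show 15 * A.s ^ (A.a + 2 * A.v) ≤ 20 * M * A.s ^ (A.a + 2 * A.v)
    exact mul_le_mul_of_nonneg_right (by linarith) (pp _).le
  · show (M + 1) * A.s ^ (A.q.ds.b A.a) * A.s ^ A.v ≤ 20 * M * A.s ^ A.l
    rw [mul_assoc, e1]
    exact mul_le_mul (by linarith) a1 (pp _).le (by linarith)
  · show kp * (3 * A.s ^ (A.a + A.v)) ≤ 20 * M * A.s ^ A.l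
    have k1 : kp * A.s ^ (A.a + A.v) ≤ M * A.s ^ (A.q.ds.b A.a + A.v) := by
      rw [← e2, ← mul_assoc]
      exact mul_le_mul_of_nonneg_right h.kp1 (pp _).le
    have k2 : M * A.s ^ (A.q.ds.b A.a + A.v) ≤ M * A.s ^ A.l := mul_le_mul_of_nonneg_left a1 (by linarith)
    have k3 : 0 ≤ M * A.s ^ A.l := mul_nonneg (by linarith) (pp _).le
    nlinarith
  · show kp * (15 * A.s ^ (A.a + 2 * A.v)) ≤ 20 * M * A.s ^ (A.w - A.q.g)
    have k1 : kp * A.s ^ (A.a + 2 * A.v) ≤ M * A.s ^ (A.q.ds.b A.a + 2 * A.v) := by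
      rw [← e3, ← mul_assoc]
      exact mul_le_mul_of_nonneg_right h.kp1 (pp _).le
    have k2 : M * A.s ^ (A.q.ds.b A.a + 2 * A.v) ≤ M * A.s ^ (A.w - A.q.g) := mul_le_mul_of_nonneg_left a2 (by linarith)
    have k3 : 0 ≤ M * A.s ^ (A.w - A.q.g) := mul_nonneg (by linarith) (pp _).le
    nlinarith
  · intro _
    show (M + 1) * A.s ^ (A.q.ds.b A.a) ≤ 20 * M * A.s ^ (A.q.ds.b A.a)
    exact mul_le_mul_of_nonneg_right (by linarith) (pp _).le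
  · intro hc
    rw [h.cut] at hc
    exact absurd hc (by simp)

theorem ae2c_aux_fit_rep0 (s b x : ℝ) (hx : 0 ≤ x) : 0 ≤ nmRep s b x := by
  unfold nmRep nmCell
  exact div_nonneg (Int.cast_nonneg (Int.floor_nonneg.2 (mul_nonneg hx (zpow_nonneg (by norm_num) _)))) (zpow_nonneg (by norm_num) _)

/-- **the second raw datum fits the test of the name of the first one**, in its own residual frame.      LEAF L-256-E2H-CD-R2 (220 l.).   Put `n = A.nm x`, `T = n.tv = x.ta A.s A.a` (rfl), `Q = A.ts n`, `k = A.kv x.kb = n.kbv` (rfl), `k' = A.kv x'.kb`, `Q' = Q.res k'`.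
(1) `nm_cn_cell h.s0 h.s1 A.π A.q A.a A.v x z hn.hz T (A.s ^ A.a) 1 0 0` (`|T - x.ta| = 0`): the five expressions of `Q` on `z` are `≤ s^v, 2 s^a s^v, 2 s^a (s^v)², s^(w-g), 2 s^a s^(w-g)`.
(2) `nm_cn_pert Q z z' S ε _ _` (`0 ≤ T ≤ 1`: `nm_rep_le`, and `0 ≤ nmRep` of a nonnegative number; `hn.sQ`, `hn.sz`, `hn.sz'`, `hn.base`, `hn.N`, `hn.D`): the same on `z'`, errors `ε, 2 ε, 7 S ε, 14 S² ε ≤ 14 S² ε ≤` the widths `h.θ1..θ6`.
(3) fields: `time`: `|x'.T - T| ≤ |x'.T - x.T| + |x.T - nmRep ..| ≤ 2 s^a` (`nm_rep_abs`);   `B`: `x'.z.Bt = z'.Bt` (`hn.hz'`, `SfRay.res` keeps `X, B, Y`), `≤ 3 s^(a+v)`;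
  `Y`: the expression is `Q.eQ z' - 2 (z'.X - Q.x) (z'.Bt T - Q.b)`, `≤ 3 s^(a+2v) + 2 * 2 s^v * 3 s^(a+v) = 15 s^(a+2v)`;
  `R`: `x'.RrawAt = x'.be` (`h.cut`), `Q'.be = x.Ra + k T - k' T` (`n.Rv = nmRep (b a) x.be`, the term `(T - n.tv) * n.kv` vanishes), so the difference is `(x'.be - x.be + (k' - k) T) + (x.be - nmRep ..)`: `hn.be`, `nm_rep_abs`;
  `k`: `x'.kraw = 0` (`nm_ge_kraw`), `n.kv = 0` (`nm_cell_zero`), `Q'.K = k - k'`: `hn.kb`;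
  `P`: `nm_res_Pd`: `Q'.Pd x'.z = Q.Pd z' + 2 k' z'.B`;   `x'.P - Q'.Pd x'.z = [hn.P] + [(x.P - 2 k z.B) - Q.Pd z] + [Q.Pd z - Q.Pd z']`;   the second bracket is `x.Lraw - nmRep l x.Lraw` (`ring` after unfolding; `x.ka = 0`), the third is `2 Q.be (X - X') - 2 Q.K (Bt - Bt')`, `≤ 6 S ε`;
  `N`, `D`: `nm_res_N`, `nm_res_D` (the expressions of `NmFit` are `Q'.eN x'.z`, `Q'.eD x'.z` by `rfl`), then (2).   Last claim: `Q'.x = Q.x`, `≤ s^v + ε ≤ 2 s^v`. -/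
theorem ae2c_fit (h : Ae2cNum A M S ε kp Mk) {z z' : SfRay} {x x' : NmRaw} (hn : Ae2cNear A M S ε kp z z' x x') :
    NmFit A (ae2cW A M kp) ((A.ts (A.nm x)).res (A.kv x'.kb)) x' ∧
      |x'.z.X - ((A.ts (A.nm x)).res (A.kv x'.kb)).x| ≤ (ae2cW A M kp).M * A.s ^ A.v := by
  have h0 := h.s0
  have h1 := h.s1
  have hM := h.M1
  have hS := h.S1
  have hε := h.ε0
  have pa : 0 < A.s ^ A.a := Real.rpow_pos_of_pos h0 _
  have pv : 0 < A.s ^ A.v := Real.rpow_pos_of_pos h0 _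
  have pl : 0 < A.s ^ A.l := Real.rpow_pos_of_pos h0 _
  have pb : 0 < A.s ^ (A.q.ds.b A.a) := Real.rpow_pos_of_pos h0 _
  have pw : 0 < A.s ^ (A.w - A.q.g) := Real.rpow_pos_of_pos h0 _
  have eav : A.s ^ (A.a + A.v) = A.s ^ A.a * A.s ^ A.v := Real.rpow_add h0 _ _
  have eavv : A.s ^ (A.a + 2 * A.v) = A.s ^ A.a * (A.s ^ A.v) ^ 2 := by
    rw [Real.rpow_add h0, two_mul, Real.rpow_add h0, sq]
  have eaw : A.s ^ (A.a + A.w - A.q.g) = A.s ^ A.a * A.s ^ (A.w - A.q.g) := by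
    rw [← Real.rpow_add h0]
    congr 1
    ring
  -- the test
  have hQT : (A.ts (A.nm x)).T = x.ta A.s A.a := rfl
  have hRraw : x.Rraw A.s A.q A.a = x.be := by simp only [NmRaw.Rraw, h.cut]
  have hkraw : x.kraw A.q = 0 := nm_ge_kraw x A.q (by rw [h.cut]; exact fun hh => by cases hh)
  have hkraw' : x'.kraw A.q = 0 := nm_ge_kraw x' A.q (by rw [h.cut]; exact fun hh => by cases hh)
  have hka : x.ka A.s A.q A.a = 0 := by
    unfold NmRaw.ka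
    rw [hkraw, nm_rep_zero]
  have hkv : (A.nm x).kv A.s A.q A.a = 0 := hka
  have hRv : (A.nm x).Rv A.s A.q A.a = nmRep A.s (A.q.ds.b A.a) x.be := by
    have : (A.nm x).Rv A.s A.q A.a = nmRep A.s (A.q.ds.b A.a) (x.Rraw A.s A.q A.a) := rfl
    rw [this, hRraw]
  have hRa : x.Ra A.s A.q A.a = nmRep A.s (A.q.ds.b A.a) x.be := by
    unfold NmRaw.Ra
    rw [hRraw]
  have hQbe : (A.ts (A.nm x)).be = nmRep A.s (A.q.ds.b A.a) x.be + A.kv x.kb * x.ta A.s A.a := by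
    have : (A.ts (A.nm x)).be = (A.nm x).Rv A.s A.q A.a + ((A.nm x).tv A.s A.a - (A.nm x).tv A.s A.a) * (A.nm x).kv A.s A.q A.a
        + A.kv x.kb * x.ta A.s A.a := rfl
    rw [this, hRv, sub_self, zero_mul, add_zero]
  have hQK : (A.ts (A.nm x)).K = A.kv x.kb := by
    have : (A.ts (A.nm x)).K = (A.nm x).kv A.s A.q A.a + A.kv x.kb := rfl
    rw [this, hkv, zero_add]
  have hQal : (A.ts (A.nm x)).al = nmRep A.s A.l (x.Lraw A.s A.q A.a) := rfl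
  have hT01 : 0 ≤ (A.ts (A.nm x)).T ∧ (A.ts (A.nm x)).T ≤ 1 := by
    rw [hQT]
    exact ⟨ae2c_aux_fit_rep0 _ _ _ hn.T0.1, (nm_rep_le _ _ _).trans hn.T0.2⟩
  obtain ⟨c1, c2, c3, c4, c5⟩ := nm_cn_cell h0 h1 A.π A.q A.a A.v x z hn.hz ((A.nm x).tv A.s A.a) (A.s ^ A.a) 1 0 0 pa le_rfl
    (by
      have : (A.nm x).tv A.s A.a - x.ta A.s A.a = 0 := sub_self _
      rw [this, abs_zero]
      positivity) (by rw [one_mul])
  obtain ⟨d1, d2, d3, d4, d5⟩ := nm_cn_pert (A.ts (A.nm x)) z z' S ε _ _ hT01 hS hn.sQ hn.sz hn.sz' hε hn.base hn.N hn.D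
  change |z.X - (A.ts (A.nm x)).x| ≤ _ at c1
  change |z.Bt (A.ts (A.nm x)).T - (A.ts (A.nm x)).b| ≤ _ at c2
  change |(A.ts (A.nm x)).eQ z| ≤ _ at c3
  change |(A.ts (A.nm x)).eN z| ≤ A.s ^ (A.w - A.q.g) at c4
  change |(A.ts (A.nm x)).eD z| ≤ 2 * 1 * A.s ^ A.a * A.s ^ (A.w - A.q.g) at c5
  -- the sizes
  have hsQ := hn.sQ
  simp only [SfTest.size, max_le_iff] at hsQ
  obtain ⟨-, -, -, -, -, -, qbe, qK⟩ := hsQ
  have hbd := hn.base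
  simp only [SfRay.bdist, max_le_iff] at hbd
  obtain ⟨dX, dB, -⟩ := hbd
  -- small errors
  obtain ⟨E, hE⟩ : ∃ E : ℝ, E = 14 * S ^ 2 * ε := ⟨_, rfl⟩
  have hSS : S ≤ S ^ 2 := by
    rw [sq]
    exact le_mul_of_one_le_left (by linarith only [hS]) hS
  have hS2 : 1 ≤ S ^ 2 := one_le_pow₀ hS
  have e0 : ε ≤ S ^ 2 * ε := le_mul_of_one_le_left hε hS2
  have e1 : S * ε ≤ S ^ 2 * ε := mul_le_mul_of_nonneg_right hSS hε
  have E1 : ε ≤ E := by rw [hE]; linarith only [e0, hε]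
  have E2 : 2 * ε ≤ E := by rw [hE]; linarith only [e0, hε]
  have E7 : 7 * S * ε ≤ E := by rw [hE]; linarith only [e1, e0, hε]
  have E6 : 6 * (S * ε) ≤ E := by rw [hE]; linarith only [e1, e0, hε]
  have θ1 := h.θ1
  have θ2 := h.θ2
  have θ3 := h.θ3
  have θ4 := h.θ4
  have θ5 := h.θ5
  have θ6 := h.θ6
  rw [← hE] at θ1 θ2 θ3 θ4 θ5 θ6 d4 d5
  rw [eav] at θ2
  rw [eavv] at θ3
  rw [eaw] at θ6
  have hD' := hn.D
  -- the ray of `x'`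
  have hX' : x'.z.X = z'.X := by rw [hn.hz']; rfl
  have hB' : x'.z.B = z'.B := by rw [hn.hz']; rfl
  have hY' : x'.z.Y = z'.Y := by rw [hn.hz']; rfl
  have hX : x.z.X = z.X := by rw [hn.hz]; rfl
  have hBt' : ∀ t, x'.z.Bt t = z'.Bt t := fun t => by simp only [SfRay.Bt, hX', hB']
  have hYt' : ∀ t, x'.z.Yt t = z'.Yt t := fun t => by simp only [SfRay.Yt, hX', hY']
  have f1 : |z'.X - (A.ts (A.nm x)).x| ≤ 2 * A.s ^ A.v := by linarith only [c1, d1, E1, θ1]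
  have f2 : |z'.Bt (A.ts (A.nm x)).T - (A.ts (A.nm x)).b| ≤ 3 * (A.s ^ A.a * A.s ^ A.v) := by linarith only [c2, d2, E2, θ2]
  have f3 : |(A.ts (A.nm x)).eQ z'| ≤ 3 * (A.s ^ A.a * (A.s ^ A.v) ^ 2) := by linarith only [c3, d3, E7, θ3]
  have f4 : |(A.ts (A.nm x)).eN z'| ≤ (M + 2) * A.s ^ (A.w - A.q.g) := by linarith only [c4, d4, θ5]
  have f5 : |(A.ts (A.nm x)).eD z'| ≤ (M + 3) * (A.s ^ A.a * A.s ^ (A.w - A.q.g)) := by
    rw [eaw] at d5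
    linarith only [c5, d5, θ6]
  refine ⟨⟨?_, ?_, ?_, ?_, ?_, ?_, ?_, ?_⟩, ?_⟩
  · -- time
    show |x'.T - x.ta A.s A.a| ≤ 20 * M * A.s ^ A.a
    have t1 := hn.time
    have t2 : |x.T - x.ta A.s A.a| ≤ A.s ^ A.a := nm_rep_abs h0 h1 _ _
    have t3 : |x'.T - x.ta A.s A.a| ≤ |x'.T - x.T| + |x.T - x.ta A.s A.a| := abs_sub_le _ _ _
    have t4 : 2 * A.s ^ A.a ≤ 20 * M * A.s ^ A.a := mul_le_mul_of_nonneg_right (by linarith only [hM]) pa.le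
    linarith only [t1, t2, t3, t4]
  · -- B
    show |x'.z.Bt (A.ts (A.nm x)).T - (A.ts (A.nm x)).b| ≤ 3 * A.s ^ (A.a + A.v)
    rw [hBt', eav]
    exact f2
  · -- Y
    show |x'.z.Yt (A.ts (A.nm x)).T - (A.ts (A.nm x)).y - 2 * x'.z.X * (x'.z.Bt (A.ts (A.nm x)).T - (A.ts (A.nm x)).b)| ≤ 15 * A.s ^ (A.a + 2 * A.v)
    rw [hBt', hYt', hX', eavv]
    have e : z'.Yt (A.ts (A.nm x)).T - (A.ts (A.nm x)).y - 2 * z'.X * (z'.Bt (A.ts (A.nm x)).T - (A.ts (A.nm x)).b)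
        = (A.ts (A.nm x)).eQ z' - 2 * ((z'.X - (A.ts (A.nm x)).x) * (z'.Bt (A.ts (A.nm x)).T - (A.ts (A.nm x)).b)) := by
      simp only [SfTest.eQ]
      ring
    rw [e]
    have g1 := nm_abs_mul_le f1 f2
    have g2 : |(A.ts (A.nm x)).eQ z' - 2 * ((z'.X - (A.ts (A.nm x)).x) * (z'.Bt (A.ts (A.nm x)).T - (A.ts (A.nm x)).b))|
        ≤ |(A.ts (A.nm x)).eQ z'| + 2 * |(z'.X - (A.ts (A.nm x)).x) * (z'.Bt (A.ts (A.nm x)).T - (A.ts (A.nm x)).b)| := by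
      refine (abs_sub _ _).trans ?_
      rw [abs_mul, abs_two]
    have g3 : 2 * A.s ^ A.v * (3 * (A.s ^ A.a * A.s ^ A.v)) = 6 * (A.s ^ A.a * (A.s ^ A.v) ^ 2) := by ring
    linarith only [g1, g2, g3, f3]
  · -- R
    show |x'.RrawAt A.q (A.ts (A.nm x)).T - ((A.ts (A.nm x)).be - A.kv x'.kb * (A.ts (A.nm x)).T)| ≤ (M + 1) * A.s ^ (A.q.ds.b A.a)
    have r0 : x'.RrawAt A.q (A.ts (A.nm x)).T = x'.be := by simp only [NmRaw.RrawAt, h.cut]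
    rw [r0, hQbe, hQT]
    have r1 := hn.be
    have r2 : |x.be - nmRep A.s (A.q.ds.b A.a) x.be| ≤ A.s ^ (A.q.ds.b A.a) := nm_rep_abs h0 h1 _ _
    have e : x'.be - (nmRep A.s (A.q.ds.b A.a) x.be + A.kv x.kb * x.ta A.s A.a - A.kv x'.kb * x.ta A.s A.a)
        = (x'.be - x.be + (A.kv x'.kb - A.kv x.kb) * x.ta A.s A.a) + (x.be - nmRep A.s (A.q.ds.b A.a) x.be) := by ring
    rw [e]
    refine (abs_add_le _ _).trans ?_
    linarith only [r1, r2]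
  · -- k
    show |x'.kraw A.q - ((A.ts (A.nm x)).K - A.kv x'.kb)| ≤ kp
    rw [hkraw', hQK]
    have e : (0 : ℝ) - (A.kv x.kb - A.kv x'.kb) = A.kv x'.kb - A.kv x.kb := by ring
    rw [e]
    exact hn.kb
  · -- P
    show |x'.P - ((A.ts (A.nm x)).res (A.kv x'.kb)).Pd x'.z| ≤ 20 * M * A.s ^ A.l
    rw [hn.hz', nm_res_Pd]
    have p1 := hn.P
    have p2 : |x.Lraw A.s A.q A.a - nmRep A.s A.l (x.Lraw A.s A.q A.a)| ≤ A.s ^ A.l := nm_rep_abs h0 h1 _ _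
    have b2 : (x.P - 2 * A.kv x.kb * z.B) - (A.ts (A.nm x)).Pd z = x.Lraw A.s A.q A.a - nmRep A.s A.l (x.Lraw A.s A.q A.a) := by
      simp only [SfTest.Pd, hQal, hQbe, hQK, hQT]
      generalize nmRep A.s A.l (x.Lraw A.s A.q A.a) = La
      simp only [NmRaw.Lraw, hRa, hka, hX, SfRay.Bt]
      ring
    have b3 : (A.ts (A.nm x)).Pd z - (A.ts (A.nm x)).Pd z'
        = 2 * ((A.ts (A.nm x)).be * (z.X - z'.X)) - 2 * ((A.ts (A.nm x)).K * (z.Bt (A.ts (A.nm x)).T - z'.Bt (A.ts (A.nm x)).T)) := by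
      simp only [SfTest.Pd]
      ring
    have hBt : |z.Bt (A.ts (A.nm x)).T - z'.Bt (A.ts (A.nm x)).T| ≤ 2 * ε := by
      have e : z.Bt (A.ts (A.nm x)).T - z'.Bt (A.ts (A.nm x)).T = (z.B - z'.B) + (A.ts (A.nm x)).T * (z.X - z'.X) := by
        simp only [SfRay.Bt]
        ring
      rw [e]
      have u1 : |(A.ts (A.nm x)).T| ≤ 1 := by
        rw [abs_of_nonneg hT01.1]
        exact hT01.2
      have u2 := nm_abs_mul_le u1 dX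
      have u3 := abs_add_le (z.B - z'.B) ((A.ts (A.nm x)).T * (z.X - z'.X))
      linarith only [u2, u3, dB]
    have p3 : |(A.ts (A.nm x)).Pd z - (A.ts (A.nm x)).Pd z'| ≤ 6 * (S * ε) := by
      rw [b3]
      have u1 := nm_abs_mul_le qbe dX
      have u2 := nm_abs_mul_le qK hBt
      have u3 : |2 * ((A.ts (A.nm x)).be * (z.X - z'.X)) - 2 * ((A.ts (A.nm x)).K * (z.Bt (A.ts (A.nm x)).T - z'.Bt (A.ts (A.nm x)).T))|
          ≤ 2 * |(A.ts (A.nm x)).be * (z.X - z'.X)| + 2 * |(A.ts (A.nm x)).K * (z.Bt (A.ts (A.nm x)).T - z'.Bt (A.ts (A.nm x)).T)| := by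
        refine (abs_sub _ _).trans ?_
        rw [abs_mul, abs_mul 2, abs_two]
      linarith only [u1, u2, u3]
    have e : x'.P - ((A.ts (A.nm x)).Pd z' + 2 * A.kv x'.kb * z'.B)
        = ((x'.P - 2 * A.kv x'.kb * z'.B) - (x.P - 2 * A.kv x.kb * z.B)) + ((x.P - 2 * A.kv x.kb * z.B) - (A.ts (A.nm x)).Pd z)
          + ((A.ts (A.nm x)).Pd z - (A.ts (A.nm x)).Pd z') := by ring
    rw [e, b2]
    have u := abs_add_three ((x'.P - 2 * A.kv x'.kb * z'.B) - (x.P - 2 * A.kv x.kb * z.B)) (x.Lraw A.s A.q A.a - nmRep A.s A.l (x.Lraw A.s A.q A.a))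
      ((A.ts (A.nm x)).Pd z - (A.ts (A.nm x)).Pd z')
    have w1 : (M + 2) * A.s ^ A.l ≤ 20 * M * A.s ^ A.l := mul_le_mul_of_nonneg_right (by linarith only [hM]) pl.le
    linarith only [u, p1, p2, p3, E6, θ4, w1]
  · -- N
    show |((A.ts (A.nm x)).res (A.kv x'.kb)).eN x'.z| ≤ 20 * M * A.s ^ (A.w - A.q.g)
    rw [hn.hz', nm_res_N]
    have w1 : (M + 2) * A.s ^ (A.w - A.q.g) ≤ 20 * M * A.s ^ (A.w - A.q.g) := mul_le_mul_of_nonneg_right (by linarith only [hM]) pw.le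
    linarith only [w1, f4]
  · -- D
    show |((A.ts (A.nm x)).res (A.kv x'.kb)).eD x'.z| ≤ 20 * M * A.s ^ (A.a + A.w - A.q.g)
    rw [hn.hz', nm_res_D, eaw]
    have w1 : (M + 3) * (A.s ^ A.a * A.s ^ (A.w - A.q.g)) ≤ 20 * M * (A.s ^ A.a * A.s ^ (A.w - A.q.g)) :=
      mul_le_mul_of_nonneg_right (by linarith only [hM]) (mul_pos pa pw).le
    linarith only [w1, f5]
  · show |x'.z.X - (A.ts (A.nm x)).x| ≤ 20 * M * A.s ^ A.v
    rw [hX']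
    have w1 : 2 * A.s ^ A.v ≤ 20 * M * A.s ^ A.v := mul_le_mul_of_nonneg_right (by linarith only [hM]) pv.le
    linarith only [w1, f1]

/-- the global bins are close.      LEAF L-256-E2H-CD-R3 (30 l.): `A.kv c' - A.kv c = (c' - c) * nmWd s ζ` (unfold `NmAv.kv`, `nmVal`, `nmWd`), `s^ζ < 2 nmWd s ζ` (`nm_wd_gt`), `h.kp2`. -/
theorem ae2c_kb (h : Ae2cNum A M S ε kp Mk) {c c' : ℤ} (hk : |A.kv c' - A.kv c| ≤ kp) : |((c' - c : ℤ) : ℝ)| ≤ Mk := by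
  have s0 := h.s0
  have s1 := h.s1
  set ζ := A.π.b2 A.q.ds.De - A.q.ds.De with hζ
  have e : A.kv c' - A.kv c = ((c' - c : ℤ) : ℝ) * nmWd A.s ζ := by
    unfold NmAv.kv nmVal nmWd
    push_cast
    rw [div_eq_mul_inv, div_eq_mul_inv]
    ring
  have hw := nm_wd_pos A.s ζ
  have hg := nm_wd_gt s0 s1 ζ
  rw [e, abs_mul, abs_of_pos hw] at hk
  have h2 := h.kp2
  have hsp : 0 < A.s ^ ζ := Real.rpow_pos_of_pos s0 _
  have hMk : 0 ≤ Mk := by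
    by_contra hneg
    have : Mk * A.s ^ ζ < 0 := mul_neg_of_neg_of_pos (not_le.1 hneg) hsp
    have := h.kp0
    linarith
  -- 2 |d| wd ≤ 2 kp ≤ Mk s^ζ ≤ Mk 2 wd
  have h3 : Mk * A.s ^ ζ ≤ Mk * (2 * nmWd A.s ζ) := mul_le_mul_of_nonneg_left hg.le hMk
  have h4 : |((c' - c : ℤ) : ℝ)| * nmWd A.s ζ ≤ Mk * nmWd A.s ζ := by linarith
  exact le_of_mul_le_mul_right h4 hw

/-- **EXIT**: the list is determined by the name.      LEAF L-256-E2H-CD-R4 (70 l.): `L n := (Finset.Icc (n.kb - ⌊Mk⌋) (n.kb + ⌊Mk⌋)).biUnion fun c => (nm_fit_list_Q (ae2c_ok h) ((A.ts n).res (A.kv c)) c).choose`;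
`Finset.card_biUnion_le`, `Int.card_Icc`, `0 ≤ Mk` (from `ae2c_kb` with `c' = c`, or `h.kp2`, `h.kp0`);   membership: `c = x'.kb`, `(A.nm x).kb = x.kb` (rfl), `ae2c_kb h hn.kb` + `Int.le_floor`, `ae2c_fit`. -/
theorem ae2c_raw (h : Ae2cNum A M S ε kp Mk) : ∃ L : NmNm → Finset NmNm, (∀ n, ((L n).card : ℝ) ≤ (2 * Mk + 1) * (10 ^ 12 * (20 * M) ^ 10)) ∧
    ∀ (z z' : SfRay) (x x' : NmRaw), Ae2cNear A M S ε kp z z' x x' → A.nm x' ∈ L (A.nm x) := by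
  have hok := ae2c_ok h
  have hMk : 0 ≤ Mk := by
    have := ae2c_kb h (c := 0) (c' := 0) (by rw [sub_self, abs_zero]; exact h.kp0)
    simpa using this
  choose F hF1 hF2 using fun (n : NmNm) (c : ℤ) => nm_fit_list_Q hok ((A.ts n).res (A.kv c)) c
  refine ⟨fun n => (Finset.Icc (n.kb - ⌊Mk⌋) (n.kb + ⌊Mk⌋)).biUnion fun c => F n c, fun n => ?_, ?_⟩
  · have hB : (0 : ℝ) ≤ 10 ^ 12 * (20 * M) ^ 10 := by
      have := h.M1
      positivity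
    have h1 : (((Finset.Icc (n.kb - ⌊Mk⌋) (n.kb + ⌊Mk⌋)).biUnion fun c => F n c).card : ℝ)
        ≤ ∑ c ∈ Finset.Icc (n.kb - ⌊Mk⌋) (n.kb + ⌊Mk⌋), ((F n c).card : ℝ) := by
      exact_mod_cast Finset.card_biUnion_le
    have h2 : ∑ c ∈ Finset.Icc (n.kb - ⌊Mk⌋) (n.kb + ⌊Mk⌋), ((F n c).card : ℝ)
        ≤ ∑ _c ∈ Finset.Icc (n.kb - ⌊Mk⌋) (n.kb + ⌊Mk⌋), (10 ^ 12 * (20 * M) ^ 10 : ℝ) :=
      Finset.sum_le_sum fun c _ => hF1 n c
    rw [Finset.sum_const, nsmul_eq_mul, Int.card_Icc] at h2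
    have h3 : (((n.kb + ⌊Mk⌋ + 1 - (n.kb - ⌊Mk⌋)).toNat : ℕ) : ℝ) ≤ 2 * Mk + 1 := by
      have e : n.kb + ⌊Mk⌋ + 1 - (n.kb - ⌊Mk⌋) = 2 * ⌊Mk⌋ + 1 := by ring
      rw [e]
      have hfl : 0 ≤ ⌊Mk⌋ := Int.floor_nonneg.2 hMk
      have h5 : (((2 * ⌊Mk⌋ + 1).toNat : ℕ) : ℤ) = 2 * ⌊Mk⌋ + 1 := Int.toNat_of_nonneg (by omega)
      have h4 : (((2 * ⌊Mk⌋ + 1).toNat : ℕ) : ℝ) = 2 * (⌊Mk⌋ : ℝ) + 1 := by exact_mod_cast h5
      rw [h4]
      have := Int.floor_le Mk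
      linarith
    exact h1.trans (h2.trans (mul_le_mul_of_nonneg_right h3 hB))
  · intro z z' x x' hn
    obtain ⟨f1, f2⟩ := ae2c_fit h hn
    have hk := ae2c_kb h hn.kb
    rw [Finset.mem_biUnion]
    refine ⟨x'.kb, ?_, hF2 (A.nm x) x'.kb x' f1 rfl f2⟩
    rw [Finset.mem_Icc]
    have hkb : (A.nm x).kb = x.kb := rfl
    rw [hkb]
    rw [abs_le] at hk
    have a1 : x'.kb - x.kb ≤ ⌊Mk⌋ := Int.le_floor.2 hk.2
    have a2 : x.kb - x'.kb ≤ ⌊Mk⌋ := Int.le_floor.2 (by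
      have := hk.1
      push_cast at this ⊢
      linarith)
    constructor <;> omega

end

end Claimed.Agent.R256
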