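import Claimed.Agent.R256.Act.E2.Mis
import Claimed.Agent.R256.Soft.Spg

/-!
# Row 256, section Act, block E2H (hybrid boundary experiment), part MIS = J4 DISCARD + J5 MISMATCH: THE ABSTRACT CORE      (architect + prover helper262; prefix `ae2d_`)      06 l.568-650

ABSTRACT in the observables of the rows of the gate `j0 = D.gt p.j`:  `cs : D.Row j0 → α` (the conditioning `(C, S)`), `kb : D.Row j0 → ℝ` (the global slope `k̄`), `ka : D.Row j0 → ℝ` (the normalised slope of the line, `|ka - (K_j - k̄) s^(-ζ)| ≤ δ^30`).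
* `ae2dBad P C B θ ω` : the bin `B ω` has conditional mass `≥ θ` given `C ω`.      `D.e2dBad π p cs ka χ τd` : the DISCARDED rows (`B` = cell of depth `χ h` of `ka`, `θ = s^τd`).
* A. finite laws:  `ae2d_bad_nval` (`≤ 1/θ` heavy bins over each conditioning value),  `ae2d_keep` (an event inside the retained rows on which `B` has `≤ N` values given `C` has mass `≤ N θ`).
* B. geometry:  `D.e2dGrp π p w ρ = (T_j, [K_j]_(ζ + w), [β_j(T_j)]_(b j + w))` the group of a STARTING row;  `ae2d_cost` (cost + size: twin of `ae2_mis_cost`),  `ae2d_lab` (groups per end label: twin of `ae2_mis_lab`).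
* C. `ae2d_sp` : **(Sp) modulo the discarded rows**, from `D.Spg` (Soft/Spg.lean, helper206) = the ONE inequality of VF (helper98).
* D. `ae2d_mis` : **the mismatch property on every event of retained rows of mass `≥ m`**: no predictor succeeds with probability `> 6 s^τd / m`.
-/

set_option autoImplicit false

namespace Claimed.Agent.R256

open Claimed.Agent.R255
open Claimed.Agent.R255.FLaw (pair)
open Classical

noncomputable section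

/-! ## A. finite laws -/

section law

variable {Ω : Type} [Fintype Ω] {α β : Type}

/-- the bin `B ω` is heavy: conditional mass `≥ θ` given `C ω` -/
def ae2dBad (P : FLaw Ω) (C : Ω → α) (B : Ω → β) (θ : ℝ) (ω : Ω) : Prop :=
  θ * P.fib C ω ≤ P.fib (pair B C) ω

theorem ae2d_law_eqns_cite : True := by
  have := @ae2dBad.eq_1
  trivial

/-- over each conditioning value there are at most `1/θ` heavy bins -/
theorem ae2d_bad_nval (P : FLaw Ω) (C : Ω → α) (B : Ω → β) (θ : ℝ) (hθ : 0 < θ) : P.NVal (ae2dBad P C B θ) B C (1 / θ) := by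
  intro ω₀
  refine ⟨(Finset.univ.filter fun ω => P.p ω ≠ 0 ∧ ae2dBad P C B θ ω ∧ C ω = C ω₀).image B, ?_, ?_⟩
  · by_cases hne : ∃ ω, P.p ω ≠ 0 ∧ C ω = C ω₀
    · obtain ⟨ω1, h1, h2⟩ := hne
      refine ent_count P C B (C ω₀) _ hθ ((ent_pr_pos_iff P _).2 ⟨ω1, h2, h1⟩) ?_
      intro y hy
      obtain ⟨ω, hω, rfl⟩ := Finset.mem_image.1 hy
      obtain ⟨-, -, hb, hc⟩ := Finset.mem_filter.1 hω
      have e1 : P.fib C ω = P.pr (fun ω' => C ω' = C ω₀) := by unfold FLaw.fib; rw [hc]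
      have e2 : P.fib (pair B C) ω = P.pr (fun ω' => B ω' = B ω ∧ C ω' = C ω₀) := by
        unfold FLaw.fib pair
        refine ent_pr_congr P fun ω' _ => ?_
        rw [Prod.mk.injEq, hc]
      unfold ae2dBad at hb
      rwa [e1, e2] at hb
    · have : (Finset.univ.filter fun ω => P.p ω ≠ 0 ∧ ae2dBad P C B θ ω ∧ C ω = C ω₀) = ∅ := by
        refine Finset.filter_eq_empty_iff.2 fun ω _ h => hne ⟨ω, h.1, h.2.2⟩
      rw [this]
      simp only [Finset.image_empty, Finset.card_empty, Nat.cast_zero]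
      positivity
  · intro ω h1 h2 h3
    exact Finset.mem_image.2 ⟨ω, Finset.mem_filter.2 ⟨Finset.mem_univ _, h1, h2, h3⟩, rfl⟩

/-- an event of retained points on which `B` has at most `N` values over each value of `C` is small -/
theorem ae2d_keep (P : FLaw Ω) (C : Ω → α) (B : Ω → β) (θ : ℝ) (hθ : 0 ≤ θ) (A E : Ω → Prop) (N : ℝ)
    (hA : ∀ ω, A ω → ¬ ae2dBad P C B θ ω) (hE : P.NVal E B C N) : P.pr (fun ω => A ω ∧ E ω) ≤ N * θ := by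
  have hN : 0 ≤ N := by
    obtain ⟨ω₀, -⟩ := ent_exists_supp P
    obtain ⟨S, hS, -⟩ := hE ω₀
    exact (Nat.cast_nonneg _).trans hS
  -- one conditioning value
  have key : ∀ c : α, P.pr (fun ω => (A ω ∧ E ω) ∧ C ω = c) ≤ N * θ * P.pr (fun ω => C ω = c) := by
    intro c
    by_cases hne : ∃ ω₀, C ω₀ = c
    · obtain ⟨ω₀, rfl⟩ := hne
      obtain ⟨S, hS, hm⟩ := hE ω₀
      rw [ent_pr_sum_values P (fun ω => (A ω ∧ E ω) ∧ C ω = C ω₀) B S (fun ω h1 h2 => hm ω h1 h2.1.2 h2.2)]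
      have hb : ∀ b ∈ S, P.pr (fun ω => ((A ω ∧ E ω) ∧ C ω = C ω₀) ∧ B ω = b) ≤ θ * P.pr (fun ω => C ω = C ω₀) := by
        intro b _
        by_cases hex : ∃ ω, (((A ω ∧ E ω) ∧ C ω = C ω₀) ∧ B ω = b) ∧ P.p ω ≠ 0
        · obtain ⟨ω, ⟨⟨⟨a1, -⟩, a2⟩, a3⟩, -⟩ := hex
          have h1 := not_le.1 (hA ω a1)
          have e1 : P.fib C ω = P.pr (fun ω' => C ω' = C ω₀) := by unfold FLaw.fib; rw [a2]
          have e2 : P.fib (pair B C) ω = P.pr (fun ω' => B ω' = b ∧ C ω' = C ω₀) := by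
            unfold FLaw.fib pair
            refine ent_pr_congr P fun ω' _ => ?_
            rw [Prod.mk.injEq, a2, a3]
          rw [e1, e2] at h1
          exact (ent_pr_mono P fun ω' _ h => ⟨h.2, h.1.2⟩).trans h1.le
        · have : P.pr (fun ω => ((A ω ∧ E ω) ∧ C ω = C ω₀) ∧ B ω = b) = 0 :=
            ent_pr_eq_zero P fun ω h1 h2 => hex ⟨ω, h2, h1⟩
          rw [this]
          exact mul_nonneg hθ (ent_pr_nonneg P _)
      calc ∑ b ∈ S, P.pr (fun ω => ((A ω ∧ E ω) ∧ C ω = C ω₀) ∧ B ω = b) ≤ ∑ _b ∈ S, θ * P.pr (fun ω => C ω = C ω₀) := Finset.sum_le_sum hb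
        _ = S.card * (θ * P.pr (fun ω => C ω = C ω₀)) := by rw [Finset.sum_const, nsmul_eq_mul]
        _ ≤ N * (θ * P.pr (fun ω => C ω = C ω₀)) := mul_le_mul_of_nonneg_right hS (mul_nonneg hθ (ent_pr_nonneg P _))
        _ = _ := by ring
    · have : P.pr (fun ω => (A ω ∧ E ω) ∧ C ω = c) = 0 := ent_pr_eq_zero P fun ω _ h2 => hne ⟨ω, h2.2⟩
      rw [this]
      exact mul_nonneg (mul_nonneg hN hθ) (ent_pr_nonneg P _)
  rw [ent_pr_sum_values P (fun ω => A ω ∧ E ω) C (Finset.univ.image C) (fun ω _ _ => Finset.mem_image_of_mem _ (Finset.mem_univ _))]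
  calc ∑ c ∈ Finset.univ.image C, P.pr (fun ω => (A ω ∧ E ω) ∧ C ω = c)
      ≤ ∑ c ∈ Finset.univ.image C, N * θ * P.pr (fun ω => C ω = c) := Finset.sum_le_sum fun c _ => key c
    _ = N * θ * ∑ c ∈ Finset.univ.image C, P.pr (fun ω => C ω = c) := by rw [Finset.mul_sum]
    _ ≤ N * θ * 1 := mul_le_mul_of_nonneg_left (ent_aux_sum_pr_le P C _) (mul_nonneg hN hθ)
    _ = N * θ := mul_one _

end law

/-! ## B. geometry: groups of starting rows, cost -/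

/-- the group of a row of the gate `D.gt p.j` -/
def SfDoc.e2dGrp (D : SfDoc) (π : SfPar) (p : Ae2P) (w : ℝ) : D.Row (D.gt p.j) → ℝ × ℤ × ℤ := fun ρ =>
  ((D.lab _ ρ).T, nmCell D.s (π.b2 p.De - p.De + w) (D.lab _ ρ).K, nmCell D.s ((nmDsStr π p.De).b p.j + w) (D.lab _ ρ).be)

/-- **the discarded rows**: the cell of depth `χ h` of the normalised slope `ka` has conditional mass `≥ s^τd` given `cs` -/
def SfDoc.e2dBad (D : SfDoc) (p : Ae2P) {α : Type} (cs : D.Row (D.gt p.j) → α) (ka : D.Row (D.gt p.j) → ℝ) (χ τd : ℝ) : D.Row (D.gt p.j) → Prop :=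
  ae2dBad (D.P (D.gt p.j)) cs (fun ρ => nmCell D.s (χ * p.h) (ka ρ)) (D.s ^ τd)

theorem ae2d_geo_eqns_cite : True := by
  have := @SfDoc.e2dGrp.eq_1; have := @SfDoc.e2dBad.eq_1
  trivial

/-- the shear of the group of a starting row, in terms of representatives -/
theorem ae2d_sg (D : SfDoc) (π : SfPar) (p : Ae2P) (w : ℝ) (ρ : D.Row (D.gt p.j)) :
    ae2Sg D.s π p w (D.e2dGrp π p w ρ) = layShear (D.lab _ ρ).T (nmRep D.s ((nmDsStr π p.De).b p.j + w) (D.lab _ ρ).be)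
      (nmRep D.s (π.b2 p.De - p.De + w) (D.lab _ ρ).K) 0 := rfl

/-- **cost and size** (twin of `ae2_mis_cost`; both models): after subtraction of the shear of the group of ANY predecessor at the gate `D.gt p.j` the final label is cheaper. -/
theorem ae2d_cost (π : SfPar) (h1 : π.c2 = 1) (C0 τ κ0 Λ : ℝ) (p : Ae2P) (hp : p.Ok π Λ) (hDe : p.De = 1)
    (w : ℝ) (hw : 0 < w) (hwh : w ≤ p.h) : ∃ t0 : ℝ, 0 < t0 ∧ ∀ t : ℝ, 0 < t → t ≤ t0 → ∀ D : SfDoc, D.Fine π C0 τ κ0 t →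
    (∀ (ρ : D.Row (D.gt p.j)) (ω : D.Row 1), D.Conn (D.gt p.j) 1 ρ ω →
      sfR2 (D.lab 1 ω) (ae2Sg D.s π p w (D.e2dGrp π p w ρ)) (D.len 1) ≤ D.s ^ (-((π.c2 - w / (2 * (p.De - p.j))) * (1 - D.gt p.j)))) ∧
    ∀ ρ : D.Row (D.gt p.j), (ae2Sg D.s π p w (D.e2dGrp π p w ρ)).size ≤ D.s ^ (-(1 / t)) := by
  have hΔ : 0 < p.De - p.j := by linarith [hp.hjD]
  have ha0 : 0 < p.a := hp.root.ha.1
  have hj0' : 0 < p.j := by linarith [hp.haj]
  have hD1 := hp.hD1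
  have g1 : p.gap π ≤ p.De - p.j := (min_le_right _ _).trans (min_le_left _ _)
  have g2 : p.gap π ≤ (1 - π.q) * (p.De - p.j) := (min_le_right _ _).trans (min_le_right _ _)
  have G1 : 400 * w ≤ p.De - p.j := by linarith [hp.hgap]
  have G2 : 400 * w ≤ (1 - π.q) * (p.De - p.j) := by linarith [hp.hgap]
  have hq0 := abs_nonneg π.q
  have hC0 := abs_nonneg C0
  refine ⟨min (min (w / (8 * (|π.q| + 7))) ((5 : ℝ) ^ (-(8 / w)))) (min (1 / (|C0| + |π.q| + 2)) (1 / 2)), by positivity, ?_⟩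
  intro t ht ht0 D hD
  have T1 : t * (8 * (|π.q| + 7)) ≤ w := (le_div_iff₀ (by positivity)).1 (ht0.trans ((min_le_left _ _).trans (min_le_left _ _)))
  have T2 : t ≤ (5 : ℝ) ^ (-(8 / w)) := ht0.trans ((min_le_left _ _).trans (min_le_right _ _))
  have T3 : t * (|C0| + |π.q| + 2) ≤ 1 := (le_div_iff₀ (by positivity)).1 (ht0.trans ((min_le_right _ _).trans (min_le_left _ _)))
  have T4 : t ≤ 1 / 2 := ht0.trans ((min_le_right _ _).trans (min_le_right _ _))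
  have hcore := hD.ok.core
  obtain ⟨s0, s1⟩ := hcore.hs
  have hst := hD.sm
  have hne : D.G.Nonempty := ⟨1, hcore.gate.1⟩
  have hjG : D.gt p.j ∈ D.G := nm_gt_mem D hne _
  have heG : (1 : ℝ) ∈ D.G := hcore.gate.1
  obtain ⟨nj1, nj2⟩ := abs_le.1 (nm_gt_near hD hj0'.le (by linarith : p.j ≤ 1))
  have ne1 : -t ≤ 1 - p.De := by rw [hDe]; linarith
  have ne2 : 1 - p.De ≤ t := by rw [hDe]; linarith
  have hqt : 0 ≤ |π.q| * t := by positivity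
  have hje : D.gt p.j < 1 := by linarith
  have hb : (nmDsStr π p.De).b p.j = π.q * (p.De - 1) + (p.j - p.De) := by
    unfold NmDs.b nmDsStr SfPar.b2
    ring
  obtain ⟨A1, A2⟩ := abs_le.1 (show |π.q * (1 - p.De)| ≤ |π.q| * t by
    rw [abs_mul]; exact mul_le_mul_of_nonneg_left (abs_le.2 ⟨ne1, ne2⟩) hq0)
  obtain ⟨A3, A4⟩ := abs_le.1 (show |π.q * (D.gt p.j - p.j)| ≤ |π.q| * t by
    rw [abs_mul]; exact mul_le_mul_of_nonneg_left (abs_le.2 ⟨nj1, nj2⟩) hq0)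
  obtain ⟨A5, A6⟩ := abs_le.1 (show |π.q * (p.De - 1)| ≤ |π.q| * 1 by
    rw [abs_mul]; exact mul_le_mul_of_nonneg_left (abs_le.2 ⟨by linarith, by linarith⟩) hq0)
  constructor
  · intro ρ ω hconn
    rw [ae2d_sg, hb]
    generalize D.gt p.j = j0 at *
    obtain ⟨z1, z2, z3, z4, z5⟩ := ae2_mc_num G1 G2 hw ht T1 hqt nj1 nj2 ne1 ne2 A1 A2 A3 A4
    have key := ae2_mc_core hD.ok hjG heG hje ρ ω hconn (π.b2 p.De - p.De + w) (π.q * (p.De - 1) + (p.j - p.De) + w)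
      (π.b2 1 - (p.De - p.j) + w - (|π.q| + 2) * t) z1 z2 z3 z4 z5
    refine key.trans ?_
    have h5 : (5 : ℝ) ≤ D.s ^ (-(w / 8)) := by
      have e1 : ((5 : ℝ) ^ (-(8 / w))) ^ (-(w / 8)) ≤ D.s ^ (-(w / 8)) :=
        Real.rpow_le_rpow_of_nonpos s0 (hst.trans T2) (by linarith)
      rw [← Real.rpow_mul (by norm_num)] at e1
      have e2 : -(8 / w) * -(w / 8) = 1 := by field_simp
      rw [e2, Real.rpow_one] at e1
      exact e1
    calc 5 * D.s ^ (-π.b2 1 - 3 * t + (π.b2 1 - (p.De - p.j) + w - (|π.q| + 2) * t))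
        ≤ D.s ^ (-(w / 8)) * D.s ^ (-π.b2 1 - 3 * t + (π.b2 1 - (p.De - p.j) + w - (|π.q| + 2) * t)) :=
          mul_le_mul_of_nonneg_right h5 (Real.rpow_nonneg s0.le _)
      _ = D.s ^ (-(w / 8) + (-π.b2 1 - 3 * t + (π.b2 1 - (p.De - p.j) + w - (|π.q| + 2) * t))) := (Real.rpow_add s0 _ _).symm
      _ ≤ D.s ^ (-((π.c2 - w / (2 * (p.De - p.j))) * (1 - j0))) := by
          refine lay_rpow_anti s0 s1 ?_
          rw [h1]
          exact ae2_mc_num2 hΔ G1 hw ht T1 nj2 ne1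
  · intro ρ
    rw [ae2d_sg, hb]
    generalize D.gt p.j = j0 at *
    obtain ⟨-, hsz⟩ := hcore.bdd j0 hjG ρ
    obtain ⟨-, -, -, hbe, hK⟩ := nm_pc_test_abs (D.lab j0 ρ)
    have r1 := nm_rep_abs s0 s1 (π.q * (p.De - 1) + (p.j - p.De) + w) (D.lab j0 ρ).be
    have r2 := nm_rep_abs s0 s1 (π.b2 p.De - p.De + w) (D.lab j0 ρ).K
    have m1 : D.s ^ (-C0) ≤ D.s ^ (-(|C0| + |π.q| + 1)) := lay_rpow_anti s0 s1 (by linarith [le_abs_self C0])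
    have m2 : D.s ^ (π.q * (p.De - 1) + (p.j - p.De) + w) ≤ D.s ^ (-(|C0| + |π.q| + 1)) := lay_rpow_anti s0 s1 (by linarith)
    have m3 : D.s ^ (π.b2 p.De - p.De + w) ≤ D.s ^ (-(|C0| + |π.q| + 1)) := lay_rpow_anti s0 s1 (by unfold SfPar.b2; linarith)
    have m4 : 2 * D.s ^ (-(|C0| + |π.q| + 1)) ≤ D.s ^ (-(1 / t)) := by
      have e1 : (2 : ℝ) ≤ D.s ^ (-1 : ℝ) := by
        rw [Real.rpow_neg_one, le_inv_comm₀ (by norm_num) s0]
        linarith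
      calc 2 * D.s ^ (-(|C0| + |π.q| + 1)) ≤ D.s ^ (-1 : ℝ) * D.s ^ (-(|C0| + |π.q| + 1)) :=
            mul_le_mul_of_nonneg_right e1 (Real.rpow_nonneg s0.le _)
        _ = D.s ^ ((-1 : ℝ) + -(|C0| + |π.q| + 1)) := (Real.rpow_add s0 _ _).symm
        _ ≤ D.s ^ (-(1 / t)) := by
            refine lay_rpow_anti s0 s1 ?_
            have : |C0| + |π.q| + 2 ≤ 1 / t := by rw [le_div_iff₀ ht]; linarith
            linarith
    refine lay_shear_size _ _ _ _ _ ?_ ?_ (by rw [abs_zero]; exact Real.rpow_nonneg s0.le _)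
    · have e1 : nmRep D.s (π.q * (p.De - 1) + (p.j - p.De) + w) (D.lab j0 ρ).be
          = (D.lab j0 ρ).be - ((D.lab j0 ρ).be - nmRep D.s (π.q * (p.De - 1) + (p.j - p.De) + w) (D.lab j0 ρ).be) := by ring
      rw [e1]
      refine (abs_sub _ _).trans ?_
      linarith
    · have e1 : nmRep D.s (π.b2 p.De - p.De + w) (D.lab j0 ρ).K
          = (D.lab j0 ρ).K - ((D.lab j0 ρ).K - nmRep D.s (π.b2 p.De - p.De + w) (D.lab j0 ρ).K) := by ring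
      rw [e1]
      refine (abs_sub _ _).trans ?_
      linarith

/-- the geometry of the predecessors at the gate `D.gt p.j` of the final rows with the label `lam` (twin of `ae2_ml_geo`; both models) -/
theorem ae2d_geo (π : SfPar) (C0 τ κ0 Λ : ℝ) (p : Ae2P) (hp : p.Ok π Λ) (hDe : p.De = 1) (w : ℝ) (hw : 0 < w) (hwh : w ≤ p.h) :
    ∃ t0 : ℝ, 0 < t0 ∧ ∀ t : ℝ, t ≤ t0 → ∀ D : SfDoc, D.Fine π C0 τ κ0 t →
      (∀ (ρ : D.Row (D.gt p.j)) (ω : D.Row 1), D.Conn (D.gt p.j) 1 ρ ω →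
        0 ≤ (D.lab 1 ω).T - (D.lab _ ρ).T ∧ (D.lab 1 ω).T - (D.lab _ ρ).T ≤ D.s ^ (p.j - 2 * t) ∧
        |(D.lab _ ρ).beAt (D.lab 1 ω).T - (D.lab 1 ω).be| ≤ D.s ^ ((nmDsStr π p.De).b p.j + w - 2 * t)) ∧
      (∀ (ρ ρ' : D.Row (D.gt p.j)) (ω ω' : D.Row 1), D.Conn (D.gt p.j) 1 ρ ω → D.Conn (D.gt p.j) 1 ρ' ω' → (D.lab 1 ω).T = (D.lab 1 ω').T →
        (D.lab _ ρ).T = (D.lab _ ρ').T) := by
  have hq0 := abs_nonneg π.q
  have hΔ : 0 < p.De - p.j := by linarith [hp.hjD]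
  refine ⟨min (w / (|π.q| + 1)) ((p.De - p.j) / 4), lt_min (by positivity) (by positivity), ?_⟩
  intro t htt D hD
  have ht := hD.pos
  have httw : t ≤ w / (|π.q| + 1) := htt.trans (min_le_left _ _)
  have httΔ : t ≤ (p.De - p.j) / 4 := htt.trans (min_le_right _ _)
  have hqt : (|π.q| + 1) * t ≤ w := by
    rw [le_div_iff₀ (by positivity)] at httw
    linarith
  have hcore := hD.ok.core
  have hs := hcore.hs
  have hne : D.G.Nonempty := ⟨1, hcore.gate.1⟩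
  have ha0 : 0 < p.a := hp.root.ha.1
  have hj0 : 0 ≤ p.j := by linarith [hp.haj]
  have hj1 : p.j ≤ 1 := by linarith [hp.hjD, hp.hD1]
  have hi := nm_gt_mem D hne p.j
  have he : (1 : ℝ) ∈ D.G := hcore.gate.1
  have ni := nm_gt_near hD hj0 hj1
  have hie : D.gt p.j < 1 := by
    rw [abs_le] at ni
    linarith [ni.1, ni.2]
  have hg1 : 400 * p.h ≤ p.De - p.j := hp.hgap.trans ((min_le_right _ _).trans (min_le_left _ _))
  have hg2 : 400 * p.h ≤ (1 - π.q) * (p.De - p.j) := hp.hgap.trans ((min_le_right _ _).trans (min_le_right _ _))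
  have hb : (nmDsStr π p.De).b p.j = π.b2 p.De + (p.j - p.De) := by
    unfold NmDs.b nmDsStr
    simp
  have hqi : |π.q * (D.gt p.j - p.j)| ≤ |π.q| * t := by
    rw [abs_mul]
    exact mul_le_mul_of_nonneg_left ni hq0
  have hexp : (nmDsStr π p.De).b p.j + w - 2 * t ≤ min (π.b2 (D.gt p.j)) (π.b2 1) - t := by
    rw [hb]
    rw [abs_le] at hqi
    have e1 : π.b2 p.De + (p.j - p.De) + w ≤ π.b2 (D.gt p.j) := by
      unfold SfPar.b2
      nlinarith [hqi.1, hqi.2]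
    have e2 : π.b2 p.De + (p.j - p.De) + w ≤ π.b2 1 := by
      unfold SfPar.b2
      rw [hDe]
      rw [hDe] at hg1
      linarith
    have := le_min e1 e2
    linarith
  constructor
  · intro ρ ω hconn
    obtain ⟨n1, n2, n3⟩ := lay_near D π C0 t _ _ hcore hi he hie ρ ω hconn
    have hc1 := (hD.ok.aff.cmpA _ hi _ he hie ρ ω hconn).1
    refine ⟨n1, ?_, hc1.trans (lay_rpow_anti hs.1 hs.2 hexp)⟩
    refine n2.le.trans (n3.trans (lay_rpow_anti hs.1 hs.2 ?_))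
    rw [abs_le] at ni
    linarith [ni.1]
  · intro ρ ρ' ω ω' hconn hconn' hT
    exact lay_start D π C0 t _ _ hcore hi he hie ρ ρ' ω ω' hconn hconn' hT

/-- **groups per end label** (twin of `ae2_mis_lab`; both models).   `lam` lists `(cs, kb)` of the charged predecessors (`N` values);  `≤ s^(-τd)` discarded cells of depth `χ h` over each value of `cs`;  `≤ 8` slope cells of depth `ζ + w`;  `T_j` is determined;  `≤ 6 s^(-2t) + 2` value cells. -/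
theorem ae2d_lab (π : SfPar) (C0 τ κ0 Λ : ℝ) (p : Ae2P) (hp : p.Ok π Λ) (hDe : p.De = 1) (χ w : ℝ) (hw : 0 < w) (hwχ : w < χ * p.h) (hχ1 : χ ≤ 1) :
    ∃ t0 : ℝ, 0 < t0 ∧ ∀ t : ℝ, t ≤ t0 → ∀ D : SfDoc, D.Fine π C0 τ κ0 t →
    ∀ (α : Type) (cs : D.Row (D.gt p.j) → α) (kb ka : D.Row (D.gt p.j) → ℝ) (τd N : ℝ) (U : D.Row 1 → Prop),
      (∀ ρ, |ka ρ - ((D.lab _ ρ).K - kb ρ) / D.s ^ (π.b2 p.De - p.De)| ≤ (D.s ^ p.h) ^ (30 : ℝ)) →
    ∀ lam : SfTest,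
      (∃ L : Finset (α × ℝ), (L.card : ℝ) ≤ N ∧ ∀ ρ ω, D.Conn (D.gt p.j) 1 ρ ω → U ω → D.lab 1 ω = lam → (D.P (D.gt p.j)).p ρ ≠ 0 → (cs ρ, kb ρ) ∈ L) →
      (({b | ∃ ρ ω, ((D.P (D.gt p.j)).p ρ ≠ 0 ∧ D.e2dBad p cs ka χ τd ρ ∧ D.e2dGrp π p w ρ = b) ∧ D.Conn (D.gt p.j) 1 ρ ω ∧ U ω ∧ D.lab 1 ω = lam}
        : Set (ℝ × ℤ × ℤ)).ncard : ℝ) ≤ N * D.s ^ (-τd) * 8 * (6 * D.s ^ (-(2 * t)) + 2) := by
  have hh := hp.h0
  have hwh : w ≤ p.h := by nlinarith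
  obtain ⟨t3, ht3, g3⟩ := ae2d_geo π C0 τ κ0 Λ p hp hDe w hw hwh
  refine ⟨t3, ht3, ?_⟩
  intro t htt D hD α cs kb ka τd N U hka lam hL
  have ht := hD.pos
  have hcore := hD.ok.core
  have hs := hcore.hs
  obtain ⟨G1, G2⟩ := g3 t htt D hD
  obtain ⟨E, hE⟩ : ∃ E : D.Row (D.gt p.j) → Prop, E = fun ρ => (D.P (D.gt p.j)).p ρ ≠ 0 ∧ D.e2dBad p cs ka χ τd ρ ∧
    ∃ ω, D.Conn (D.gt p.j) 1 ρ ω ∧ U ω ∧ D.lab 1 ω = lam := ⟨_, rfl⟩
  have hE1 : ∀ ρ, E ρ → (D.P (D.gt p.j)).p ρ ≠ 0 := fun ρ h => by rw [hE] at h; exact h.1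
  have hE2 : ∀ ρ, E ρ → D.e2dBad p cs ka χ τd ρ := fun ρ h => by rw [hE] at h; exact h.2.1
  have hE3 : ∀ ρ, E ρ → ∃ ω, D.Conn (D.gt p.j) 1 ρ ω ∧ U ω ∧ D.lab 1 ω = lam := fun ρ h => by rw [hE] at h; exact h.2.2
  have hθ : 0 < D.s ^ τd := Real.rpow_pos_of_pos hs.1 _
  have hθi : 1 / D.s ^ τd = D.s ^ (-τd) := by rw [Real.rpow_neg hs.1.le, one_div]
  have hp2t : 1 ≤ D.s ^ (-(2 * t)) := Real.one_le_rpow_of_pos_of_le_one_of_nonpos hs.1 hs.2.le (by linarith)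
  -- the lists
  have L1 : ∃ S : Finset (α × ℝ), (S.card : ℝ) ≤ N ∧ ∀ ρ, E ρ → (cs ρ, kb ρ) ∈ S := by
    obtain ⟨L, hc, hm⟩ := hL
    refine ⟨L, hc, fun ρ h => ?_⟩
    obtain ⟨ω, a1, a2, a3⟩ := hE3 ρ h
    exact hm ρ ω a1 a2 a3 (hE1 ρ h)
  have L2 := ae2_ml_step E (fun ρ => (cs ρ, kb ρ)) (fun ρ => nmCell D.s (χ * p.h) (ka ρ)) _ (D.s ^ (-τd)) (Real.rpow_nonneg hs.1.le _) L1
    (fun ρ₀ _ => by
      obtain ⟨S, hS, hm⟩ := ae2d_bad_nval (D.P (D.gt p.j)) cs (fun ρ => nmCell D.s (χ * p.h) (ka ρ)) (D.s ^ τd) hθ ρ₀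
      rw [hθi] at hS
      exact ⟨S, hS, fun ρ h hA => hm ρ (hE1 ρ h) (hE2 ρ h) (congrArg Prod.fst hA)⟩)
  -- the slope cells
  have hδ0 : 0 < D.s ^ p.h := Real.rpow_pos_of_pos hs.1 _
  have hδ1 : D.s ^ p.h < 1 := Real.rpow_lt_one hs.1.le hs.2 hh
  have hδ30 : (D.s ^ p.h) ^ (30 : ℝ) ≤ D.s ^ (χ * p.h) := by
    rw [← Real.rpow_mul hs.1.le]
    exact lay_rpow_anti hs.1 hs.2 (by nlinarith)
  have hζ0 : 0 < D.s ^ (π.b2 p.De - p.De) := Real.rpow_pos_of_pos hs.1 _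
  have PK : ∀ ρ ρ', E ρ → E ρ' → ((cs ρ, kb ρ), nmCell D.s (χ * p.h) (ka ρ)) = ((cs ρ', kb ρ'), nmCell D.s (χ * p.h) (ka ρ')) →
      |((nmCell D.s (π.b2 p.De - p.De + w) (D.lab _ ρ).K - nmCell D.s (π.b2 p.De - p.De + w) (D.lab _ ρ').K : ℤ) : ℝ)| ≤ 7 := by
    intro ρ ρ' _ _ hA
    have e1 : kb ρ = kb ρ' := congrArg (fun x => x.1.2) hA
    have e2 : nmCell D.s (χ * p.h) (ka ρ) = nmCell D.s (χ * p.h) (ka ρ') := congrArg Prod.snd hA
    have a1 := nm_close_of_cell hs.1 hs.2 e2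
    have b1 := hka ρ
    have b2 := hka ρ'
    have c1 : |((D.lab _ ρ).K - kb ρ) / D.s ^ (π.b2 p.De - p.De) - ((D.lab _ ρ').K - kb ρ') / D.s ^ (π.b2 p.De - p.De)| ≤ 3 * D.s ^ (χ * p.h) := by
      rw [abs_le] at a1 b1 b2 ⊢
      constructor <;> linarith [a1.1, a1.2, b1.1, b1.2, b2.1, b2.2]
    have c2 : ((D.lab _ ρ).K - kb ρ) / D.s ^ (π.b2 p.De - p.De) - ((D.lab _ ρ').K - kb ρ') / D.s ^ (π.b2 p.De - p.De)
        = ((D.lab _ ρ).K - (D.lab _ ρ').K) / D.s ^ (π.b2 p.De - p.De) := by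
      rw [e1]
      ring
    rw [c2, abs_div, abs_of_pos hζ0, div_le_iff₀ hζ0, mul_assoc, ← Real.rpow_add hs.1] at c1
    have c3 := nm_cell_close hs.1 hs.2 (χ * p.h + (π.b2 p.De - p.De)) (π.b2 p.De - p.De + w) c1
    refine c3.trans ?_
    have : D.s ^ (-(π.b2 p.De - p.De + w - (χ * p.h + (π.b2 p.De - p.De)))) ≤ 1 :=
      Real.rpow_le_one hs.1.le hs.2.le (by linarith)
    linarith
  have L3 := ae2_ml_step E _ (fun ρ : D.Row (D.gt p.j) => nmCell D.s (π.b2 p.De - p.De + w) (D.lab _ ρ).K) _ (7 + 1) (by norm_num) L2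
    (fun ρ₀ _ => ae2_ml_int E _ _ 7 (by norm_num) PK ρ₀)
  -- the value cells
  have PB : ∀ ρ ρ', E ρ → E ρ' →
      (((cs ρ, kb ρ), nmCell D.s (χ * p.h) (ka ρ)), nmCell D.s (π.b2 p.De - p.De + w) (D.lab _ ρ).K)
        = (((cs ρ', kb ρ'), nmCell D.s (χ * p.h) (ka ρ')), nmCell D.s (π.b2 p.De - p.De + w) (D.lab _ ρ').K) →
      |((nmCell D.s ((nmDsStr π p.De).b p.j + w) (D.lab _ ρ).be - nmCell D.s ((nmDsStr π p.De).b p.j + w) (D.lab _ ρ').be : ℤ) : ℝ)|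
        ≤ 6 * D.s ^ (-(2 * t)) + 1 := by
    intro ρ ρ' h h' hA
    have e1 : nmCell D.s (π.b2 p.De - p.De + w) (D.lab _ ρ).K = nmCell D.s (π.b2 p.De - p.De + w) (D.lab _ ρ').K := congrArg Prod.snd hA
    have a1 := nm_close_of_cell hs.1 hs.2 e1
    obtain ⟨ω, o1, -, o3⟩ := hE3 ρ h
    obtain ⟨ω', o1', -, o3'⟩ := hE3 ρ' h'
    obtain ⟨n1, n2, n3⟩ := G1 ρ ω o1
    obtain ⟨-, -, n3'⟩ := G1 ρ' ω' o1'
    have hT := G2 ρ ρ' ω ω' o1 o1' (by rw [o3, o3'])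
    rw [o3] at n1 n2 n3
    rw [o3'] at n3'
    have hb : (nmDsStr π p.De).b p.j = π.b2 p.De + (p.j - p.De) := by
      unfold NmDs.b nmDsStr
      simp
    have c1 : |(lam.T - (D.lab _ ρ).T) * ((D.lab _ ρ).K - (D.lab _ ρ').K)| ≤ D.s ^ ((nmDsStr π p.De).b p.j + w - 2 * t) := by
      rw [abs_mul, abs_of_nonneg n1]
      calc (lam.T - (D.lab _ ρ).T) * |(D.lab _ ρ).K - (D.lab _ ρ').K|
          ≤ D.s ^ (p.j - 2 * t) * D.s ^ (π.b2 p.De - p.De + w) :=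
            mul_le_mul n2 a1 (abs_nonneg _) (Real.rpow_nonneg hs.1.le _)
        _ = D.s ^ ((nmDsStr π p.De).b p.j + w - 2 * t) := by
            rw [← Real.rpow_add hs.1, hb]
            congr 1
            ring
    have c2 : (D.lab _ ρ).be - (D.lab _ ρ').be
        = ((D.lab _ ρ).beAt lam.T - lam.be) - ((D.lab _ ρ').beAt lam.T - lam.be)
          - (lam.T - (D.lab _ ρ).T) * ((D.lab _ ρ).K - (D.lab _ ρ').K) := by
      unfold SfTest.beAt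
      rw [← hT]
      ring
    have c3 : |(D.lab _ ρ).be - (D.lab _ ρ').be| ≤ 3 * D.s ^ ((nmDsStr π p.De).b p.j + w - 2 * t) := by
      rw [c2]
      rw [abs_le] at n3 n3' c1 ⊢
      constructor <;> linarith [n3.1, n3.2, n3'.1, n3'.2, c1.1, c1.2]
    have c4 := nm_cell_close hs.1 hs.2 ((nmDsStr π p.De).b p.j + w - 2 * t) ((nmDsStr π p.De).b p.j + w) c3
    have e3 : -((nmDsStr π p.De).b p.j + w - ((nmDsStr π p.De).b p.j + w - 2 * t)) = -(2 * t) := by ring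
    rw [e3] at c4
    linarith
  have L4 := ae2_ml_step E _ (fun ρ : D.Row (D.gt p.j) => nmCell D.s ((nmDsStr π p.De).b p.j + w) (D.lab _ ρ).be) _ (6 * D.s ^ (-(2 * t)) + 1 + 1)
    (by linarith) L3 (fun ρ₀ _ => ae2_ml_int E _ _ (6 * D.s ^ (-(2 * t)) + 1) (by linarith) PB ρ₀)
  obtain ⟨S, hS, hm⟩ := L4
  have hnum : (S.card : ℝ) ≤ N * D.s ^ (-τd) * 8 * (6 * D.s ^ (-(2 * t)) + 2) := by
    refine hS.trans (le_of_eq ?_)
    ring
  rcases Set.eq_empty_or_nonempty ({b | ∃ ρ ω, ((D.P (D.gt p.j)).p ρ ≠ 0 ∧ D.e2dBad p cs ka χ τd ρ ∧ D.e2dGrp π p w ρ = b) ∧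
      D.Conn (D.gt p.j) 1 ρ ω ∧ U ω ∧ D.lab 1 ω = lam} : Set (ℝ × ℤ × ℤ)) with hemp | ⟨b0, ρ0, ω0, ⟨-, -, -⟩, q1, -, q3⟩
  · rw [hemp]
    simp only [Set.ncard_empty, Nat.cast_zero]
    exact (Nat.cast_nonneg _).trans hnum
  · refine le_trans ?_ hnum
    have hsub : ({b | ∃ ρ ω, ((D.P (D.gt p.j)).p ρ ≠ 0 ∧ D.e2dBad p cs ka χ τd ρ ∧ D.e2dGrp π p w ρ = b) ∧
        D.Conn (D.gt p.j) 1 ρ ω ∧ U ω ∧ D.lab 1 ω = lam} : Set (ℝ × ℤ × ℤ)) ⊆ ↑(S.image fun x => ((D.lab _ ρ0).T, x.1.2, x.2)) := by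
      rintro b ⟨ρ, ω, ⟨a1, a2, rfl⟩, a3, a4, a5⟩
      have hEρ : E ρ := by rw [hE]; exact ⟨a1, a2, ω, a3, a4, a5⟩
      rw [Finset.coe_image]
      refine ⟨_, hm ρ hEρ, ?_⟩
      unfold SfDoc.e2dGrp
      rw [G2 ρ0 ρ ω0 ω q1 a3 (by rw [q3, a5])]
    have h3 := Set.ncard_le_ncard hsub (Finset.finite_toSet _)
    rw [Set.ncard_coe_finset] at h3
    exact_mod_cast h3.trans Finset.card_image_le

/-! ## C. (Sp) modulo the discarded rows -/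

/-- the numerology of `ae2d_sp`: `c = κ0 (De - j)` -/
theorem ae2d_sp_num (c : ℝ) (hc : 0 < c) : ∃ t0 : ℝ, 0 < t0 ∧ ∀ t : ℝ, 0 < t → t ≤ t0 → ∀ s : ℝ, 0 < s → s < 1 → s ≤ t → ∀ N x : ℝ, 0 ≤ N →
    N ≤ s ^ (-(c / 8)) → c / 2 ≤ x → N * s ^ (-(c / 8)) * 8 * (6 * s ^ (-(2 * t)) + 2) ≤ s ^ (-x) := by
  refine ⟨min (c / 16) ((64 : ℝ) ^ (-(8 / c))), lt_min (by positivity) (by positivity), ?_⟩
  intro t ht htt s s0 s1 hst N x hN0 hN hx
  have a1 : t ≤ c / 16 := htt.trans (min_le_left _ _)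
  have a2 : t ≤ (64 : ℝ) ^ (-(8 / c)) := htt.trans (min_le_right _ _)
  have h64 : (64 : ℝ) ≤ s ^ (-(c / 8)) := by
    have e1 : ((64 : ℝ) ^ (-(8 / c))) ^ (-(c / 8)) ≤ s ^ (-(c / 8)) := Real.rpow_le_rpow_of_nonpos s0 (hst.trans a2) (by linarith)
    rw [← Real.rpow_mul (by norm_num)] at e1
    have e2 : -(8 / c) * -(c / 8) = 1 := by field_simp
    rwa [e2, Real.rpow_one] at e1
  have h2t : s ^ (-(2 * t)) ≤ s ^ (-(c / 8)) := lay_rpow_anti s0 s1 (by linarith)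
  have h1 : 1 ≤ s ^ (-(2 * t)) := Real.one_le_rpow_of_pos_of_le_one_of_nonpos s0 s1.le (by linarith)
  obtain ⟨P, hP⟩ : ∃ P : ℝ, P = s ^ (-(c / 8)) := ⟨_, rfl⟩
  rw [← hP] at hN h64 h2t ⊢
  have hP0 : 0 < P := by linarith
  have q4 : P * P * (P * P) = s ^ (-(c / 2)) := by
    rw [hP, ← Real.rpow_add s0, ← Real.rpow_add s0]
    congr 1
    ring
  calc N * P * 8 * (6 * s ^ (-(2 * t)) + 2) ≤ P * P * 8 * (8 * P) := by
        have e1 : 6 * s ^ (-(2 * t)) + 2 ≤ 8 * P := by linarith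
        have e2 : N * P * 8 ≤ P * P * 8 := by nlinarith
        exact mul_le_mul e2 e1 (by linarith) (by positivity)
    _ = P * P * P * 64 := by ring
    _ ≤ P * P * P * P := mul_le_mul_of_nonneg_left h64 (by positivity)
    _ = s ^ (-(c / 2)) := by rw [← q4]; ring
    _ ≤ s ^ (-x) := lay_rpow_anti s0 s1 (by linarith)

/-- **(Sp) MODULO THE DISCARDED ROWS** (J4; the ONE inequality of VF).   `w = χ h / 2`, cost improvement `τc = χ h / (4 (De - j))`, `τd = κ0 (De - j) / 8`.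
`U0` = an event of final rows on which the final label lists `(cs, kb)` of the charged predecessors (`N ≤ s^(-κ0 (De - j) / 8)` values). -/
theorem ae2d_sp (π : SfPar) (h1 : π.c2 = 1) (C0 κ0 Λ : ℝ) (hκ0 : 0 < κ0) (p : Ae2P) (hp : p.Ok π Λ) (hDe : p.De = 1) (χ : ℝ) (hχ : 0 < χ) (hχ1 : χ ≤ 1) :
    ∃ t0 : ℝ, 0 < t0 ∧ ∀ t : ℝ, t ≤ t0 → ∀ D : SfDoc, D.Fine π C0 (χ * p.h / (4 * (p.De - p.j))) κ0 t → D.Spg π (χ * p.h / (4 * (p.De - p.j))) κ0 t →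
    ∀ (α : Type) (cs : D.Row (D.gt p.j) → α) (kb ka : D.Row (D.gt p.j) → ℝ) (N : ℝ) (U0 : D.Row 1 → Prop),
      (∀ ρ, |ka ρ - ((D.lab _ ρ).K - kb ρ) / D.s ^ (π.b2 p.De - p.De)| ≤ (D.s ^ p.h) ^ (30 : ℝ)) →
      0 ≤ N → N ≤ D.s ^ (-(κ0 * (p.De - p.j) / 8)) →
      (∀ lam : SfTest, ∃ L : Finset (α × ℝ), (L.card : ℝ) ≤ N ∧
        ∀ ρ ω, D.Conn (D.gt p.j) 1 ρ ω → U0 ω → D.lab 1 ω = lam → (D.P (D.gt p.j)).p ρ ≠ 0 → (cs ρ, kb ρ) ∈ L) →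
    ∀ (U : D.Row 1 → Prop) (S : D.Row (D.gt p.j) → Prop), (∀ ω, U ω → U0 ω) →
      (∀ ω, U ω → ∀ ρ, D.Conn (D.gt p.j) 1 ρ ω → S ρ ∨ D.e2dBad p cs ka χ (κ0 * (p.De - p.j) / 8) ρ) →
      (D.P 1).pr U ≤ D.s ^ (-t) * (D.P (D.gt p.j)).pr S ^ ((2 : ℝ) / 3) + D.s ^ (κ0 * (1 - D.gt p.j)) := by
  have hΔ : 0 < p.De - p.j := by linarith [hp.hjD]
  have hh := hp.h0
  have hw : 0 < χ * p.h / 2 := by positivity
  have hwh : χ * p.h / 2 ≤ p.h := by nlinarith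
  have hwχ : χ * p.h / 2 < χ * p.h := by linarith
  have hτ : χ * p.h / 2 / (2 * (p.De - p.j)) = χ * p.h / (4 * (p.De - p.j)) := by
    field_simp
    ring
  obtain ⟨t1, ht1, g1⟩ := ae2d_cost π h1 C0 (χ * p.h / (4 * (p.De - p.j))) κ0 Λ p hp hDe (χ * p.h / 2) hw hwh
  obtain ⟨t2, ht2, g2⟩ := ae2d_lab π C0 (χ * p.h / (4 * (p.De - p.j))) κ0 Λ p hp hDe χ (χ * p.h / 2) hw hwχ hχ1
  obtain ⟨t3, ht3, g3⟩ := ae2d_sp_num (κ0 * (p.De - p.j)) (by positivity)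
  refine ⟨min (min t1 t2) (min t3 (min ((p.De - p.j) / 4) (κ0 * (p.De - p.j) / 2))),
    lt_min (lt_min ht1 ht2) (lt_min ht3 (lt_min (by positivity) (by positivity))), ?_⟩
  intro t htt D hD hSpg α cs kb ka N U0 hka hN0 hN hL U S hU hpred
  have htpos : 0 < t := hD.pos
  have htt1 : t ≤ t1 := htt.trans ((min_le_left _ _).trans (min_le_left _ _))
  have htt2 : t ≤ t2 := htt.trans ((min_le_left _ _).trans (min_le_right _ _))
  have htt3 : t ≤ t3 := htt.trans ((min_le_right _ _).trans (min_le_left _ _))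
  have httΔ : t ≤ (p.De - p.j) / 4 := htt.trans ((min_le_right _ _).trans ((min_le_right _ _).trans (min_le_left _ _)))
  have httκ : t ≤ κ0 * (p.De - p.j) / 2 := htt.trans ((min_le_right _ _).trans ((min_le_right _ _).trans (min_le_right _ _)))
  have hcore := hD.ok.core
  have hs := hcore.hs
  have hne : D.G.Nonempty := ⟨1, hcore.gate.1⟩
  have ha0 : 0 < p.a := hp.root.ha.1
  have hj0 : 0 ≤ p.j := by linarith [hp.haj]
  have hj1 : p.j ≤ 1 := by linarith [hp.hjD, hp.hD1]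
  have hi := nm_gt_mem D hne p.j
  have ni := nm_gt_near hD hj0 hj1
  rw [abs_le] at ni
  have hgap : (p.De - p.j) / 2 ≤ 1 - D.gt p.j := by rw [hDe] at httΔ ⊢; linarith [ni.1, ni.2]
  have hi1 : D.gt p.j < 1 := by linarith
  have hκgap : κ0 * (p.De - p.j) / 2 ≤ κ0 * (1 - D.gt p.j) := by nlinarith
  obtain ⟨c1, c2⟩ := g1 t htpos htt1 D hD
  have key := hSpg (D.gt p.j) hi 1 hcore.gate.1 hi1 (httκ.trans hκgap) (Set.range (D.e2dGrp π p (χ * p.h / 2)))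
    (fun b ρ => (D.P (D.gt p.j)).p ρ ≠ 0 ∧ D.e2dBad p cs ka χ (κ0 * (p.De - p.j) / 8) ρ ∧ D.e2dGrp π p (χ * p.h / 2) ρ = b.1)
    (fun b => ae2Sg D.s π p (χ * p.h / 2) b.1) U (fun ρ => S ρ ∨ (D.P (D.gt p.j)).p ρ = 0) ?_ ?_ ?_ ?_ ?_ ?_
  · have e1 : (D.P (D.gt p.j)).pr (fun ρ => S ρ ∨ (D.P (D.gt p.j)).p ρ = 0) = (D.P (D.gt p.j)).pr S :=
      ent_pr_congr _ fun ρ hρ => ⟨fun h => h.resolve_right hρ, Or.inl⟩
    rwa [e1] at key
  · intro b b' ρ h h'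
    exact Subtype.ext (h.2.2.symm.trans h'.2.2)
  · intro ω hω ρ hc
    by_cases hρ : (D.P (D.gt p.j)).p ρ = 0
    · exact Or.inl (Or.inr hρ)
    · rcases hpred ω hω ρ hc with h | h
      · exact Or.inl (Or.inl h)
      · exact Or.inr ⟨⟨_, ρ, rfl⟩, hρ, h, rfl⟩
  · intro lam
    have hb := g2 t htt2 D hD α cs kb ka (κ0 * (p.De - p.j) / 8) N U hka lam (by
      obtain ⟨L, l1, l2⟩ := hL lam
      exact ⟨L, l1, fun ρ ω a1 a2 a3 a4 => l2 ρ ω a1 (hU ω a2) a3 a4⟩)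
    have hnum := g3 t htpos htt3 D.s hs.1 hs.2 hD.sm N (κ0 * (1 - D.gt p.j)) hN0 hN hκgap
    refine le_trans ?_ (hb.trans hnum)
    rw [← Set.ncard_image_of_injective _ Subtype.val_injective]
    have hfin : ({b | ∃ ρ ω, ((D.P (D.gt p.j)).p ρ ≠ 0 ∧ D.e2dBad p cs ka χ (κ0 * (p.De - p.j) / 8) ρ ∧ D.e2dGrp π p (χ * p.h / 2) ρ = b) ∧
        D.Conn (D.gt p.j) 1 ρ ω ∧ U ω ∧ D.lab 1 ω = lam} : Set (ℝ × ℤ × ℤ)).Finite := by
      refine (Set.finite_range (D.e2dGrp π p (χ * p.h / 2))).subset ?_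
      rintro b ⟨ρ, ω, ⟨-, -, rfl⟩, -⟩
      exact ⟨ρ, rfl⟩
    have := Set.ncard_le_ncard (s := Subtype.val '' {b : Set.range (D.e2dGrp π p (χ * p.h / 2)) | ∃ ρ ρ',
        ((D.P (D.gt p.j)).p ρ ≠ 0 ∧ D.e2dBad p cs ka χ (κ0 * (p.De - p.j) / 8) ρ ∧ D.e2dGrp π p (χ * p.h / 2) ρ = b.1) ∧
        D.Conn (D.gt p.j) 1 ρ ρ' ∧ U ρ' ∧ D.lab 1 ρ' = lam}) (by
      rintro _ ⟨b, ⟨ρ, ω, h, h'⟩, rfl⟩
      exact ⟨ρ, ω, h, h'⟩) hfin
    exact_mod_cast this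
  · rintro ⟨_, ρ, rfl⟩
    exact c2 ρ
  · intro _ b ρ ω hb hc _
    have := c1 ρ ω hc
    rw [hτ, hb.2.2] at this
    exact this
  · intro h0
    rw [h1] at h0
    norm_num at h0

/-! ## D. the mismatch property on retained rows -/

/-- **THE MISMATCH PROPERTY ON RETAINED ROWS** (J5).   `A` = any event of retained rows of mass `≥ m`. -/
theorem ae2d_mis (D : SfDoc) (hs : 0 < D.s ∧ D.s < 1) (p : Ae2P) (χ : ℝ) {α : Type} (cs : D.Row (D.gt p.j) → α) (ka : D.Row (D.gt p.j) → ℝ)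
    (τd m : ℝ) (hm : 0 < m) (A : D.Row (D.gt p.j) → Prop) (hA : ∀ ρ, A ρ → ¬ D.e2dBad p cs ka χ τd ρ) (hmA : m ≤ (D.P (D.gt p.j)).pr A) (I : α → ℝ) :
    ((D.P (D.gt p.j)).cnd A).pr (fun ρ => |I (cs ρ) - ka ρ| < (D.s ^ p.h) ^ χ) ≤ 6 * D.s ^ τd / m := by
  have hθ : 0 < D.s ^ τd := Real.rpow_pos_of_pos hs.1 _
  have hpA : 0 < (D.P (D.gt p.j)).pr A := lt_of_lt_of_le hm hmA
  have hval : (D.P (D.gt p.j)).NVal (fun ρ => |I (cs ρ) - ka ρ| < (D.s ^ p.h) ^ χ) (fun ρ => nmCell D.s (χ * p.h) (ka ρ)) cs 6 := by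
    intro ρ₀
    obtain ⟨S, hS, hmem⟩ := ae2_ml_int (fun ρ : D.Row (D.gt p.j) => |I (cs ρ) - ka ρ| < (D.s ^ p.h) ^ χ) cs (fun ρ => nmCell D.s (χ * p.h) (ka ρ)) 5
      (by norm_num) (by
        intro ρ ρ' h h' hc
        rw [hc] at h
        have e0 : (D.s ^ p.h) ^ χ = D.s ^ (χ * p.h) := by rw [← Real.rpow_mul hs.1.le, mul_comm]
        rw [e0] at h h'
        have e1 : |ka ρ - ka ρ'| ≤ 2 * D.s ^ (χ * p.h) := by
          rw [abs_lt] at h h'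
          rw [abs_le]
          constructor <;> linarith [h.1, h.2, h'.1, h'.2]
        have e2 := nm_cell_close hs.1 hs.2 (χ * p.h) (χ * p.h) e1
        simp only [sub_self, neg_zero, Real.rpow_zero, mul_one] at e2
        linarith) ρ₀
    exact ⟨S, by linarith, fun ρ _ h1 h2 => hmem ρ h1 h2⟩
  have hk := ae2d_keep (D.P (D.gt p.j)) cs (fun ρ => nmCell D.s (χ * p.h) (ka ρ)) (D.s ^ τd) hθ.le A _ 6 hA hval
  rw [ent_cnd_pr _ _ hpA]
  calc (D.P (D.gt p.j)).pr (fun ρ => A ρ ∧ |I (cs ρ) - ka ρ| < (D.s ^ p.h) ^ χ) / (D.P (D.gt p.j)).pr A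
      ≤ 6 * D.s ^ τd / (D.P (D.gt p.j)).pr A := div_le_div_of_nonneg_right hk hpA.le
    _ ≤ 6 * D.s ^ τd / m := div_le_div_of_nonneg_left (by positivity) hm hmA

end

end Claimed.Agent.R256
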