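import Claimed.Agent.R256.Act.E1.Fin

/-!
# Row 256, section Act, block E2 HYBRID, part J3 (iii) = VF "VIRTUAL FLATTENING"      (architect + prover helper98; design helper206, notes/R256/E2_hybrid_206.md sec. 1; prefix `ae2v_`)

PAPER FREE, VOCABULARY FREE.   Two finite laws `Pj` (rows of an interior gate), `P1` (final rows), a relation `R ρ ω` (`Conn`), a scale `0 < s < 1`.
A NAME PAIR `(Nj i, N1 i)`: on every `R ρ ω` the value `Nj i ρ` lists `N1 i ω` with `≤ Λ` values and conversely.   The final law is typical: off `ε1`, `P1(N1 i = N1 i ω) = s^(z i ± e)`.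
NO flatness of `Pj` is asked.   `ae2vTyp P s N z e ρ` : `s^(z+e) ≤ P(N = N ρ) ≤ s^(z-e)`.
* `ae2v_one`   one name: the typical final rows, off a set `LL` of mass `≤ Λ s^(e'-e)`, have ALL their predecessors in `{Typ at e'} ∪ S1`, `Pj(S1) ≤ Λ s^(e'-e)`.
* `ae2v_mass`  a finite family + ONE rarity inequality modulo `Bad` (`hsp` = `sp`, or `Spg` with `Bad` = the union of the cost-improved groups):
               `A = {¬ Bad, a successor in V, all scores are the final profiles ± e'}` has `(1/(2K))^(3/2) ≤ Pj(A) + n Λ s^(e'-e)`.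
* `ae2v_mass_sel`  the same for `Nj = N1 ∘ sel` (`sel ρ` = a successor of `ρ` in `V`): the only list hypothesis is CD (two final rows with a common predecessor).
* `ae2v_sur`, `ae2v_score`   on `A` the conditional `Pj`-scores are the differences of the profiles; they persist under `Pj.cnd A` (`lay_law_cnd_sur`).
* `ae2v_entC`  the conditional entropies under `Pj.cnd A`.
-/

set_option autoImplicit false

namespace Claimed.Agent.R256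

open Claimed.Agent.R255
open Claimed.Agent.R255.FLaw
open scoped BigOperators
open Classical

/-- the score of the name `N` at `ρ` is `z ± e` (units `log (1/s)`) -/
def ae2vTyp {Ω α : Type} [Fintype Ω] (P : FLaw Ω) (s : ℝ) (N : Ω → α) (z e : ℝ) (ρ : Ω) : Prop :=
  s ^ (z + e) ≤ P.fib N ρ ∧ P.fib N ρ ≤ s ^ (z - e)

theorem ae2v_eqns_cite : True := by
  have := @ae2vTyp.eq_1
  trivial

section kit

variable {Ω α : Type} [Fintype Ω]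

/-- values of mass `≥ c`: at most `1/c` -/
theorem ae2v_heavy (P : FLaw Ω) (X : Ω → α) (c : ℝ) (hc : 0 < c) (T : Finset α) (hT : ∀ x ∈ T, c ≤ P.pr (fun ω => X ω = x)) :
    (T.card : ℝ) ≤ 1 / c := by
  have h1 := ent_aux_sum_pr_le P X T
  have h2 : (T.card : ℝ) * c ≤ ∑ x ∈ T, P.pr (fun ω => X ω = x) := by
    rw [← nsmul_eq_mul, ← Finset.sum_const]
    exact Finset.sum_le_sum hT
  rw [le_div_iff₀ hc]
  linarith

/-- a list of values of mass `≤ c` each -/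
theorem ae2v_light (P : FLaw Ω) (X : Ω → α) (c : ℝ) (hc : 0 ≤ c) (T : Finset α) :
    P.pr (fun ω => X ω ∈ T ∧ P.fib X ω ≤ c) ≤ T.card * c := by
  rw [ent_pr_sum_values P (fun ω => X ω ∈ T ∧ P.fib X ω ≤ c) X T (fun _ _ h => h.1), ← nsmul_eq_mul, ← Finset.sum_const]
  refine Finset.sum_le_sum fun x _ => ?_
  by_cases h : ∃ ω, X ω = x ∧ P.fib X ω ≤ c
  · obtain ⟨ω0, h1, h2⟩ := h
    refine le_trans (ent_pr_mono P fun ω _ hω => ?_) h2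
    rw [hω.2, h1]
  · rw [ent_pr_eq_zero P fun ω _ hω => h ⟨ω, hω.2, hω.1.2⟩]
    exact hc

end kit

section vf

variable {Ωj Ω1 : Type} [Fintype Ωj] [Fintype Ω1]

/-- the cardinality of a union of lists -/
theorem ae2v_card_bi {γ δ : Type} (Λ : ℝ) (U : Finset γ) (f : γ → Finset δ) (hf : ∀ x, ((f x).card : ℝ) ≤ Λ) :
    ((U.biUnion f).card : ℝ) ≤ U.card * Λ := by
  have h1 : ((U.biUnion f).card : ℝ) ≤ ∑ x ∈ U, ((f x).card : ℝ) := by exact_mod_cast Finset.card_biUnion_le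
  refine h1.trans ?_
  rw [← nsmul_eq_mul, ← Finset.sum_const]
  exact Finset.sum_le_sum fun x _ => hf x

/-- **one name** -/
theorem ae2v_one {α β : Type} (Pj : FLaw Ωj) (P1 : FLaw Ω1) (R : Ωj → Ω1 → Prop) (s : ℝ) (h0 : 0 < s) (Nj : Ωj → α) (N1 : Ω1 → β)
    (Λ : ℝ) (hΛ : 0 ≤ Λ) (hl1 : ∀ x : α, ∃ T : Finset β, (T.card : ℝ) ≤ Λ ∧ ∀ ρ ω, R ρ ω → Nj ρ = x → N1 ω ∈ T)
    (hl2 : ∀ y : β, ∃ T : Finset α, (T.card : ℝ) ≤ Λ ∧ ∀ ρ ω, R ρ ω → N1 ω = y → Nj ρ ∈ T) (z e e' : ℝ) :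
    ∃ (LL : Ω1 → Prop) (S1 : Ωj → Prop), P1.pr LL ≤ Λ * s ^ (e' - e) ∧ Pj.pr S1 ≤ Λ * s ^ (e' - e) ∧
      ∀ ω, ae2vTyp P1 s N1 z e ω → ¬ LL ω → ∀ ρ, R ρ ω → ae2vTyp Pj s Nj z e' ρ ∨ S1 ρ := by
  choose l1 hc1 hm1 using hl1
  choose l2 hc2 hm2 using hl2
  have hpos : ∀ x : ℝ, 0 < s ^ x := fun x => Real.rpow_pos_of_pos h0 x
  -- heavy values of the earlier law
  obtain ⟨Hv, hHv⟩ : ∃ Hv : Finset α, Hv = (Finset.univ.image Nj).filter (fun x => s ^ (z - e') ≤ Pj.pr (fun ρ => Nj ρ = x)) := ⟨_, rfl⟩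
  have hHvc : (Hv.card : ℝ) ≤ 1 / s ^ (z - e') := ae2v_heavy Pj Nj _ (hpos _) Hv fun x hx => by
    rw [hHv] at hx
    exact (Finset.mem_filter.1 hx).2
  -- typical values of the final law
  obtain ⟨Ty, hTy⟩ : ∃ Ty : Finset β, Ty = (Finset.univ.image N1).filter (fun y => s ^ (z + e) ≤ P1.pr (fun ω => N1 ω = y)) := ⟨_, rfl⟩
  have hTyc : (Ty.card : ℝ) ≤ 1 / s ^ (z + e) := ae2v_heavy P1 N1 _ (hpos _) Ty fun y hy => by
    rw [hTy] at hy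
    exact (Finset.mem_filter.1 hy).2
  refine ⟨fun ω => N1 ω ∈ Hv.biUnion l1 ∧ P1.fib N1 ω ≤ s ^ (z - e), fun ρ => Nj ρ ∈ Ty.biUnion l2 ∧ Pj.fib Nj ρ ≤ s ^ (z + e'), ?_, ?_, ?_⟩
  · refine (ae2v_light P1 N1 _ (hpos _).le _).trans ?_
    calc ((Hv.biUnion l1).card : ℝ) * s ^ (z - e) ≤ (1 / s ^ (z - e') * Λ) * s ^ (z - e) :=
          mul_le_mul_of_nonneg_right ((ae2v_card_bi Λ Hv l1 hc1).trans (mul_le_mul_of_nonneg_right hHvc hΛ)) (hpos _).le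
      _ = Λ * s ^ (e' - e) := by
          have e1 : s ^ (e' - e) = s ^ (z - e) / s ^ (z - e') := by
            rw [← Real.rpow_sub h0]
            congr 1
            ring
          rw [e1]
          ring
  · refine (ae2v_light Pj Nj _ (hpos _).le _).trans ?_
    calc ((Ty.biUnion l2).card : ℝ) * s ^ (z + e') ≤ (1 / s ^ (z + e) * Λ) * s ^ (z + e') :=
          mul_le_mul_of_nonneg_right ((ae2v_card_bi Λ Ty l2 hc2).trans (mul_le_mul_of_nonneg_right hTyc hΛ)) (hpos _).le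
      _ = Λ * s ^ (e' - e) := by
          have e1 : s ^ (e' - e) = s ^ (z + e') / s ^ (z + e) := by
            rw [← Real.rpow_sub h0]
            congr 1
            ring
          rw [e1]
          ring
  · intro ω hω hLL ρ hR
    by_cases hlo : s ^ (z + e') ≤ Pj.fib Nj ρ
    · by_cases hhi : Pj.fib Nj ρ ≤ s ^ (z - e')
      · exact Or.inl ⟨hlo, hhi⟩
      · exfalso
        refine hLL ⟨Finset.mem_biUnion.2 ⟨Nj ρ, ?_, hm1 _ ρ ω hR rfl⟩, hω.2⟩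
        rw [hHv]
        exact Finset.mem_filter.2 ⟨Finset.mem_image.2 ⟨ρ, Finset.mem_univ _, rfl⟩, (not_le.1 hhi).le⟩
    · refine Or.inr ⟨Finset.mem_biUnion.2 ⟨N1 ω, ?_, hm2 _ ρ ω hR rfl⟩, (not_le.1 hlo).le⟩
      rw [hTy]
      exact Finset.mem_filter.2 ⟨Finset.mem_image.2 ⟨ω, Finset.mem_univ _, rfl⟩, hω.1⟩

/-- **the mass of the good rows.**   `hsp` = rarity transport modulo `Bad`, for the events inside `V` (`V` = the final rows on which the hypotheses of `Spg` are checked; e.g. charged rows). -/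
theorem ae2v_mass {ι α β : Type} [Fintype ι] (Pj : FLaw Ωj) (P1 : FLaw Ω1) (R : Ωj → Ω1 → Prop) (s : ℝ) (h0 : 0 < s)
    (Nj : ι → Ωj → α) (N1 : ι → Ω1 → β) (Λ : ℝ) (hΛ : 0 ≤ Λ)
    (hl1 : ∀ i, ∀ x : α, ∃ T : Finset β, (T.card : ℝ) ≤ Λ ∧ ∀ ρ ω, R ρ ω → Nj i ρ = x → N1 i ω ∈ T)
    (hl2 : ∀ i, ∀ y : β, ∃ T : Finset α, (T.card : ℝ) ≤ Λ ∧ ∀ ρ ω, R ρ ω → N1 i ω = y → Nj i ρ ∈ T)
    (z : ι → ℝ) (e e' ε1 : ℝ) (htyp : ∀ i, P1.pr (fun ω => ¬ ae2vTyp P1 s (N1 i) (z i) e ω) ≤ ε1)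
    (V : Ω1 → Prop) (εV : ℝ) (hV : P1.pr (fun ω => ¬ V ω) ≤ εV)
    (Bad : Ωj → Prop) (K η : ℝ) (hK : 0 < K)
    (hsp : ∀ (U : Ω1 → Prop) (S : Ωj → Prop), (∀ ω, U ω → V ω) → (∀ ω, U ω → ∀ ρ, R ρ ω → S ρ ∨ Bad ρ) → P1.pr U ≤ K * Pj.pr S ^ ((2 : ℝ) / 3) + η)
    (hsm : Fintype.card ι * (ε1 + Λ * s ^ (e' - e)) + εV + η ≤ 1 / 2) :
    (1 / (2 * K)) ^ ((3 : ℝ) / 2)
      ≤ Pj.pr (fun ρ => ¬ Bad ρ ∧ (∃ ω, V ω ∧ R ρ ω) ∧ ∀ i, ae2vTyp Pj s (Nj i) (z i) e' ρ) + Fintype.card ι * (Λ * s ^ (e' - e)) := by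
  have H := fun i => ae2v_one Pj P1 R s h0 (Nj i) (N1 i) Λ hΛ (hl1 i) (hl2 i) (z i) e e'
  choose LL S1 hLL hS1 hpred using H
  -- the good final rows
  have hU0 : 1 - Fintype.card ι * (ε1 + Λ * s ^ (e' - e)) ≤ P1.pr (fun ω => ∀ i ∈ (Finset.univ : Finset ι), ae2vTyp P1 s (N1 i) (z i) e ω ∧ ¬ LL i ω) := by
    refine le_trans ?_ (ent_pr_forall_ge P1 Finset.univ _)
    have h1 : ∑ i ∈ (Finset.univ : Finset ι), (1 - P1.pr (fun ω => ae2vTyp P1 s (N1 i) (z i) e ω ∧ ¬ LL i ω))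
        ≤ ∑ _i ∈ (Finset.univ : Finset ι), (ε1 + Λ * s ^ (e' - e)) := by
      refine Finset.sum_le_sum fun i _ => ?_
      rw [← ent_pr_not]
      refine le_trans (ent_pr_mono P1 (F := fun ω => ¬ ae2vTyp P1 s (N1 i) (z i) e ω ∨ LL i ω) fun ω _ h => ?_) ((ent_pr_or_le P1 _ _).trans (add_le_add (htyp i) (hLL i)))
      by_contra hcon
      push Not at hcon
      exact h ⟨hcon.1, hcon.2⟩
    rw [Finset.sum_const, Finset.card_univ, nsmul_eq_mul] at h1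
    linarith
  have hU : 1 - Fintype.card ι * (ε1 + Λ * s ^ (e' - e)) - εV
      ≤ P1.pr (fun ω => (∀ i ∈ (Finset.univ : Finset ι), ae2vTyp P1 s (N1 i) (z i) e ω ∧ ¬ LL i ω) ∧ V ω) := by
    have h1 := ent_pr_and_ge P1 (fun ω => ∀ i ∈ (Finset.univ : Finset ι), ae2vTyp P1 s (N1 i) (z i) e ω ∧ ¬ LL i ω) V
    have h2 := ent_pr_not P1 V
    linarith
  have hS := hsp (fun ω => (∀ i ∈ (Finset.univ : Finset ι), ae2vTyp P1 s (N1 i) (z i) e ω ∧ ¬ LL i ω) ∧ V ω)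
    (fun ρ => (¬ Bad ρ ∧ (∃ ω, V ω ∧ R ρ ω) ∧ ∀ i, ae2vTyp Pj s (Nj i) (z i) e' ρ) ∨ ∃ i ∈ (Finset.univ : Finset ι), S1 i ρ) (fun ω h => h.2) (by
      intro ω hω ρ hR
      by_cases hB : Bad ρ
      · exact Or.inr hB
      · by_cases hS : ∃ i ∈ (Finset.univ : Finset ι), S1 i ρ
        · exact Or.inl (Or.inr hS)
        · refine Or.inl (Or.inl ⟨hB, ⟨ω, hω.2, hR⟩, fun i => ?_⟩)
          rcases hpred i ω (hω.1 i (Finset.mem_univ _)).1 (hω.1 i (Finset.mem_univ _)).2 ρ hR with h | h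
          · exact h
          · exact absurd ⟨i, Finset.mem_univ _, h⟩ hS)
  obtain ⟨m, hm⟩ : ∃ m : ℝ, m = Pj.pr (fun ρ => (¬ Bad ρ ∧ (∃ ω, V ω ∧ R ρ ω) ∧ ∀ i, ae2vTyp Pj s (Nj i) (z i) e' ρ) ∨ ∃ i ∈ (Finset.univ : Finset ι), S1 i ρ) := ⟨_, rfl⟩
  rw [← hm] at hS
  have hm0 : 0 ≤ m := hm ▸ ent_pr_nonneg _ _
  have h2 : 1 / (2 * K) ≤ m ^ ((2 : ℝ) / 3) := by
    rw [div_le_iff₀ (by positivity)]
    nlinarith
  have h3 : (1 / (2 * K)) ^ ((3 : ℝ) / 2) ≤ m := by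
    have h4 := Real.rpow_le_rpow (by positivity) h2 (show (0 : ℝ) ≤ 3 / 2 by norm_num)
    rwa [← Real.rpow_mul hm0, show (2 : ℝ) / 3 * (3 / 2) = 1 by norm_num, Real.rpow_one] at h4
  refine h3.trans ?_
  rw [hm]
  refine (ent_pr_or_le Pj _ _).trans (add_le_add le_rfl ?_)
  refine (ent_pr_exists_le Pj Finset.univ S1).trans ?_
  have h5 : ∑ i ∈ (Finset.univ : Finset ι), Pj.pr (S1 i) ≤ ∑ _i ∈ (Finset.univ : Finset ι), Λ * s ^ (e' - e) := Finset.sum_le_sum fun i _ => hS1 i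
  rwa [Finset.sum_const, Finset.card_univ, nsmul_eq_mul] at h5

/-- **the names of a selected successor** (`sel` of helper219): `Nj = N1 ∘ sel`; the only list hypothesis is CD = two final rows (in `V`) with a common predecessor have names in mutual lists determined by the names. -/
theorem ae2v_mass_sel {ι β : Type} [Fintype ι] (Pj : FLaw Ωj) (P1 : FLaw Ω1) (R : Ωj → Ω1 → Prop) (s : ℝ) (h0 : 0 < s)
    (sel : Ωj → Ω1) (N1 : ι → Ω1 → β) (V : Ω1 → Prop) (hsel : ∀ ρ ω, V ω → R ρ ω → V (sel ρ) ∧ R ρ (sel ρ)) (Λ : ℝ) (hΛ : 0 ≤ Λ)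
    (hcd : ∀ i, ∀ y : β, ∃ T : Finset β, (T.card : ℝ) ≤ Λ ∧ ∀ ρ ω ω', V ω → V ω' → R ρ ω → R ρ ω' → N1 i ω = y → N1 i ω' ∈ T)
    (z : ι → ℝ) (e e' ε1 : ℝ) (htyp : ∀ i, P1.pr (fun ω => ¬ ae2vTyp P1 s (N1 i) (z i) e ω) ≤ ε1)
    (εV : ℝ) (hV : P1.pr (fun ω => ¬ V ω) ≤ εV) (Bad : Ωj → Prop) (K η : ℝ) (hK : 0 < K)
    (hsp : ∀ (U : Ω1 → Prop) (S : Ωj → Prop), (∀ ω, U ω → V ω) → (∀ ω, U ω → ∀ ρ, R ρ ω → S ρ ∨ Bad ρ) → P1.pr U ≤ K * Pj.pr S ^ ((2 : ℝ) / 3) + η)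
    (hsm : Fintype.card ι * (ε1 + Λ * s ^ (e' - e)) + εV + η ≤ 1 / 2) :
    (1 / (2 * K)) ^ ((3 : ℝ) / 2)
      ≤ Pj.pr (fun ρ => ¬ Bad ρ ∧ (V (sel ρ) ∧ R ρ (sel ρ)) ∧ ∀ i, ae2vTyp Pj s (fun ρ' => N1 i (sel ρ')) (z i) e' ρ) + Fintype.card ι * (Λ * s ^ (e' - e)) := by
  have h := ae2v_mass Pj P1 (fun ρ ω => R ρ ω ∧ V ω) s h0 (fun i ρ => N1 i (sel ρ)) N1 Λ hΛ
    (fun i x => by
      obtain ⟨T, hT, hm⟩ := hcd i x
      exact ⟨T, hT, fun ρ ω hR hx => hm ρ (sel ρ) ω (hsel ρ ω hR.2 hR.1).1 hR.2 (hsel ρ ω hR.2 hR.1).2 hR.1 hx⟩)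
    (fun i y => by
      obtain ⟨T, hT, hm⟩ := hcd i y
      exact ⟨T, hT, fun ρ ω hR hy => hm ρ ω (sel ρ) hR.2 (hsel ρ ω hR.2 hR.1).1 hR.1 (hsel ρ ω hR.2 hR.1).2 hy⟩)
    z e e' ε1 htyp V εV hV Bad K η hK
    (fun U S hUV hp => hsp U S hUV fun ω hω ρ hR => hp ω hω ρ ⟨hR, hUV ω hω⟩) hsm
  refine h.trans (add_le_add (ent_pr_mono Pj fun ρ _ hρ => ?_) le_rfl)
  obtain ⟨h1, ⟨ω, hω, hR⟩, h3⟩ := hρ
  exact ⟨h1, hsel ρ ω hω hR.1, h3⟩

end vf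

section sc

variable {Ω α β : Type} [Fintype Ω]

/-- logarithmic form of `ae2vTyp` -/
theorem ae2v_log (P : FLaw Ω) (s : ℝ) (h0 : 0 < s) (N : Ω → α) (z e : ℝ) (ρ : Ω) (h : ae2vTyp P s N z e ρ) :
    |-Real.log (P.fib N ρ) - z * lg s| ≤ e * lg s := by
  obtain ⟨h1, h2⟩ := h
  have hp : 0 < P.fib N ρ := lt_of_lt_of_le (Real.rpow_pos_of_pos h0 _) h1
  have l1 := Real.log_le_log (Real.rpow_pos_of_pos h0 _) h1
  have l2 := Real.log_le_log hp h2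
  rw [Real.log_rpow h0] at l1 l2
  have e1 : lg s = -Real.log s := by
    unfold lg
    rw [one_div, Real.log_inv]
  rw [e1, abs_le]
  constructor <;> nlinarith

/-- converse -/
theorem ae2v_of_log (P : FLaw Ω) (s : ℝ) (h0 : 0 < s) (N : Ω → α) (z e : ℝ) (ρ : Ω) (hρ : P.p ρ ≠ 0)
    (h : |-Real.log (P.fib N ρ) - z * lg s| ≤ e * lg s) : ae2vTyp P s N z e ρ := by
  have hp : 0 < P.fib N ρ := ent_fib_pos P N hρ
  have e1 : lg s = -Real.log s := by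
    unfold lg
    rw [one_div, Real.log_inv]
  rw [e1, abs_le] at h
  obtain ⟨h1, h2⟩ := h
  constructor
  · rw [← Real.log_le_log_iff (Real.rpow_pos_of_pos h0 _) hp, Real.log_rpow h0]
    nlinarith
  · rw [← Real.log_le_log_iff hp (Real.rpow_pos_of_pos h0 _), Real.log_rpow h0]
    nlinarith

/-- the unconditional score as a conditional score given a constant -/
theorem ae2v_surC_const (P : FLaw Ω) (N : Ω → α) (c : β) (ρ : Ω) : P.surC N (fun _ => c) ρ = -Real.log (P.fib N ρ) := by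
  unfold FLaw.surC
  have e1 : P.fib (fun _ : Ω => c) ρ = 1 := by
    unfold FLaw.fib
    exact ent_pr_eq_one P fun _ _ => rfl
  have e2 : P.fib (pair N (fun _ : Ω => c)) ρ = P.fib N ρ := by
    unfold FLaw.fib
    refine ent_pr_congr P fun ω _ => ?_
    simp [FLaw.pair]
  rw [e1, e2, div_one]

/-- on the good rows the conditional score is the difference of the profiles -/
theorem ae2v_sur (P : FLaw Ω) (s : ℝ) (h0 : 0 < s) (X : Ω → α) (Y : Ω → β) (zXY zY e : ℝ) (ρ : Ω) (hρ : P.p ρ ≠ 0)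
    (h1 : ae2vTyp P s (pair X Y) zXY e ρ) (h2 : ae2vTyp P s Y zY e ρ) : |P.surC X Y ρ - (zXY - zY) * lg s| ≤ 2 * e * lg s := by
  have l1 := abs_le.1 (ae2v_log P s h0 _ _ _ ρ h1)
  have l2 := abs_le.1 (ae2v_log P s h0 _ _ _ ρ h2)
  rw [ent_surC_eq_sub P X Y hρ, abs_le]
  constructor <;> linarith [l1.1, l1.2, l2.1, l2.2]

/-- **the scores persist under the restriction to the good rows** -/
theorem ae2v_score (P : FLaw Ω) (A : Ω → Prop) (hA : 0 < P.pr A) (s : ℝ) (h0 : 0 < s) (X : Ω → α) (Y : Ω → β) (zXY zY e u : ℝ) (hu : 0 < u)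
    (h1 : ∀ ρ, P.p ρ ≠ 0 → A ρ → ae2vTyp P s (pair X Y) zXY e ρ) (h2 : ∀ ρ, P.p ρ ≠ 0 → A ρ → ae2vTyp P s Y zY e ρ) :
    (P.cnd A).pr (fun ρ => 2 * e * lg s + 2 * u < |(P.cnd A).surC X Y ρ - (zXY - zY) * lg s|)
      ≤ 2 * ((Real.log (1 / P.pr A) + Real.exp (-1)) / u + Real.exp (-u)) := by
  refine le_trans (ent_pr_mono _ fun ρ hρ hh => ?_) (lay_law_cnd_sur P A hA X Y hu)
  obtain ⟨hAρ, hpρ⟩ := (ent_cnd_supp P A hA).1 hρ
  have h3 := ae2v_sur P s h0 X Y zXY zY e ρ hpρ (h1 ρ hpρ hAρ) (h2 ρ hpρ hAρ)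
  have h4 := abs_sub_le ((P.cnd A).surC X Y ρ) (P.surC X Y ρ) ((zXY - zY) * lg s)
  linarith

/-- **the conditional entropies under the restriction to the good rows.**   `ε` = the failure probability of `ae2v_score`, `S` = a support of `X`. -/
theorem ae2v_entC (P : FLaw Ω) (A : Ω → Prop) (hA : 0 < P.pr A) (s : ℝ) (h0 : 0 < s) (h1s : s < 1) (X : Ω → α) (Y : Ω → β) (zXY zY e u ε : ℝ) (hu : 0 < u)
    (he : 0 ≤ e) (hz : 0 ≤ zXY - zY)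
    (h1 : ∀ ρ, P.p ρ ≠ 0 → A ρ → ae2vTyp P s (pair X Y) zXY e ρ) (h2 : ∀ ρ, P.p ρ ≠ 0 → A ρ → ae2vTyp P s Y zY e ρ)
    (hε : 2 * ((Real.log (1 / P.pr A) + Real.exp (-1)) / u + Real.exp (-u)) ≤ ε) (hε1 : ε ≤ 1)
    (S : Finset α) (hS : ∀ ρ, P.p ρ ≠ 0 → A ρ → X ρ ∈ S) :
    (P.cnd A).entC X Y ≤ (zXY - zY) * lg s + 2 * e * lg s + 2 * u + ε * Real.log S.card + 1 ∧
    ((zXY - zY) * lg s - 2 * e * lg s - 2 * u) * (1 - ε) ≤ (P.cnd A).entC X Y := by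
  have hL : 0 < lg s := by
    unfold lg
    exact Real.log_pos (by rw [one_div]; exact (one_lt_inv₀ h0).2 h1s)
  have hsc := (ae2v_score P A hA s h0 X Y zXY zY e u hu h1 h2).trans hε
  constructor
  · have h3 := ae1_k_ent_le (P.cnd A) X Y S (fun ρ hρ => by
      obtain ⟨hAρ, hpρ⟩ := (ent_cnd_supp P A hA).1 hρ
      exact hS ρ hpρ hAρ) ((zXY - zY) * lg s + 2 * e * lg s + 2 * u) ε (by positivity) (le_trans (ent_pr_mono _ fun ρ _ hh => ?_) hsc)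
    · linarith
    · have := le_abs_self ((P.cnd A).surC X Y ρ - (zXY - zY) * lg s)
      linarith
  · by_cases hc : 0 ≤ (zXY - zY) * lg s - 2 * e * lg s - 2 * u
    · refine ltk_ent_ge (P.cnd A) X Y hc (le_trans (ent_pr_mono _ fun ρ _ hh => ?_) hsc)
      have := neg_abs_le ((P.cnd A).surC X Y ρ - (zXY - zY) * lg s)
      linarith
    · exact le_trans (mul_nonpos_of_nonpos_of_nonneg (not_le.1 hc).le (by linarith)) (ent_entC_nonneg _ _ _)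

end sc

end Claimed.Agent.R256
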