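import Claimed.Agent.R256.Act.E2.Cl
import Claimed.Agent.R256.Act.E2H.Vf
import Claimed.Agent.R256.Soft.Spg

/-!
# Row 256, section Act, block E2 HYBRID (`ae2_hy_step`), file 1: DEFINITIONS      (chief helper198; prefix `ae2h_`, doc functions `SfDoc.e2h*`)      06 l.455-493, 596-650

ROUTE (ruling 00:12Z) = note of helper206 (VF + SPG) + the selection of helper219.   NO intrinsic names, NO cut document, NO interior flattening.
`j0 = D.gt p.j`, `ν = D.P j0` (law of the rows of the gate near `j`), `μ = D.P 1`.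
* `D.e2hR i ρ ω`    `Conn i 1 ρ ω` and `ω` charged (the relation `R` of `Act/E2H/Vf.lean`);      `D.e2hA0 i ρ` : `ρ` has such a successor.
* `D.e2hSel i ρ`    a CHOSEN charged final successor of `ρ` (an arbitrary charged final row when there is none): ALWAYS charged (`ae2h_sel_ch`), connected on `A0` (`ae2h_sel_conn`).
* `T.pull P' f`     the tangent datum `T` read through `f : Ω' → T.Ω` under the law `P'`;      `ae2hTan D π p dsp = (ae2Tan D π p dsp).pull ν sel`: ALL observables (names, common phase, marks, displays) are the FINAL ones at `sel ρ`.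
* `D.e2hZ π p`      the refined side: the standard side of `sel ρ` + the bins of depth `30` of the line `(e2B, e2K)` of the OWN label `D.lab j0 ρ` in the frame of `sel ρ`.
* `D.e2hW`, `D.e2hBin`, `D.e2hBad`      what a predictor sees `(C, S)`, the slope bin of depth `χ`, the DISCARDED rows: charged rows whose bin has conditional `ν`-mass `≥ s^τd` given `(C, S)`.
* `D.E2hSpb i Bad K η`      rarity transport modulo `Bad` (the hypothesis `hsp` of `ae2v_mass`).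
* `D.E2hCd π i L Λ`      (CD) the values of the list of queries `L` at two charged final rows with a common predecessor at the gate `i` are in lists of size `Λ` determined by the VALUE.
-/

set_option autoImplicit false

namespace Claimed.Agent.R256

open Claimed.Agent.R255
open Claimed.Agent.R255.FLaw (pair)
open Filter Topology
open Classical

noncomputable section

/-- a tangent datum read through a map -/
def Tan.pull (T : Tan) {Ω' : Type} [inst : Fintype Ω'] (P' : FLaw Ω') (f : Ω' → T.Ω) : Tan where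
  Ω := Ω'
  fin := inst
  P := P'
  δ := T.δ
  quad := T.quad
  ζ := T.ζ
  Zs := fun ρ => T.Zs (f ρ)
  γ := T.γ
  Cs := fun ρ => T.Cs (f ρ)
  F := fun ρ => T.F (f ρ)
  mrk := fun i ρ => T.mrk i (f ρ)
  ο := T.ο
  O := fun l ρ => T.O l (f ρ)
  dsp := fun l ρ => T.dsp l (f ρ)
  ϖ := T.ϖ
  Wd := fun l ρ => T.Wd l (f ρ)

namespace SfDoc

variable (D : SfDoc) (π : SfPar)

/-- connected to a CHARGED final row -/
def e2hR (i : ℝ) (ρ : D.Row i) (ω : D.Row 1) : Prop := D.Conn i 1 ρ ω ∧ (D.P 1).p ω ≠ 0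

/-- rows with a charged final successor -/
def e2hA0 (i : ℝ) (ρ : D.Row i) : Prop := ∃ ω : D.Row 1, D.e2hR i ρ ω

/-- **the selection**: a charged final successor -/
def e2hSel (i : ℝ) (ρ : D.Row i) : D.Row 1 :=
  if h : D.e2hA0 i ρ then h.choose else (ent_exists_supp (D.P 1)).choose

/-- **the refined side of a row of the gate near `j`** -/
def e2hZ (p : Ae2P) : D.Row (D.gt p.j) → NmZv D.Idx × (ℤ × ℤ) := fun ρ =>
  (D.side π (ae2Q π p.De) (p.rt π).σ p.a (D.e2hSel (D.gt p.j) ρ),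
    (tcell (D.s ^ p.h) 30 (D.e2B π p.De p.a (D.lab (D.gt p.j) ρ) (D.e2hSel (D.gt p.j) ρ)),
      tcell (D.s ^ p.h) 30 (D.e2K π p.De (D.lab (D.gt p.j) ρ) (D.e2hSel (D.gt p.j) ρ))))

/-- rarity transport modulo `Bad` -/
def E2hSpb (i : ℝ) (Bad : D.Row i → Prop) (K η : ℝ) : Prop :=
  ∀ (U : D.Row 1 → Prop) (S : D.Row i → Prop), (∀ ω, U ω → ∀ ρ, D.e2hR i ρ ω → S ρ ∨ Bad ρ) →
    (D.P 1).pr U ≤ K * (D.P i).pr S ^ ((2 : ℝ) / 3) + η

/-- **(CD)** co-descendants: lists determined by the value -/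
def E2hCd (i : ℝ) (L : List NmAt) (Λ : ℝ) : Prop :=
  ∀ x : List (NmVl D.Idx), ∃ T : Finset (List (NmVl D.Idx)), (T.card : ℝ) ≤ Λ ∧
    ∀ (ρ : D.Row i) (ω ω' : D.Row 1), D.e2hR i ρ ω → D.e2hR i ρ ω' → D.ats π L ω = x → D.ats π L ω' ∈ T

end SfDoc

/-- **the tangent datum of the hybrid boundary experiment** -/
def ae2hTan (D : SfDoc) (π : SfPar) (p : Ae2P) (dsp : ℝ → NmNm → NmNm → ItDsp) : Tan :=
  (ae2Tan D π p dsp).pull (D.P (D.gt p.j)) (D.e2hSel (D.gt p.j))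

namespace SfDoc

variable (D : SfDoc) (π : SfPar)

/-- what a predictor sees -/
def e2hW (p : Ae2P) (dsp : ℝ → NmNm → NmNm → ItDsp) (R : ℝ) : D.Row (D.gt p.j) → NmNm × LttS := fun ρ =>
  (D.cs π (p.rt π) (D.e2hSel (D.gt p.j) ρ), (ae2Tan D π p dsp).ltS R (D.e2hSel (D.gt p.j) ρ))

/-- the slope bin of depth `χ` -/
def e2hBin (p : Ae2P) (χ : ℝ) : D.Row (D.gt p.j) → ℤ := fun ρ => tcell (D.s ^ p.h) χ (ae2Ka (D.s ^ p.h) (D.e2hZ π p ρ))

/-- **the discarded rows**: the slope bin is popular given `(C, S)` -/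
def e2hBad (p : Ae2P) (dsp : ℝ → NmNm → NmNm → ItDsp) (χ R τd : ℝ) (ρ : D.Row (D.gt p.j)) : Prop :=
  (D.P (D.gt p.j)).p ρ ≠ 0 ∧
    D.s ^ τd * (D.P (D.gt p.j)).pr (fun ρ' => D.e2hW π p dsp R ρ' = D.e2hW π p dsp R ρ)
      ≤ (D.P (D.gt p.j)).pr (fun ρ' => D.e2hW π p dsp R ρ' = D.e2hW π p dsp R ρ ∧ D.e2hBin π p χ ρ' = D.e2hBin π p χ ρ)

end SfDoc

theorem ae2h_defs_eqns_cite : True := by
  have := @Tan.pull.eq_1; have := @SfDoc.e2hR.eq_1; have := @SfDoc.e2hA0.eq_1; have := @SfDoc.e2hSel.eq_1; have := @SfDoc.e2hZ.eq_1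
  have := @SfDoc.E2hSpb.eq_1; have := @SfDoc.E2hCd.eq_1; have := @ae2hTan.eq_1; have := @SfDoc.e2hW.eq_1; have := @SfDoc.e2hBin.eq_1
  have := @SfDoc.e2hBad.eq_1
  trivial

/-! ## first facts -/

section first

variable (D : SfDoc) (π : SfPar) (p : Ae2P) (dsp : ℝ → NmNm → NmNm → ItDsp)

/-- the selected row is charged -/
theorem ae2h_sel_ch (i : ℝ) (ρ : D.Row i) : (D.P 1).p (D.e2hSel i ρ) ≠ 0 := by
  unfold SfDoc.e2hSel
  split_ifs with h
  · exact h.choose_spec.2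
  · exact (ent_exists_supp (D.P 1)).choose_spec

/-- on `A0` the selected row is a successor -/
theorem ae2h_sel_conn (i : ℝ) (ρ : D.Row i) (h : D.e2hA0 i ρ) : D.Conn i 1 ρ (D.e2hSel i ρ) := by
  unfold SfDoc.e2hSel
  rw [dif_pos h]
  exact h.choose_spec.1

theorem ae2h_sel_R (i : ℝ) (ρ : D.Row i) (h : D.e2hA0 i ρ) : D.e2hR i ρ (D.e2hSel i ρ) := ⟨ae2h_sel_conn D i ρ h, ae2h_sel_ch D i ρ⟩

theorem ae2h_tan_P : (ae2hTan D π p dsp).P = D.P (D.gt p.j) := rfl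
theorem ae2h_tan_δ : (ae2hTan D π p dsp).δ = D.s ^ p.h := rfl
theorem ae2h_tan_L : (ae2hTan D π p dsp).L = (ae2Tan D π p dsp).L := rfl
theorem ae2h_tan_Cs : (ae2hTan D π p dsp).Cs = fun ρ => D.cs π (p.rt π) (D.e2hSel (D.gt p.j) ρ) := rfl
theorem ae2h_tan_F : (ae2hTan D π p dsp).F = fun ρ => (ae2Tan D π p dsp).F (D.e2hSel (D.gt p.j) ρ) := rfl
theorem ae2h_tan_mrk (i : ℕ) : (ae2hTan D π p dsp).mrk i = fun ρ => D.smk π (p.rt π) (D.e2hSel (D.gt p.j) ρ) := rfl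
theorem ae2h_tan_O (l : ℝ) : (ae2hTan D π p dsp).O l = fun ρ => (ae2Tan D π p dsp).O l (D.e2hSel (D.gt p.j) ρ) := rfl
theorem ae2h_tan_Xn (z : ℝ) : (ae2hTan D π p dsp).Xn z = fun ρ => (ae2Tan D π p dsp).Xn z (D.e2hSel (D.gt p.j) ρ) := rfl
theorem ae2h_tan_thn (i : ℕ) (z : ℝ) : (ae2hTan D π p dsp).thn i z = fun ρ => (ae2Tan D π p dsp).thn i z (D.e2hSel (D.gt p.j) ρ) := rfl
theorem ae2h_tan_ltS (R : ℝ) : (ae2hTan D π p dsp).ltS R = fun ρ => (ae2Tan D π p dsp).ltS R (D.e2hSel (D.gt p.j) ρ) := rfl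
theorem ae2h_tan_W (R : ℝ) (ρ : D.Row (D.gt p.j)) : D.e2hW π p dsp R ρ = ((ae2hTan D π p dsp).Cs ρ, (ae2hTan D π p dsp).ltS R ρ) := rfl
theorem ae2h_tan_be (ρ : D.Row (D.gt p.j)) :
    ae2Be (D.s ^ p.h) (D.e2hZ π p ρ) = trep (D.s ^ p.h) 30 (D.e2B π p.De p.a (D.lab (D.gt p.j) ρ) (D.e2hSel (D.gt p.j) ρ)) := rfl
theorem ae2h_tan_ka (ρ : D.Row (D.gt p.j)) :
    ae2Ka (D.s ^ p.h) (D.e2hZ π p ρ) = trep (D.s ^ p.h) 30 (D.e2K π p.De (D.lab (D.gt p.j) ρ) (D.e2hSel (D.gt p.j) ρ)) := rfl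

end first

/-! ## the supply of the sequence -/

namespace NmSeq

variable {π : SfPar} {C0 : ℝ} {κ : ℝ → ℝ} (S : NmSeq π C0 κ)

/-- **the extra supply for the hybrid boundary experiment**: (SPG) along the sequence (will follow from the field `spg` of `SfDoc.Aff`; helper206) -/
def E2Hy : Prop := ∀ (n : ℕ) (τ : ℝ), 0 < τ → (S.D n).Spg π τ (κ τ) (S.t n)

end NmSeq

theorem ae2h_seq_eqns_cite : True := by
  have := @NmSeq.E2Hy.eq_1
  trivial

/-- statements for all fine configurations with (SPG) hold for `uf`-most configurations of the sequence -/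
theorem ae2h_uf {π : SfPar} {C0 : ℝ} {κ : ℝ → ℝ} (S : NmSeq π C0 κ) (hX : S.HasX) (hY : S.E2Hy) (τ : ℝ) (hτ : 0 < τ) (Φ : SfDoc → Prop)
    (h : ∃ t0 : ℝ, 0 < t0 ∧ ∀ D : SfDoc, D.Fine π C0 τ (κ τ) t0 → nmX π D t0 → D.Spg π τ (κ τ) t0 → Φ D) : ∀ᶠ n in uf, Φ (S.D n) := by
  obtain ⟨t0, ht0, H⟩ := h
  filter_upwards [S.lim.eventually (gt_mem_nhds ht0)] with n hn
  exact H (S.D n) (nm_pro_fine_mono (S.fine n τ hτ) hn.le le_rfl) (nm_pro_X_mono (nm_pro_hs S n) (hX n) hn.le)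
    (sf_spg_mono (S.D n) π τ τ (κ τ) (κ τ) (S.t n) t0 (nm_pro_hs S n) (S.fine n τ hτ).pos hn.le le_rfl le_rfl (hY n τ hτ))

end

end Claimed.Agent.R256
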