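import Claimed.Agent.R256.Act.E2H.Defs

/-!
# Row 256, section Act, block E2H (hybrid half of Prop. act:strict-boundary), part TAN: THE PULL-BACK OF THE BOUNDARY TANGENT DATUM      (helper114; chief helper198; prefix `ae2h_`)      0 sorry; general forms `*G` by helper114, exits `ae2h_geo`, `ae2h_line`, `ae2h_nval` in the vocabulary of Defs.lean at the end

Route of 198 / 219 / 206: the experiment lives on the rows of the gate `j0 = D.gt p.j`; a map `sel : D.Row j0 → D.Row 1` chooses a (charged, typical) final successor; ALL observables are the FINAL ones composed with `sel`;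
only the side is refined by the bins of depth `30` of the line of the OWN label `D.lab j0 ρ`, read in the frame of `sel ρ`.
* `T.pull Q sel : Tan`   generic pull-back (law `Q` on `Ω'`, observables `∘ sel`);   `ae2h_pull_geo`, `ae2h_pull_dsp` : `LtGeo`, `LtDsp` pull back as soon as `sel` maps the support of `Q` into the support of `T.P`.
* `ae2hTanG D π p dsp j0 Q sel := (ae2Tan D π p dsp).pull Q sel`,   `ae2hZG D π p j0 sel` the refined side.      USE: `Q := (D.P j0).cnd A`, event `fun _ => True`.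
* EXITS   `ae2h_geoG` (`LtGeo` + `LtDsp` from `NmGeo` of the FINAL datum),   `ae2h_lineG` (`LtLine`, from `ae2_line_core`: classical AND hybrid, `De = 1`).
-/

set_option autoImplicit false

namespace Claimed.Agent.R256

open Claimed.Agent.R255
open Claimed.Agent.R255.FLaw (pair)
open Filter Topology
open Classical

noncomputable section

/-- the tangent datum of the hybrid boundary experiment -/
def ae2hTanG (D : SfDoc) (π : SfPar) (p : Ae2P) (dsp : ℝ → NmNm → NmNm → ItDsp) (j0 : ℝ) (Q : FLaw (D.Row j0)) (sel : D.Row j0 → D.Row 1) : Tan :=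
  (ae2Tan D π p dsp).pull Q sel

/-- **the refined side**: the standard side of `sel ρ`, the bins of depth `30` of the line of the own label of `ρ` in the frame of `sel ρ` -/
def ae2hZG (D : SfDoc) (π : SfPar) (p : Ae2P) (j0 : ℝ) (sel : D.Row j0 → D.Row 1) : D.Row j0 → NmZv D.Idx × (ℤ × ℤ) := fun ρ =>
  (D.side π (ae2Q π p.De) (p.rt π).σ p.a (sel ρ),
    (tcell (D.s ^ p.h) 30 (D.e2B π p.De p.a (D.lab j0 ρ) (sel ρ)), tcell (D.s ^ p.h) 30 (D.e2K π p.De (D.lab j0 ρ) (sel ρ))))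

theorem ae2h_tanG_eqns_cite : True := by
  have := @ae2hTanG.eq_1; have := @ae2hZG.eq_1
  trivial

/-! ## first facts (definitional) -/

section first

variable (T : Tan) {Ω' : Type} [Fintype Ω'] (Q : FLaw Ω') (sel : Ω' → T.Ω)

theorem ae2h_pull_P : (T.pull Q sel).P = Q := rfl
theorem ae2h_pull_δ : (T.pull Q sel).δ = T.δ := rfl
theorem ae2h_pull_L : (T.pull Q sel).L = T.L := rfl
theorem ae2h_pull_Cs : (T.pull Q sel).Cs = fun ρ => T.Cs (sel ρ) := rfl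
theorem ae2h_pull_F : (T.pull Q sel).F = fun ρ => T.F (sel ρ) := rfl
theorem ae2h_pull_mrk (i : ℕ) : (T.pull Q sel).mrk i = fun ρ => T.mrk i (sel ρ) := rfl
theorem ae2h_pull_O (l : ℝ) : (T.pull Q sel).O l = fun ρ => T.O l (sel ρ) := rfl
theorem ae2h_pull_Xn (q : ℝ) : (T.pull Q sel).Xn q = fun ρ => T.Xn q (sel ρ) := rfl
theorem ae2h_pull_thn (i : ℕ) (q : ℝ) : (T.pull Q sel).thn i q = fun ρ => T.thn i q (sel ρ) := rfl
theorem ae2h_pull_ltS (R : ℝ) : (T.pull Q sel).ltS R = fun ρ => T.ltS R (sel ρ) := rfl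

/-- `DspAt` reads only `δ` and `quad` -/
theorem ae2h_pull_at {a : ItPar} {K A l : ℝ} {f : ItPh} {μ : ItMk} {s : ItDsp} (h : T.DspAt a K A l f μ s) : (T.pull Q sel).DspAt a K A l f μ s :=
  ⟨h.bd, h.time, h.baseW, h.baseV, h.vel, h.pos, h.derq, h.cutc, h.cutn, h.derl⟩

/-- **`LtGeo` pulls back**; `Z'` = any side on `Ω'` which determines the side `Z` of `sel ρ` -/
theorem ae2h_pull_geo {ζ' ζ'' : Type} (Z : T.Ω → ζ') (Z' : Ω' → ζ'') (a : ItPar) (K acc : ℝ) (h : T.LtGeo Z a K acc)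
    (hs : ∀ ρ, Q.p ρ ≠ 0 → T.P.p (sel ρ) ≠ 0) (hZ : ∀ ρ ρ', Z' ρ = Z' ρ' → Z (sel ρ) = Z (sel ρ')) : (T.pull Q sel).LtGeo Z' a K acc :=
  ⟨h.δ0, h.δ1, h.quad, h.c1, h.acc0, h.hB, h.hC, fun ρ ρ' e => h.side_C _ _ (hZ ρ ρ' e), fun ρ ρ' e => h.side_F _ _ (hZ ρ ρ' e),
    fun ρ hρ => h.bdF _ (hs ρ hρ), fun ρ hρ => h.bdM _ (hs ρ hρ)⟩

/-- **`LtDsp` pulls back** -/
theorem ae2h_pull_dsp (a : ItPar) (K acc l : ℝ) (h : T.LtDsp a K acc l) (hs : ∀ ρ, Q.p ρ ≠ 0 → T.P.p (sel ρ) ≠ 0) :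
    (T.pull Q sel).LtDsp a K acc l :=
  ⟨fun _ _ e1 e2 => h.dfun _ _ e1 e2, fun ρ hρ => ae2h_pull_at T Q sel (h.dsp _ (hs ρ hρ))⟩

end first

/-! ## the exits -/

/-- **EXIT: the geometric input of `ltt_main`** from `NmGeo` of the FINAL tangent datum -/
theorem ae2h_geoG (D : SfDoc) (π : SfPar) (p : Ae2P) (dsp : ℝ → NmNm → NmNm → ItDsp) (a : ItPar) (pk : ItPk) (acc : ℝ) (hacc : 0 < acc)
    (h : NmGeo (nmTan D π (p.rt π) dsp) a pk acc) (hc : a.c = 1) (hB : a.B0 ≤ (D.s ^ p.h) ^ (-acc)) (hC : (10 : ℝ) ^ 6 ≤ (D.s ^ p.h) ^ (-acc))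
    (j0 : ℝ) (Q : FLaw (D.Row j0)) (sel : D.Row j0 → D.Row 1) (hs : ∀ ρ, Q.p ρ ≠ 0 → (D.P 1).p (sel ρ) ≠ 0) :
    (ae2hTanG D π p dsp j0 Q sel).LtGeo (ae2hZG D π p j0 sel) a pk.K acc ∧ ∀ l ∈ pk.Lam, (ae2hTanG D π p dsp j0 Q sel).LtDsp a pk.K acc l := by
  -- `LtGeo` of the final datum for the STANDARD side
  have hG : (ae2Tan D π p dsp).LtGeo (D.side π (ae2Q π p.De) (p.rt π).σ p.a) a pk.K acc :=
    ⟨h.small.1, h.small.2.2, rfl, hc, hacc, hB, hC, fun ω ω' e => by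
      show D.cst π (p.rt π) (D.side π (ae2Q π p.De) (p.rt π).σ p.a ω) = D.cst π (p.rt π) (D.side π (ae2Q π p.De) (p.rt π).σ p.a ω')
      rw [e], fun ω ω' e => by
      show D.fst π (p.rt π) (D.side π (ae2Q π p.De) (p.rt π).σ p.a ω) = D.fst π (p.rt π) (D.side π (ae2Q π p.De) (p.rt π).σ p.a ω')
      rw [e], h.bdF, h.bdM⟩
  obtain ⟨-, LD⟩ := ae2_geo D π p dsp a pk acc hacc h hc hB hC
  exact ⟨ae2h_pull_geo (ae2Tan D π p dsp) Q sel _ _ a pk.K acc hG hs (fun ρ ρ' e => congrArg Prod.fst e),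
    fun l hl => ae2h_pull_dsp (ae2Tan D π p dsp) Q sel a pk.K acc l (LD l hl) hs⟩

/-- the line as a function of the refined side -/
theorem ae2h_beG (D : SfDoc) (π : SfPar) (p : Ae2P) (j0 : ℝ) (sel : D.Row j0 → D.Row 1) (ρ : D.Row j0) :
    ae2Be (D.s ^ p.h) (ae2hZG D π p j0 sel ρ) = trep (D.s ^ p.h) 30 (D.e2B π p.De p.a (D.lab j0 ρ) (sel ρ)) := rfl

theorem ae2h_kaG (D : SfDoc) (π : SfPar) (p : Ae2P) (j0 : ℝ) (sel : D.Row j0 → D.Row 1) (ρ : D.Row j0) :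
    ae2Ka (D.s ^ p.h) (ae2hZG D π p j0 sel ρ) = trep (D.s ^ p.h) 30 (D.e2K π p.De (D.lab j0 ρ) (sel ρ)) := rfl

/-- **EXIT: (s-line) for the pulled-back datum** (`De = 1`; classical and hybrid).   Copy of `ae2_line`: `ae2_line_core` at the connected pair `(ρ, sel ρ)`. -/
theorem ae2h_lineG (π : SfPar) (hπ : π.Valid) (h1 : π.c2 = 1) (h2 : π.q < 1) (C0 τ κ0 Λ : ℝ) (p : Ae2P) (hp : p.Ok π Λ) (hDe : p.De = 1)
    (tl : ℝ) (htl : 0 < tl) : ∃ t0 : ℝ, 0 < t0 ∧ ∀ D : SfDoc, D.Fine π C0 τ κ0 t0 → ∀ (dsp : ℝ → NmNm → NmNm → ItDsp)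
      (Q : FLaw (D.Row (D.gt p.j))) (sel : D.Row (D.gt p.j) → D.Row 1), (∀ ρ, Q.p ρ ≠ 0 → D.Conn (D.gt p.j) 1 ρ (sel ρ)) →
      (ae2hTanG D π p dsp (D.gt p.j) Q sel).LtLine (fun _ => True) (ae2hZG D π p (D.gt p.j) sel) (ae2Be (D.s ^ p.h)) (ae2Ka (D.s ^ p.h)) tl := by
  obtain ⟨t2, ht2, H2⟩ := ae2_line_core π hπ h1 h2 C0 τ κ0 Λ p hp (p.h * tl / 2) (by have := hp.h0; positivity)
  obtain ⟨t3, ht3, H3⟩ := ae2_g3_small p.h tl hp.h0 htl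
  refine ⟨min t2 t3, by positivity, fun D hD dsp Q sel hsel => ?_⟩
  have hD2 : D.Fine π C0 τ κ0 t2 := nm_pro_fine_mono hD (min_le_left _ _) le_rfl
  have hs0 : 0 < D.s := hD.ok.core.hs.1
  obtain ⟨hs1, hδ10, hs2⟩ := H3 D.s hs0 (hD.sm.trans (min_le_right _ _))
  obtain ⟨δ, hδ⟩ : ∃ δ : ℝ, δ = D.s ^ p.h := ⟨_, rfl⟩
  have hδ0 : 0 < δ := by rw [hδ]; exact Real.rpow_pos_of_pos hs0 _
  have hδ1 : δ < 1 := by rw [hδ]; linarith
  have hh := hp.h0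
  have hpw : ∀ x : ℝ, δ ^ x = D.s ^ (p.h * x) := fun x => by rw [hδ, ← Real.rpow_mul hs0.le]
  have hanti : ∀ x y : ℝ, y ≤ x → δ ^ x ≤ δ ^ y := fun x y h => Real.rpow_le_rpow_of_exponent_ge hδ0 hδ1.le h
  have hM : D.s ^ (-(p.h * tl / 2)) + 1 ≤ δ ^ (-tl) := by
    have e : δ ^ (-tl) = D.s ^ (-(p.h * tl / 2)) * D.s ^ (-(p.h * tl / 2)) := by
      rw [hpw, ← Real.rpow_add hs0]; congr 1; ring
    rw [e]
    nlinarith
  have key : ∀ ρ : D.Row (D.gt p.j), Q.p ρ ≠ 0 →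
      |trep δ 30 (D.e2B π p.De p.a (D.lab (D.gt p.j) ρ) (sel ρ))| ≤ δ ^ (-tl) ∧ |trep δ 30 (D.e2K π p.De (D.lab (D.gt p.j) ρ) (sel ρ))| ≤ δ ^ (-tl) ∧
      |(D.smk π (p.rt π) (sel ρ)).r - trep δ 30 (D.e2B π p.De p.a (D.lab (D.gt p.j) ρ) (sel ρ))
        - trep δ 30 (D.e2K π p.De (D.lab (D.gt p.j) ρ) (sel ρ)) * (D.smk π (p.rt π) (sel ρ)).th| ≤ δ ^ (10 - tl) := by
    intro ρ hρ
    obtain ⟨c1, c2, c3, c4, c5, c6⟩ := H2 D hD2 ρ (sel ρ) (hsel ρ hρ) (fun h => absurd h (by rw [hDe]; exact lt_irrefl _))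
    obtain ⟨μ, hμ⟩ : ∃ μ : ItMk, μ = (D.raw π (nmDsStr π p.De) (sel ρ)).mark D.s π (ae2Q π p.De) p.a true := ⟨_, rfl⟩
    rw [← hμ] at c3 c4 c5 c6
    have hsm : D.smk π (p.rt π) (sel ρ) = ⟨trep δ p.Rm μ.th, trep δ p.Rm μ.r, trep δ p.Rm μ.k⟩ := by
      have e : D.smk π (p.rt π) (sel ρ) = nmStore δ p.Rm p.B μ := by rw [hμ, hδ]; rfl
      rw [e]
      unfold nmStore
      rw [if_pos]
      have := hp.hB
      refine ⟨by linarith, by linarith, ?_⟩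
      rw [c5, abs_zero]; linarith
    have b1 : |trep δ 30 (D.e2B π p.De p.a (D.lab (D.gt p.j) ρ) (sel ρ))| ≤ δ ^ (-tl) :=
      ((ltm_aux_trep_abs _ _ _).trans (by linarith)).trans hM
    have b2 : |trep δ 30 (D.e2K π p.De (D.lab (D.gt p.j) ρ) (sel ρ))| ≤ δ ^ (-tl) :=
      ((ltm_aux_trep_abs _ _ _).trans (by linarith)).trans hM
    refine ⟨b1, b2, ?_⟩
    rw [hsm]
    have hRm : (0 : ℝ) ≤ p.Rm := by have := hp.hRm; linarith
    have d1 : |trep δ p.Rm μ.r - μ.r| ≤ δ ^ p.Rm := by rw [abs_sub_comm]; exact ltmo_trep_dist hδ0 hδ1 hRm _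
    have d2 : |trep δ p.Rm μ.th - μ.th| ≤ δ ^ p.Rm := by rw [abs_sub_comm]; exact ltmo_trep_dist hδ0 hδ1 hRm _
    have d3 : |trep δ 30 (D.e2B π p.De p.a (D.lab (D.gt p.j) ρ) (sel ρ)) - D.e2B π p.De p.a (D.lab (D.gt p.j) ρ) (sel ρ)| ≤ δ ^ (30 : ℝ) := by
      rw [abs_sub_comm]; exact ltmo_trep_dist hδ0 hδ1 (by norm_num) _
    have d4 : |trep δ 30 (D.e2K π p.De (D.lab (D.gt p.j) ρ) (sel ρ)) - D.e2K π p.De (D.lab (D.gt p.j) ρ) (sel ρ)| ≤ δ ^ (30 : ℝ) := by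
      rw [abs_sub_comm]; exact ltmo_trep_dist hδ0 hδ1 (by norm_num) _
    have tot := ae2_g3_arith c6 d1 d2 d3 d4 b2 c3
    refine tot.trans ?_
    obtain ⟨W, hW⟩ : ∃ W : ℝ, W = δ ^ (30 - tl) := ⟨_, rfl⟩
    have hW0 : 0 < W := by rw [hW]; exact Real.rpow_pos_of_pos hδ0 _
    have n1 : D.s ^ (p.gap π / 2) ≤ W := by
      rw [hW, hpw]
      apply Real.rpow_le_rpow_of_exponent_ge hs0 hs1.le
      have := hp.hgap
      nlinarith
    have n2 : δ ^ p.Rm ≤ W := by rw [hW]; exact hanti _ _ (by have := hp.hRm; linarith)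
    have n3 : δ ^ (30 : ℝ) ≤ W := by rw [hW]; exact hanti _ _ (by linarith)
    have n4 : δ ^ (-tl) * δ ^ p.Rm ≤ W := by
      rw [hW, ← Real.rpow_add hδ0]; exact hanti _ _ (by have := hp.hRm; linarith)
    have n5 : 6 * W ≤ δ ^ (10 - tl) := by
      have e : W = δ ^ (20 : ℝ) * δ ^ (10 - tl) := by rw [hW, ← Real.rpow_add hδ0]; congr 1; ring
      have f : δ ^ (20 : ℝ) ≤ 1 / 10 := by
        calc δ ^ (20 : ℝ) ≤ δ ^ (1 : ℝ) := hanti _ _ (by norm_num)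
          _ = δ := Real.rpow_one _
          _ ≤ 1 / 10 := by rw [hδ]; exact hδ10
      have g : 0 < δ ^ (10 - tl) := Real.rpow_pos_of_pos hδ0 _
      rw [e]
      nlinarith
    linarith
  rw [← hδ]
  refine ⟨?_, fun ρ hρ _ => ?_, fun ρ hρ _ => ?_⟩
  · have : (ae2hTanG D π p dsp (D.gt p.j) Q sel).P.pr (fun _ => True) = 1 := ent_pr_true _
    rw [this]; exact one_pos
  · have := key ρ hρ
    have e1 : (ae2hTanG D π p dsp (D.gt p.j) Q sel).δ = δ := hδ.symm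
    rw [e1]
    have e2 := ae2h_beG D π p (D.gt p.j) sel ρ
    have e3 := ae2h_kaG D π p (D.gt p.j) sel ρ
    rw [← hδ] at e2 e3
    rw [e2, e3]
    exact ⟨this.1, this.2.1⟩
  · have := key ρ hρ
    have e1 : (ae2hTanG D π p dsp (D.gt p.j) Q sel).δ = δ := hδ.symm
    rw [e1]
    have e2 := ae2h_beG D π p (D.gt p.j) sel ρ
    have e3 := ae2h_kaG D π p (D.gt p.j) sel ρ
    rw [← hδ] at e2 e3
    rw [e2, e3]
    exact this.2.2

/-! ## the exits in the vocabulary of `Defs.lean` (law `ν = D.P j0`, event `A`, selection `D.e2hSel j0`) -/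

/-- lists on the final law, read through the selection, under any law on the rows (and any restriction) -/
theorem ae2h_nval (D : SfDoc) (i : ℝ) (P' : FLaw (D.Row i)) {α β : Type} (X : D.Row 1 → α) (Y : D.Row 1 → β) (N : ℝ)
    (h : (D.P 1).NVal (fun _ => True) X Y N) : P'.NVal (fun _ => True) (fun ρ => X (D.e2hSel i ρ)) (fun ρ => Y (D.e2hSel i ρ)) N := by
  intro ρ0
  obtain ⟨S, hS, hm⟩ := h (D.e2hSel i ρ0)
  exact ⟨S, hS, fun ρ _ _ e => hm _ (ae2h_sel_ch D i ρ) trivial e⟩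

/-- **the geometric input of `ltt_main`** -/
theorem ae2h_geo (D : SfDoc) (π : SfPar) (p : Ae2P) (dsp : ℝ → NmNm → NmNm → ItDsp) (a : ItPar) (pk : ItPk) (acc : ℝ) (hacc : 0 < acc)
    (h : NmGeo (nmTan D π (p.rt π) dsp) a pk acc) (hc : a.c = 1) (hB : a.B0 ≤ (D.s ^ p.h) ^ (-acc)) (hC : (10 : ℝ) ^ 6 ≤ (D.s ^ p.h) ^ (-acc)) :
    (ae2hTan D π p dsp).LtGeo (D.e2hZ π p) a pk.K acc ∧ ∀ l ∈ pk.Lam, (ae2hTan D π p dsp).LtDsp a pk.K acc l :=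
  ae2h_geoG D π p dsp a pk acc hacc h hc hB hC (D.gt p.j) (D.P (D.gt p.j)) (D.e2hSel (D.gt p.j)) (fun ρ _ => ae2h_sel_ch D _ ρ)

/-- **(s-line) on every event of rows with a charged successor** -/
theorem ae2h_line (π : SfPar) (hπ : π.Valid) (h1 : π.c2 = 1) (h2 : π.q < 1) (C0 τ κ0 Λ : ℝ) (p : Ae2P) (hp : p.Ok π Λ) (hD1 : p.De = 1)
    (tl : ℝ) (htl : 0 < tl) : ∃ t0 : ℝ, 0 < t0 ∧ ∀ D : SfDoc, D.Fine π C0 τ κ0 t0 → ∀ (dsp : ℝ → NmNm → NmNm → ItDsp) (A : D.Row (D.gt p.j) → Prop),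
      (∀ ρ, A ρ → D.e2hA0 (D.gt p.j) ρ) → 0 < (D.P (D.gt p.j)).pr A →
      (ae2hTan D π p dsp).LtLine A (D.e2hZ π p) (ae2Be (D.s ^ p.h)) (ae2Ka (D.s ^ p.h)) tl := by
  obtain ⟨t0, ht0, H⟩ := ae2h_lineG π hπ h1 h2 C0 τ κ0 Λ p hp hD1 tl htl
  refine ⟨t0, ht0, fun D hD dsp A hA0 hA => ?_⟩
  have K := H D hD dsp ((D.P (D.gt p.j)).cnd A) (D.e2hSel (D.gt p.j)) (fun ρ hρ => ae2h_sel_conn D _ ρ (hA0 ρ ((ent_cnd_supp _ A hA).1 hρ).1))
  exact ⟨hA, fun ρ hρ hAρ => K.bdL ρ ((ent_cnd_supp _ A hA).2 ⟨hAρ, hρ⟩) trivial, fun ρ hρ hAρ => K.line ρ ((ent_cnd_supp _ A hA).2 ⟨hAρ, hρ⟩) trivial⟩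

end

end Claimed.Agent.R256
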