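import Claimed.Agent.R256.Act.E2H.Cd
import Claimed.Agent.R256.Act.E2H.Tan
import Claimed.Agent.R256.Act.E2J.Spb

/-!
# Row 256, Act, block E2 HYBRID, unit MIS = DISCARD + MISMATCH      (owners helper262 (groups, label overlap, use of Spg), helper219 (J5, cost); chief helper198; prefix `ae2m_`, exits `ae2h_spb`, `ae2h_mis`)      06 l.596-650

`Bad = D.e2hBad π p dsp χ R τd` (Defs.lean): CHARGED rows `ρ` of `j0` whose slope bin of depth `χ` has `ν(bin, W) ≥ s^τd ν(W)`, `W = (C, S) ∘ sel`.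
* `ae2h_mis` (J5; abstract): on an event `A` disjoint from `Bad` no predictor `I (C, S)` of the slope succeeds: `{|I(W) - ka| < δ^χ}` meets `≤ 5` bins over each value of `W`, each of `ν`-mass `< s^τd ν(W)` on `A`: `ν(success ∧ A) ≤ 5 s^τd`.
* `ae2h_spb` : `D.Spg` ⟹ rarity transport modulo `Bad`.   GROUPS: `Sb b ρ := Bad ρ ∧ grp ρ = b`, `grp ρ = (T, [K]_(ζ + w), [be]_(b j + w))` of `D.lab j0 ρ`, `w = χ h / 2` (index type: the finite range of `grp`), shear `ae2Sg D.s π p w b` (E2/Mis.lean); disjoint by construction.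
  `U' = U ∧ charged` (same mass), `S' = S`.   COST / SIZE: hybrid twin of `ae2_mis_cost` for `Conn j0 1 ρ ρ'` from the generic `ae2_mc_core`, `ae2_mc_num`, `ae2_mc_num2`; `τc = w / (2 (1 - j))`.
  LABEL OVERLAP (twin of `ae2_mis_lab`): fix `lam = D.lab 1 ρ'`, `ρ'` charged, `Conn j0 1 ρ ρ'`, `Bad ρ`; `ω'' = sel ρ` is a co-descendant of `ρ'`.   `nm_pred_end` (hybrid clause) lists `nm a`, `nm (a + 40 h)` at `ρ'` from `lam`; `ae2h_cd` lists them at `ω''`; `NmRep.rep2`, `read` list `W ρ`;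
  each value of `W` has `≤ s^(-τd)` popular bins (`ae2v_heavy`-type count; `ν(W = W ρ) > 0` as `ρ` is charged); the bin + `k̄ (ω'')` (entry of the name) fix `[K]_(ζ + w)` up to `6`; `T` from `lam.T` (`lay_start`: grid + base); `[be]` from `lam.be` (`cmpA`) up to `8 s^(-2t) + 2`.
  Total `≤ N s^(-τd) s^(-acc) ≤ s^(-3 κ0 (1 - j) / 8) ≤ s^(-κ0 (1 - j0))`.   Conclusion of `Spg`: `s^(-t0) ≤ s^(-c0)`, `s^(κ0 (1 - j0)) ≤ 1/4`.
-/

set_option autoImplicit false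

namespace Claimed.Agent.R256

open Claimed.Agent.R255
open Claimed.Agent.R255.FLaw (pair)
open Filter Topology
open Classical

noncomputable section

/-- **rarity transport modulo the discarded rows** (contract; OWNER helper262) -/
theorem ae2h_spb (π : SfPar) (hπ : π.Valid) (h1 : π.c2 = 1) (h2 : π.q < 1) (hc : π.hyb = true) (C0 κ0 Λ : ℝ) (hκ0 : 0 < κ0) (p : Ae2P) (hp : p.Ok π Λ) (hD1 : p.De = 1)
    (χ : ℝ) (hχ : 0 < χ) (hχ1 : χ ≤ 1) (K0 e R c0 : ℝ) (hc0 : 0 < c0) :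
    ∃ t0 : ℝ, 0 < t0 ∧ ∀ D : SfDoc, D.Fine π C0 (χ * p.h / (4 * (p.De - p.j))) κ0 t0 → nmX π D t0 → D.Spg π (χ * p.h / (4 * (p.De - p.j))) κ0 t0 →
      NmRep D π (p.rt π) K0 e → ∀ (dsp : ℝ → NmNm → NmNm → ItDsp) (N : ℝ), 1 ≤ N → N ≤ D.s ^ (-(κ0 * (p.De - p.j) / 8)) →
        (D.P 1).NVal (fun _ => True) ((ae2Tan D π p dsp).ltS R) (pair ((ae2Tan D π p dsp).O 40) (ae2Tan D π p dsp).Cs) N →
      ∀ τd : ℝ, 0 < τd → τd ≤ κ0 * (p.De - p.j) / 8 → D.E2hSpb (D.gt p.j) (D.e2hBad π p dsp χ R τd) (D.s ^ (-c0)) (1 / 4) :=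
  ae2j_spb π hπ h1 h2 hc C0 κ0 Λ hκ0 p hp hD1 χ hχ hχ1 K0 e R c0 hc0

/-- abstract core of J5: bins of conditional mass `< c`, at most five bins per value -/
theorem ae2m_mis_abs {Ω β : Type} [Fintype Ω] (P : FLaw Ω) (W : Ω → β) (B : Ω → ℤ) (c : ℝ) (hc : 0 ≤ c) (A E : Ω → Prop) (J : β → ℤ)
    (hA : ∀ ρ, A ρ → P.p ρ ≠ 0 → P.pr (fun ρ' => W ρ' = W ρ ∧ B ρ' = B ρ) ≤ c * P.pr (fun ρ' => W ρ' = W ρ))
    (hE : ∀ ρ, E ρ → J (W ρ) - 2 ≤ B ρ ∧ B ρ ≤ J (W ρ) + 2) :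
    P.pr (fun ρ => A ρ ∧ E ρ) ≤ 5 * c := by
  rw [ent_pr_sum_values P (fun ρ => A ρ ∧ E ρ) W (Finset.univ.image W) (fun ω _ _ => Finset.mem_image_of_mem _ (Finset.mem_univ _))]
  have h1 : ∀ w ∈ Finset.univ.image W, P.pr (fun ρ => (A ρ ∧ E ρ) ∧ W ρ = w) ≤ 5 * c * P.pr (fun ρ => W ρ = w) := by
    intro w _
    rw [ent_pr_sum_values P (fun ρ => (A ρ ∧ E ρ) ∧ W ρ = w) B (Finset.Icc (J w - 2) (J w + 2)) (fun ω _ h => by
      have := hE ω h.1.2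
      rw [h.2] at this
      exact Finset.mem_Icc.2 this)]
    have h2 : ∀ b ∈ Finset.Icc (J w - 2) (J w + 2), P.pr (fun ρ => ((A ρ ∧ E ρ) ∧ W ρ = w) ∧ B ρ = b) ≤ c * P.pr (fun ρ => W ρ = w) := by
      intro b _
      by_cases hx : ∃ ρ, P.p ρ ≠ 0 ∧ ((A ρ ∧ E ρ) ∧ W ρ = w) ∧ B ρ = b
      · obtain ⟨ρ, hp, ⟨⟨ha, _⟩, hw⟩, hb⟩ := hx
        have h3 := hA ρ ha hp
        rw [hw, hb] at h3
        exact (ent_pr_mono P fun ω _ h => ⟨h.1.2, h.2⟩).trans h3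
      · rw [ent_pr_eq_zero P fun ω hp h => hx ⟨ω, hp, h⟩]
        exact mul_nonneg hc (ent_pr_nonneg P _)
    refine (Finset.sum_le_sum h2).trans ?_
    rw [Finset.sum_const, Int.card_Icc]
    have e : (J w + 2 + 1 - (J w - 2)).toNat = 5 := by
      have : J w + 2 + 1 - (J w - 2) = 5 := by ring
      rw [this]
      rfl
    rw [e, nsmul_eq_mul]
    push_cast
    linarith
  refine (Finset.sum_le_sum h1).trans ?_
  rw [← Finset.mul_sum]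
  have h4 := ent_aux_sum_pr_le P W (Finset.univ.image W)
  have : 5 * c * ∑ a ∈ Finset.univ.image W, P.pr (fun ω => W ω = a) ≤ 5 * c * 1 := mul_le_mul_of_nonneg_left h4 (by positivity)
  linarith

/-- two reals at distance `< δ^χ` have cells of depth `χ` at distance `≤ 2` -/
theorem ae2m_mis_cell (δ χ x y : ℝ) (h0 : 0 < δ) (h1 : δ < 1) (hχ : 0 < χ) (h : |x - y| < δ ^ χ) :
    tcell δ χ x - 2 ≤ tcell δ χ y ∧ tcell δ χ y ≤ tcell δ χ x + 2 := by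
  unfold tcell
  obtain ⟨L, hL⟩ : ∃ L : ℕ, L = tlev δ χ := ⟨_, rfl⟩
  rw [← hL]
  have hlog : 0 < Real.logb 2 (1 / δ) := Real.logb_pos (by norm_num) (by rw [one_div]; exact (one_lt_inv₀ h0).2 h1)
  have h2 : (2 : ℝ) ^ L < 2 * (δ ^ χ)⁻¹ := by
    have a1 : (L : ℝ) < χ * Real.logb 2 (1 / δ) + 1 := by
      rw [hL]
      unfold tlev
      exact Nat.ceil_lt_add_one (by positivity)
    have a2 : (2 : ℝ) ^ (L : ℝ) < 2 ^ (χ * Real.logb 2 (1 / δ) + 1) := Real.rpow_lt_rpow_of_exponent_lt (by norm_num) a1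
    rw [Real.rpow_natCast, Real.rpow_add (by norm_num), Real.rpow_one, mul_comm χ, Real.rpow_mul (by norm_num),
      Real.rpow_logb (by norm_num) (by norm_num) (by positivity), one_div, Real.inv_rpow h0.le] at a2
    linarith
  have hd : 0 < δ ^ χ := Real.rpow_pos_of_pos h0 _
  have hp : (0 : ℝ) < 2 ^ L := by positivity
  have h3 : |x * 2 ^ L - y * 2 ^ L| < 2 := by
    rw [← sub_mul, abs_mul, abs_of_pos hp]
    calc |x - y| * 2 ^ L ≤ δ ^ χ * 2 ^ L := mul_le_mul_of_nonneg_right h.le hp.le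
      _ < δ ^ χ * (2 * (δ ^ χ)⁻¹) := mul_lt_mul_of_pos_left h2 hd
      _ = 2 := by field_simp
  obtain ⟨b1, b2⟩ := abs_lt.1 h3
  constructor
  · rw [← Int.floor_sub_ofNat]
    exact Int.floor_le_floor (by linarith)
  · rw [← Int.floor_add_ofNat]
    exact Int.floor_le_floor (by linarith)

/-- **no predictor on the retained rows** (contract; OWNER helper219) -/
theorem ae2h_mis (D : SfDoc) (π : SfPar) (p : Ae2P) (dsp : ℝ → NmNm → NmNm → ItDsp) (χ R τd : ℝ) (hs : 0 < D.s ∧ D.s < 1) (hh : 0 < p.h) (hχ : 0 < χ)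
    (A : D.Row (D.gt p.j) → Prop) (hA : ∀ ρ, A ρ → ¬ D.e2hBad π p dsp χ R τd ρ) (hm : 0 < (D.P (D.gt p.j)).pr A) (I : NmNm × LttS → ℝ) :
    ((D.P (D.gt p.j)).cnd A).pr (fun ρ => |I ((ae2hTan D π p dsp).Cs ρ, (ae2hTan D π p dsp).ltS R ρ) - ae2Ka (D.s ^ p.h) (D.e2hZ π p ρ)| < (D.s ^ p.h) ^ χ)
      ≤ 5 * D.s ^ τd / (D.P (D.gt p.j)).pr A := by
  rw [ent_cnd_pr _ _ hm]
  refine div_le_div_of_nonneg_right ?_ hm.le
  have hδ0 : 0 < D.s ^ p.h := Real.rpow_pos_of_pos hs.1 _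
  have hδ1 : D.s ^ p.h < 1 := Real.rpow_lt_one hs.1.le hs.2 hh
  refine ae2m_mis_abs (D.P (D.gt p.j)) (D.e2hW π p dsp R) (D.e2hBin π p χ) (D.s ^ τd) (Real.rpow_pos_of_pos hs.1 _).le A _
    (fun w => tcell (D.s ^ p.h) χ (I w)) (fun ρ ha hp => ?_) (fun ρ hE => ?_)
  · have h1 := hA ρ ha
    unfold SfDoc.e2hBad at h1
    push Not at h1
    exact (h1 hp).le
  · exact ae2m_mis_cell _ χ _ _ hδ0 hδ1 hχ hE

end

end Claimed.Agent.R256
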