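import Claimed.Agent.R256.Act.E2H.Vf
import Claimed.Agent.R256.Act.E2.Sco

/-!
# Row 256, section Act, block E2H (hybrid boundary experiment), part SCO-H, file 1: SCORES AND ENTROPIES ON THE RESTRICTED LAW, FINITE LAWS      (helper279; prefix `ae2u_`)

PAPER FREE, VOCABULARY FREE.   `P` a finite law (the rows of the gate near `j`), `A` an event of mass `≥ s^m` on which finitely many names are TYPICAL FOR `P` (`ae2vTyp P s N z e`, Vf.lean), `Q = P.cnd A`.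
* `ae2u_nval_pull`   lists (`NVal`) pull back along `sel`
* `ae2u_ent`         `|H_Q(N) - z lg s| ≤ (e + m) lg s`      (counting: at most `s^-(z+e)` values; atoms of `Q` have mass `≤ s^(z-e-m)`)
* `ae2u_entC`        `|H_Q(X | Y) - (zXY - zY) lg s| ≤ 2 (e + m) lg s`
* `ae2u_prof_abs`    the clause `prof` of `Tan.LtPrb` on `Q`      (`ae2_prof_abs` + `ae2v_score`)
* `ae2u_stat_abs`    the clause `stat`      (`ae2_stat_fin` + `ae2u_entC`)
* `ae2u_ent_abs`     the entropy of the child name given the common side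
* `ae2u_fail`        the failure probability of the change of law, numerics.
-/

set_option autoImplicit false

namespace Claimed.Agent.R256

open Claimed.Agent.R255
open Claimed.Agent.R255.FLaw (pair)
open Classical

noncomputable section

section law

variable {Ω : Type} [Fintype Ω] {α β γ δ : Type}

/-- lists pull back along `sel` -/
theorem ae2u_nval_pull {Ω' : Type} [Fintype Ω'] (P : FLaw Ω) (Q : FLaw Ω') (sel : Ω' → Ω) (hs : ∀ ρ, Q.p ρ ≠ 0 → P.p (sel ρ) ≠ 0)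
    {B : Ω → β} {A : Ω → α} {N : ℝ} (h : P.NVal (fun _ => True) B A N) :
    Q.NVal (fun _ => True) (fun ρ => B (sel ρ)) (fun ρ => A (sel ρ)) N := by
  intro ρ₀
  obtain ⟨S, hS, hm⟩ := h (sel ρ₀)
  exact ⟨S, hS, fun ρ hρ _ he => hm (sel ρ) (hs ρ hρ) trivial he⟩

/-- typicality depends only on the partition -/
theorem ae2u_typ_congr (P : FLaw Ω) (s : ℝ) (N : Ω → α) (N' : Ω → β) (h : ∀ ρ ρ', N ρ = N ρ' ↔ N' ρ = N' ρ') (z e : ℝ) (ρ : Ω)
    (ht : ae2vTyp P s N z e ρ) : ae2vTyp P s N' z e ρ := by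
  have e1 : P.fib N' ρ = P.fib N ρ := ent_pr_congr P fun ρ' _ => (h ρ' ρ).symm
  unfold ae2vTyp at ht ⊢
  rwa [e1]

/-- `lg s` is positive -/
theorem ae2u_lg_pos {s : ℝ} (h0 : 0 < s) (h1 : s < 1) : 0 < lg s := by
  unfold lg
  exact Real.log_pos (by rw [one_div]; exact (one_lt_inv₀ h0).2 h1)

/-- `log (1 / s^x) = x lg s` -/
theorem ae2u_log_pow {s : ℝ} (h0 : 0 < s) (x : ℝ) : Real.log (1 / s ^ x) = x * lg s := by
  unfold lg
  rw [one_div, one_div, Real.log_inv, Real.log_inv, Real.log_rpow h0]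
  ring

/-- **the entropy of a typical name under the restricted law**, by counting -/
theorem ae2u_ent (P : FLaw Ω) (A : Ω → Prop) (s : ℝ) (h0 : 0 < s) (h1 : s < 1) (N : Ω → α) (z e m : ℝ) (hm : 0 ≤ m)
    (hA : s ^ m ≤ P.pr A) (hT : ∀ ρ, P.p ρ ≠ 0 → A ρ → ae2vTyp P s N z e ρ) :
    |(P.cnd A).ent N - z * lg s| ≤ (e + m) * lg s := by
  have hL := ae2u_lg_pos h0 h1
  have hpA : 0 < P.pr A := lt_of_lt_of_le (Real.rpow_pos_of_pos h0 _) hA
  rw [abs_le]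
  constructor
  · -- atoms
    have hat : ∀ ρ, (P.cnd A).p ρ ≠ 0 → (P.cnd A).fib N ρ ≤ s ^ (z - e - m) := by
      intro ρ hρ
      obtain ⟨hAρ, hpρ⟩ := (ent_cnd_supp P A hpA).1 hρ
      have h2 := (hT ρ hpρ hAρ).2
      have e1 : (P.cnd A).fib N ρ = P.pr (fun ρ' => A ρ' ∧ N ρ' = N ρ) / P.pr A := ent_cnd_pr P A hpA _
      rw [e1, div_le_iff₀ hpA]
      have h3 : P.pr (fun ρ' => A ρ' ∧ N ρ' = N ρ) ≤ P.fib N ρ := ent_pr_mono P fun ρ' _ h => h.2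
      have h4 : s ^ (z - e) = s ^ (z - e - m) * s ^ m := by
        rw [← Real.rpow_add h0]; congr 1; ring
      calc P.pr (fun ρ' => A ρ' ∧ N ρ' = N ρ) ≤ s ^ (z - e) := h3.trans h2
        _ = s ^ (z - e - m) * s ^ m := h4
        _ ≤ s ^ (z - e - m) * P.pr A := mul_le_mul_of_nonneg_left hA (Real.rpow_pos_of_pos h0 _).le
    have h5 := ent_ge_of_atoms (P.cnd A) N (Real.rpow_pos_of_pos h0 _) hat
    rw [ae2u_log_pow h0] at h5
    nlinarith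
  · -- values
    obtain ⟨T, hTd⟩ : ∃ T : Finset α, T = (Finset.univ.filter fun ρ => P.p ρ ≠ 0 ∧ A ρ).image N := ⟨_, rfl⟩
    have hc : (T.card : ℝ) ≤ 1 / s ^ (z + e) := ae2v_heavy P N _ (Real.rpow_pos_of_pos h0 _) T fun x hx => by
      rw [hTd] at hx
      obtain ⟨ρ, hρ, rfl⟩ := Finset.mem_image.1 hx
      obtain ⟨-, h2, h3⟩ := Finset.mem_filter.1 hρ
      exact (hT ρ h2 h3).1
    have hne : 0 < (T.card : ℝ) := by
      obtain ⟨ρ, hAρ, hpρ⟩ := (ent_pr_pos_iff P A).1 hpA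
      have : N ρ ∈ T := by
        rw [hTd]
        exact Finset.mem_image.2 ⟨ρ, Finset.mem_filter.2 ⟨Finset.mem_univ _, hpρ, hAρ⟩, rfl⟩
      exact_mod_cast Finset.card_pos.2 ⟨_, this⟩
    have h5 := ent_le_log_card (P.cnd A) N T fun ρ hρ => by
      obtain ⟨hAρ, hpρ⟩ := (ent_cnd_supp P A hpA).1 hρ
      rw [hTd]
      exact Finset.mem_image.2 ⟨ρ, Finset.mem_filter.2 ⟨Finset.mem_univ _, hpρ, hAρ⟩, rfl⟩
    have h6 := Real.log_le_log hne hc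
    rw [ae2u_log_pow h0] at h6
    nlinarith

/-- **the conditional entropies under the restricted law** -/
theorem ae2u_entC (P : FLaw Ω) (A : Ω → Prop) (s : ℝ) (h0 : 0 < s) (h1 : s < 1) (X : Ω → α) (Y : Ω → β) (zXY zY e m : ℝ) (hm : 0 ≤ m)
    (hA : s ^ m ≤ P.pr A) (t1 : ∀ ρ, P.p ρ ≠ 0 → A ρ → ae2vTyp P s (pair X Y) zXY e ρ) (t2 : ∀ ρ, P.p ρ ≠ 0 → A ρ → ae2vTyp P s Y zY e ρ) :
    |(P.cnd A).entC X Y - (zXY - zY) * lg s| ≤ 2 * (e + m) * lg s := by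
  have a1 := abs_le.1 (ae2u_ent P A s h0 h1 (pair X Y) zXY e m hm hA t1)
  have a2 := abs_le.1 (ae2u_ent P A s h0 h1 Y zY e m hm hA t2)
  unfold FLaw.entC
  rw [abs_le]
  constructor <;> linarith [a1.1, a1.2, a2.1, a2.2]

/-- **the clause `prof` on the restricted law** -/
theorem ae2u_prof_abs (P : FLaw Ω) (A : Ω → Prop) (hA : 0 < P.pr A) (s : ℝ) (h0 : 0 < s) (h1 : s < 1)
    (X : Ω → α) (Xa : Ω → β) (C : Ω → γ) (Ca : Ω → δ) {N : ℝ} (hN : 1 ≤ N)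
    (n1 : (P.cnd A).NVal (fun _ => True) Ca C N) (n2 : (P.cnd A).NVal (fun _ => True) C Ca N)
    (n3 : (P.cnd A).NVal (fun _ => True) X (pair Xa (pair Ca C)) N) (n4 : (P.cnd A).NVal (fun _ => True) Xa (pair X (pair Ca C)) N)
    (zXC zC e' : ℝ) (he' : 0 < e')
    (t1 : ∀ ρ, P.p ρ ≠ 0 → A ρ → ae2vTyp P s (pair Xa Ca) zXC e' ρ) (t2 : ∀ ρ, P.p ρ ≠ 0 → A ρ → ae2vTyp P s Ca zC e' ρ)
    (acc h : ℝ) (hh : 0 < h) (he : 16 * e' ≤ acc * h) (hL1 : 12 * Real.log N ≤ acc * (h * lg s))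
    (hL2 : 6 * Real.exp (-(acc * (h * lg s) / 12)) ≤ acc / 2)
    (hfail : 2 * ((Real.log (1 / P.pr A) + Real.exp (-1)) / (e' * lg s) + Real.exp (-(e' * lg s))) ≤ acc / 2) :
    (P.cnd A).pr (fun ρ => acc * (h * lg s) < |(P.cnd A).surC X C ρ - (zXC - zC) / h * (h * lg s)|) ≤ acc := by
  have hL := ae2u_lg_pos h0 h1
  refine ae2_prof_abs (P.cnd A) X Xa C Ca hN n1 n2 n3 n4 acc (h * lg s) (lg s) h (zXC - zC) hh hL rfl hL1 hL2 ?_
  refine le_trans (ent_pr_mono _ fun ρ _ hρ => ?_) ((ae2v_score P A hA s h0 Xa Ca zXC zC e' (e' * lg s) (by positivity) t1 t2).trans hfail)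
  have e1 : (P.cnd A).surC Xa Ca ρ - (zXC - zC) * lg s = ((P.cnd A).surC Xa Ca ρ / lg s - (zXC - zC)) * lg s := by
    field_simp
  rw [e1, abs_mul, abs_of_pos hL]
  nlinarith

/-- **the clause `stat` on the restricted law** -/
theorem ae2u_stat_abs (P : FLaw Ω) (A : Ω → Prop) (s : ℝ) (h0 : 0 < s) (h1 : s < 1) {ε σ : Type}
    (X : Ω → α) (Xa : Ω → β) (C : Ω → γ) (Ca : Ω → δ) (Nn : Ω → ε) (Sg : Ω → σ) {K0 K1 N : ℝ}
    (n1 : (P.cnd A).NVal (fun _ => True) Ca C K0) (n2 : (P.cnd A).NVal (fun _ => True) C Ca K0)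
    (n3 : (P.cnd A).NVal (fun _ => True) X (pair Xa C) 8) (n4 : (P.cnd A).NVal (fun _ => True) Xa (pair X C) 8)
    (n5 : (P.cnd A).NVal (fun _ => True) Ca Nn K1)
    (n6 : (P.cnd A).NVal (fun _ => True) Sg (pair (fun ω => (Nn ω, C ω)) C) N)
    (zXC zC zXN zN e' m : ℝ) (hm : 0 ≤ m) (hA : s ^ m ≤ P.pr A)
    (t1 : ∀ ρ, P.p ρ ≠ 0 → A ρ → ae2vTyp P s (pair Xa Ca) zXC e' ρ) (t2 : ∀ ρ, P.p ρ ≠ 0 → A ρ → ae2vTyp P s Ca zC e' ρ)
    (t3 : ∀ ρ, P.p ρ ≠ 0 → A ρ → ae2vTyp P s (pair Xa Nn) zXN e' ρ) (t4 : ∀ ρ, P.p ρ ≠ 0 → A ρ → ae2vTyp P s Nn zN e' ρ) :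
    (P.cnd A).miC X Sg C ≤ ((zXC - zC) - (zXN - zN) + 4 * (e' + m)) * lg s + Real.log N + 6 * (|Real.log K0| + Real.log 8 + |Real.log K1|) := by
  have key := ae2_stat_fin (P.cnd A) X Xa C Ca Nn Sg n1 n2 n3 n4 n5 n6
  have a1 := abs_le.1 (ae2u_entC P A s h0 h1 Xa Ca zXC zC e' m hm hA t1 t2)
  have a2 := abs_le.1 (ae2u_entC P A s h0 h1 Xa Nn zXN zN e' m hm hA t3 t4)
  linarith [a1.2, a2.1]

/-- **the entropy of the child name given the common side, on the restricted law** -/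
theorem ae2u_ent_abs (P : FLaw Ω) (A : Ω → Prop) (s : ℝ) (h0 : 0 < s) (h1 : s < 1) (N1 : Ω → α) (C : Ω → γ) (Ca : Ω → δ) {K0 K1 : ℝ}
    (n1 : (P.cnd A).NVal (fun _ => True) Ca C K0) (n5 : (P.cnd A).NVal (fun _ => True) Ca N1 K1)
    (z1 zC e' m : ℝ) (hm : 0 ≤ m) (hA : s ^ m ≤ P.pr A)
    (t1 : ∀ ρ, P.p ρ ≠ 0 → A ρ → ae2vTyp P s N1 z1 e' ρ) (t2 : ∀ ρ, P.p ρ ≠ 0 → A ρ → ae2vTyp P s Ca zC e' ρ) :
    (P.cnd A).entC N1 C ≤ (z1 - zC + 2 * (e' + m)) * lg s + Real.log K0 + Real.log K1 := by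
  have a1 := abs_le.1 (ae2u_ent P A s h0 h1 N1 z1 e' m hm hA t1)
  have a2 := abs_le.1 (ae2u_ent P A s h0 h1 Ca zC e' m hm hA t2)
  have b1 := ent_entC_le_log_nval (P.cnd A) _ _ n1
  have b5 := ent_entC_le_log_nval (P.cnd A) _ _ n5
  have c1 : (P.cnd A).entC N1 C ≤ (P.cnd A).entC (pair Ca N1) C := ent_entC_mono _ _ _ _ fun ω ω' _ _ hh _ => congrArg Prod.snd hh
  have c2 := ent_entC_chain (P.cnd A) Ca N1 C
  have c3 : (P.cnd A).entC N1 (pair Ca C) ≤ (P.cnd A).entC N1 Ca := ent_entC_anti _ _ _ _ fun ω ω' _ _ hh => congrArg Prod.fst hh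
  have c4 := ent_pair_eq (P.cnd A) N1 Ca
  have c5 := ent_pair_eq (P.cnd A) Ca N1
  have c6 := ent_pair_comm (P.cnd A) N1 Ca
  linarith [a1.2, a2.1]

/-- the failure probability of the change of law is small -/
theorem ae2u_fail (s x e' ε pA : ℝ) (h0 : 0 < s) (h1 : s < 1) (he' : 0 < e') (hε : 0 < ε) (hp : s ^ (2 * x) ≤ pA)
    (hx : x ≤ ε * e' / 16) (hb : 1 ≤ ε * e' / 8 * lg s) (hs : s ^ e' ≤ ε / 8) :
    2 * ((Real.log (1 / pA) + Real.exp (-1)) / (e' * lg s) + Real.exp (-(e' * lg s))) ≤ ε := by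
  have hl := ae2u_lg_pos h0 h1
  have hlg : lg s = -Real.log s := by
    unfold lg
    rw [one_div, Real.log_inv]
  have a1 : Real.log (1 / pA) ≤ 2 * x * lg s := by
    rw [one_div, Real.log_inv]
    have := Real.log_le_log (Real.rpow_pos_of_pos h0 _) hp
    rw [Real.log_rpow h0] at this
    rw [hlg]
    linarith
  have a2 : Real.exp (-1) ≤ 1 := by
    rw [← Real.exp_zero]
    exact Real.exp_le_exp.2 (by norm_num)
  have a3 : Real.exp (-(e' * lg s)) = s ^ e' := by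
    rw [Real.rpow_def_of_pos h0, hlg]
    congr 1
    ring
  have a4 : (Real.log (1 / pA) + Real.exp (-1)) / (e' * lg s) ≤ ε / 8 + ε / 8 := by
    rw [div_le_iff₀ (by positivity)]
    have b2 : 2 * x * lg s ≤ 2 * (ε * e' / 16) * lg s := mul_le_mul_of_nonneg_right (by linarith) hl.le
    nlinarith
  rw [a3]
  linarith

end law

end

end Claimed.Agent.R256
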