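import Claimed.Agent.R256.Act.E2H.Vf
import Claimed.Agent.R256.Nm.Pro.Cell
import Claimed.Agent.R256.Nm.Pro.Mono
import Claimed.Agent.R256.Nm.FlatP

/-!
# Row 256, section Act, block E2 HYBRID, part VF, file 2: VIRTUAL FLATTENING ALONG A SEQUENCE      (architect + prover helper98; prefix `ae2v_`)

`S : NmSeq π C0 κ`, `j` a depth, `j0 = (S.D n).gt j`.   VOCABULARY FREE: the observations of the rows of the gate `j0` are ARBITRARY (`S.ObsJ j α`; intrinsic names `(D.jd j0).nm ..` of helper114, or final observables `∘ sel` of helper219).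
* `S.Pj j n`            the law of the rows of the gate near `j`
* `S.TypF X z`          the final name `X` has the deterministic score `z` (`ae2v_typ_of_hom`: from `S.Hom X const`, i.e. from `S.Flat`, with `z = S.HC X const`)
* `S.LstJ j V Y X`      mutual lists of vanishing exponent between `Y n ρ` and `X n ω` on `Conn j0 1 ρ ω`, `V n ω`  (lists determined by the VALUES)
* `S.SpJ j V Bad`       rarity transport modulo `Bad` (from `Core.sp`, `Bad = ∅`; from `SfDoc.Spg`, `Bad` = the union of the cost-improved groups), additive error `≤ 1/8`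
* `S.GdJ j V Bad Y z e' n ρ`   THE GOOD ROWS: not `Bad`, a successor in `V`, all scores under `S.Pj j n` are `z i ± e'`
EXITS
* `ae2v_seq_mass`   `s^(2x) ≤ P_j(GdJ)` for `uf`-most `n`, for every `0 < x ≤ e'/8`      (the good rows have the mass `s^(o(1))`)
* `ae2v_seq_score`  under `P_j.cnd A` the conditional score of `Ya` given `Yc` is `(zac - zc) ± 4 e'` off probability `ε`
* `ae2v_seq_entC`   the conditional entropy under `P_j.cnd A` is `(zac - zc) ± (4 e' + σ)`.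
-/

set_option autoImplicit false

namespace Claimed.Agent.R256

open Claimed.Agent.R255
open Claimed.Agent.R255.FLaw (pair)
open Filter Topology
open Classical

noncomputable section

namespace NmSeq

variable {π : SfPar} {C0 : ℝ} {κ : ℝ → ℝ} (S : NmSeq π C0 κ)

/-- sequences of observations of the rows of the gate near the depth `j` -/
abbrev ObsJ (j : ℝ) (α : ℕ → Type) : Type := ∀ n, (S.D n).Row ((S.D n).gt j) → α n

/-- the law of the rows of the gate near the depth `j` -/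
def Pj (j : ℝ) (n : ℕ) : FLaw ((S.D n).Row ((S.D n).gt j)) := (S.D n).P ((S.D n).gt j)

/-- the final name `X` has the deterministic score `z` -/
def TypF {β : ℕ → Type} (X : S.Obs β) (z : ℝ) : Prop :=
  ∀ e : ℝ, 0 < e → Tendsto (fun n => ((S.D n).P 1).pr (fun ω => ¬ ae2vTyp ((S.D n).P 1) (S.D n).s (X n) z e ω)) uf (𝓝 0)

/-- mutual lists of vanishing exponent along the connections to the final rows of `V` -/
def LstJ (j : ℝ) (V : ∀ n, (S.D n).Row 1 → Prop) {α β : ℕ → Type} (Y : S.ObsJ j α) (X : S.Obs β) : Prop :=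
  ∀ e : ℝ, 0 < e → ∀ᶠ n in uf,
    (∀ x : α n, ∃ T : Finset (β n), (T.card : ℝ) ≤ (S.D n).s ^ (-e) ∧
      ∀ ρ ω, (S.D n).Conn ((S.D n).gt j) 1 ρ ω → V n ω → Y n ρ = x → X n ω ∈ T) ∧
    (∀ y : β n, ∃ T : Finset (α n), (T.card : ℝ) ≤ (S.D n).s ^ (-e) ∧
      ∀ ρ ω, (S.D n).Conn ((S.D n).gt j) 1 ρ ω → V n ω → X n ω = y → Y n ρ ∈ T)

/-- rarity transport modulo `Bad`, for the final events inside `V` -/
def SpJ (j : ℝ) (V : ∀ n, (S.D n).Row 1 → Prop) (Bad : ∀ n, (S.D n).Row ((S.D n).gt j) → Prop) : Prop :=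
  ∀ x : ℝ, 0 < x → ∀ᶠ n in uf, ∀ (U : (S.D n).Row 1 → Prop) (S' : (S.D n).Row ((S.D n).gt j) → Prop), (∀ ω, U ω → V n ω) →
    (∀ ω, U ω → ∀ ρ, (S.D n).Conn ((S.D n).gt j) 1 ρ ω → S' ρ ∨ Bad n ρ) →
    ((S.D n).P 1).pr U ≤ (S.D n).s ^ (-x) * (S.Pj j n).pr S' ^ ((2 : ℝ) / 3) + 1 / 8

/-- **the good rows** -/
def GdJ (j : ℝ) (V : ∀ n, (S.D n).Row 1 → Prop) (Bad : ∀ n, (S.D n).Row ((S.D n).gt j) → Prop) {ι : Type} {α : ℕ → Type}
    (Y : ι → S.ObsJ j α) (z : ι → ℝ) (e' : ℝ) (n : ℕ) (ρ : (S.D n).Row ((S.D n).gt j)) : Prop :=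
  ¬ Bad n ρ ∧ (∃ ω, V n ω ∧ (S.D n).Conn ((S.D n).gt j) 1 ρ ω) ∧ ∀ i, ae2vTyp (S.Pj j n) (S.D n).s (Y i n) (z i) e' ρ

end NmSeq

theorem ae2v_seq_eqns_cite : True := by
  have := @NmSeq.Pj.eq_1; have := @NmSeq.TypF.eq_1; have := @NmSeq.LstJ.eq_1; have := @NmSeq.SpJ.eq_1; have := @NmSeq.GdJ.eq_1
  trivial

section seq

variable {π : SfPar} {C0 : ℝ} {κ : ℝ → ℝ} (S : NmSeq π C0 κ)

/-- powers of the scale are small -/
theorem ae2v_pow_small (h x : ℝ) (hh : 0 < h) (hx : 0 < x) : ∀ᶠ n in uf, (S.D n).s ^ h ≤ x := by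
  filter_upwards [nm_me_s_small S (x ^ (1 / h)) (Real.rpow_pos_of_pos hx _)] with n hn
  obtain ⟨h0, -⟩ := nm_pro_hs S n
  calc (S.D n).s ^ h ≤ (x ^ (1 / h)) ^ h := Real.rpow_le_rpow h0.le hn hh.le
    _ = x := by rw [← Real.rpow_mul hx.le, one_div, inv_mul_cancel₀ hh.ne', Real.rpow_one]

/-- **flatness gives typical final names** -/
theorem ae2v_typ_of_hom {β γ : ℕ → Type} (X : S.Obs β) (c : ∀ n, γ n) (h : S.Hom X (fun n _ => c n)) :
    S.TypF X (S.HC X (fun n _ => c n)) := by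
  intro e he
  refine squeeze_zero (fun n => ent_pr_nonneg _ _) (fun n => ?_) (h e he)
  refine ent_pr_mono _ fun ω hω hn => ?_
  have hl := nm_me_lgs_pos S n
  by_contra hcon
  refine hn (ae2v_of_log _ _ (nm_pro_hs S n).1 _ _ _ ω hω ?_)
  have h1 := not_lt.1 hcon
  rw [ae2v_surC_const] at h1
  have e1 : -Real.log (((S.D n).P 1).fib (X n) ω) - S.HC X (fun n _ => c n) * lg (S.D n).s
      = (-Real.log (((S.D n).P 1).fib (X n) ω) / (S.D n).lgs - S.HC X (fun n _ => c n)) * (S.D n).lgs := by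
    show _ = (_ / (S.D n).lgs - _) * (S.D n).lgs
    have : lg (S.D n).s = (S.D n).lgs := rfl
    rw [this]
    field_simp
  rw [e1, abs_mul, abs_of_pos hl]
  exact mul_le_mul_of_nonneg_right h1 hl.le

/-- the numerics of `ae2v_seq_mass` -/
theorem ae2v_mass_num (s x e' c m : ℝ) (h0 : 0 < s) (h1 : s < 1) (hx : 0 < x) (hxe : 8 * x ≤ e') (hc : 0 ≤ c) (hy : s ^ (x / 2) ≤ 1 / (8 * (c + 1)))
    (h : (1 / (2 * s ^ (-x))) ^ ((3 : ℝ) / 2) ≤ m + c * (s ^ (-(e' / 4)) * s ^ (e' - e' / 4))) : s ^ (2 * x) ≤ m := by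
  obtain ⟨y, hyd⟩ : ∃ y : ℝ, y = s ^ (x / 2) := ⟨_, rfl⟩
  have y0 : 0 < y := hyd ▸ Real.rpow_pos_of_pos h0 _
  rw [← hyd] at hy
  have p : ∀ k : ℕ, s ^ ((k : ℝ) * (x / 2)) = y ^ k := fun k => by
    rw [hyd, ← Real.rpow_natCast, ← Real.rpow_mul h0.le]
    congr 1
    ring
  have e1 : s ^ (2 * x) = y ^ 4 := by rw [← p 4]; congr 1; push_cast; ring
  have e2 : s ^ (-(e' / 4)) * s ^ (e' - e' / 4) ≤ y ^ 8 := by
    rw [← Real.rpow_add h0, ← p 8]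
    refine Real.rpow_le_rpow_of_exponent_ge h0 h1.le ?_
    push_cast
    linarith
  have e3 : y ^ 3 / 4 ≤ (1 / (2 * s ^ (-x))) ^ ((3 : ℝ) / 2) := by
    have a1 : 1 / (2 * s ^ (-x)) = y ^ 2 * (1 / 2) := by
      rw [Real.rpow_neg h0.le, ← p 2]
      have : ((2 : ℕ) : ℝ) * (x / 2) = x := by push_cast; ring
      rw [this]
      have := (Real.rpow_pos_of_pos h0 x).ne'
      field_simp
    rw [a1, Real.mul_rpow (by positivity) (by norm_num)]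
    have a2 : (y ^ 2) ^ ((3 : ℝ) / 2) = y ^ 3 := by
      rw [← Real.rpow_natCast, ← Real.rpow_mul y0.le, ← Real.rpow_natCast]
      congr 1
      push_cast
      norm_num
    have a3 : (1 / 4 : ℝ) ≤ (1 / 2 : ℝ) ^ ((3 : ℝ) / 2) := by
      have := Real.rpow_le_rpow_of_exponent_ge (show (0 : ℝ) < 1 / 2 by norm_num) (by norm_num) (show (3 : ℝ) / 2 ≤ 2 by norm_num)
      have e : (1 / 2 : ℝ) ^ (2 : ℝ) = 1 / 4 := by
        rw [show (2 : ℝ) = ((2 : ℕ) : ℝ) by norm_num, Real.rpow_natCast]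
        norm_num
      rwa [e] at this
    rw [a2]
    have : 0 < y ^ 3 := by positivity
    nlinarith
  rw [e1]
  have hc1 : 0 < c + 1 := by linarith
  have hy1 : y * (8 * (c + 1)) ≤ 1 := by rwa [le_div_iff₀ (by positivity)] at hy
  have hyle : y ≤ 1 := by nlinarith
  have h5 : y ^ 5 ≤ y := by
    calc y ^ 5 = y * y ^ 4 := by ring
      _ ≤ y * 1 := mul_le_mul_of_nonneg_left (pow_le_one₀ y0.le hyle) y0.le
      _ = y := mul_one y
  have h6 : c * (s ^ (-(e' / 4)) * s ^ (e' - e' / 4)) ≤ c * y ^ 8 := mul_le_mul_of_nonneg_left e2 hc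
  have h7 : y ^ 4 + c * y ^ 8 ≤ y ^ 3 / 4 := by
    have a : y ^ 4 + c * y ^ 8 = y ^ 3 * (y + c * y ^ 5) := by ring
    rw [a]
    have b : y + c * y ^ 5 ≤ 1 / 4 := by
      have : c * y ^ 5 ≤ c * y := mul_le_mul_of_nonneg_left h5 hc
      nlinarith
    have : 0 < y ^ 3 := by positivity
    nlinarith
  linarith

/-- **the good rows have the mass `s^(o(1))`** -/
theorem ae2v_seq_mass {ι : Type} [Fintype ι] {α β : ℕ → Type} (j : ℝ) (V : ∀ n, (S.D n).Row 1 → Prop)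
    (Bad : ∀ n, (S.D n).Row ((S.D n).gt j) → Prop) (Y : ι → S.ObsJ j α) (X : ι → S.Obs β) (z : ι → ℝ)
    (htyp : ∀ i, S.TypF (X i) (z i)) (hlst : ∀ i, S.LstJ j V (Y i) (X i))
    (hV : ∀ᶠ n in uf, ((S.D n).P 1).pr (fun ω => ¬ V n ω) ≤ 1 / 8) (hsp : S.SpJ j V Bad)
    (e' x : ℝ) (hx : 0 < x) (hxe : 8 * x ≤ e') :
    ∀ᶠ n in uf, (S.D n).s ^ (2 * x) ≤ (S.Pj j n).pr (S.GdJ j V Bad Y z e' n) := by
  have he' : 0 < e' := by linarith
  obtain ⟨c, hc⟩ : ∃ c : ℝ, c = Fintype.card ι := ⟨_, rfl⟩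
  have hc0 : 0 ≤ c := hc ▸ Nat.cast_nonneg _
  have E1 : ∀ᶠ n in uf, ∀ i, ((S.D n).P 1).pr (fun ω => ¬ ae2vTyp ((S.D n).P 1) (S.D n).s (X i n) (z i) (e' / 4) ω) ≤ 1 / (16 * (c + 1)) :=
    Filter.eventually_all.2 fun i => (htyp i (e' / 4) (by positivity)).eventually_le_const (by positivity)
  have E2 : ∀ᶠ n in uf, ∀ i, _ := Filter.eventually_all.2 fun i => hlst i (e' / 4) (by positivity)
  have E3 := ae2v_pow_small S (x / 2) (1 / (8 * (c + 1))) (by positivity) (by positivity)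
  have E4 := ae2v_pow_small S (e' / 2) (1 / (16 * (c + 1))) (by positivity) (by positivity)
  filter_upwards [E1, E2, E3, E4, hV, hsp x hx] with n f1 f2 f3 f4 f5 f6
  obtain ⟨h0, h1⟩ := nm_pro_hs S n
  have hpw : (S.D n).s ^ (-(e' / 4)) * (S.D n).s ^ (e' - e' / 4) = (S.D n).s ^ (e' / 2) := by
    rw [← Real.rpow_add h0]
    congr 1
    ring
  have key := ae2v_mass (S.Pj j n) ((S.D n).P 1) (fun ρ ω => (S.D n).Conn ((S.D n).gt j) 1 ρ ω ∧ V n ω) (S.D n).s h0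
    (fun i => Y i n) (fun i => X i n) ((S.D n).s ^ (-(e' / 4))) (Real.rpow_nonneg h0.le _)
    (fun i x => by
      obtain ⟨T, hT, hm⟩ := (f2 i).1 x
      exact ⟨T, hT, fun ρ ω hR hx => hm ρ ω hR.1 hR.2 hx⟩)
    (fun i y => by
      obtain ⟨T, hT, hm⟩ := (f2 i).2 y
      exact ⟨T, hT, fun ρ ω hR hy => hm ρ ω hR.1 hR.2 hy⟩)
    z (e' / 4) e' (1 / (16 * (c + 1))) f1 (V n) (1 / 8) f5 (Bad n) ((S.D n).s ^ (-x)) (1 / 8) (Real.rpow_pos_of_pos h0 _)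
    (fun U S' hUV hp => f6 U S' hUV fun ω hω ρ hR => hp ω hω ρ ⟨hR, hUV ω hω⟩)
    (by
      rw [hpw, ← hc]
      have a1 : c * (1 / (16 * (c + 1)) + (S.D n).s ^ (e' / 2)) ≤ c * (1 / (16 * (c + 1)) + 1 / (16 * (c + 1))) :=
        mul_le_mul_of_nonneg_left (by linarith) hc0
      have a2 : c * (1 / (16 * (c + 1)) + 1 / (16 * (c + 1))) ≤ 1 / 8 := by
        rw [← two_mul, ← mul_assoc, mul_one_div, div_le_iff₀ (by positivity)]
        linarith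
      linarith)
  rw [← hc] at key
  have hfin := ae2v_mass_num (S.D n).s x e' c _ h0 h1 hx hxe hc0 f3 key
  refine hfin.trans (ent_pr_mono _ fun ρ _ hρ => ?_)
  obtain ⟨a1, ⟨ω, a2, a3⟩, a4⟩ := hρ
  exact ⟨a1, ⟨ω, a2, a3.1⟩, a4⟩

/-- the failure probability of the change of law is small -/
theorem ae2v_fail_small (j : ℝ) (A : ∀ n, (S.D n).Row ((S.D n).gt j) → Prop) (x0 : ℝ) (hx0 : 0 < x0)
    (hA : ∀ x : ℝ, 0 < x → x ≤ x0 → ∀ᶠ n in uf, (S.D n).s ^ (2 * x) ≤ (S.Pj j n).pr (A n)) (e' ε : ℝ) (he' : 0 < e') (hε : 0 < ε) :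
    ∀ᶠ n in uf, 0 < (S.Pj j n).pr (A n) ∧
      2 * ((Real.log (1 / (S.Pj j n).pr (A n)) + Real.exp (-1)) / (e' * (S.D n).lgs) + Real.exp (-(e' * (S.D n).lgs))) ≤ ε := by
  obtain ⟨x, hxd⟩ : ∃ x : ℝ, x = min x0 (ε * e' / 16) := ⟨_, rfl⟩
  have hx : 0 < x := hxd ▸ lt_min hx0 (by positivity)
  have hx1 : x ≤ x0 := hxd ▸ min_le_left _ _
  have hx2 : x ≤ ε * e' / 16 := hxd ▸ min_le_right _ _
  filter_upwards [hA x hx hx1, nm_pc_small S 1 (ε * e' / 8) (by positivity), ae2v_pow_small S e' (ε / 8) he' (by positivity)] with n f1 f2 f3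
  obtain ⟨h0, h1⟩ := nm_pro_hs S n
  have hl := nm_me_lgs_pos S n
  have hp : 0 < (S.Pj j n).pr (A n) := lt_of_lt_of_le (Real.rpow_pos_of_pos h0 _) f1
  refine ⟨hp, ?_⟩
  have hlg : (S.D n).lgs = -Real.log (S.D n).s := by
    show lg (S.D n).s = _
    unfold lg
    rw [one_div, Real.log_inv]
  have a1 : Real.log (1 / (S.Pj j n).pr (A n)) ≤ 2 * x * (S.D n).lgs := by
    rw [one_div, Real.log_inv]
    have := Real.log_le_log (Real.rpow_pos_of_pos h0 _) f1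
    rw [Real.log_rpow h0] at this
    rw [hlg]
    linarith
  have a2 : Real.exp (-1) ≤ 1 := by
    rw [← Real.exp_zero]
    exact Real.exp_le_exp.2 (by norm_num)
  have a3 : Real.exp (-(e' * (S.D n).lgs)) = (S.D n).s ^ e' := by
    rw [Real.rpow_def_of_pos h0, hlg]
    congr 1
    ring
  have a4 : (Real.log (1 / (S.Pj j n).pr (A n)) + Real.exp (-1)) / (e' * (S.D n).lgs) ≤ ε / 8 + ε / 8 := by
    rw [div_le_iff₀ (by positivity)]
    have b1 : 1 ≤ ε * e' / 8 * (S.D n).lgs := (div_le_iff₀ hl).1 f2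
    have b2 : 2 * x * (S.D n).lgs ≤ 2 * (ε * e' / 16) * (S.D n).lgs := by
      exact mul_le_mul_of_nonneg_right (by linarith) hl.le
    nlinarith
  rw [a3]
  linarith

/-- **the conditional scores under the restriction to the good rows** -/
theorem ae2v_seq_score (j : ℝ) (A : ∀ n, (S.D n).Row ((S.D n).gt j) → Prop) (x0 : ℝ) (hx0 : 0 < x0)
    (hA : ∀ x : ℝ, 0 < x → x ≤ x0 → ∀ᶠ n in uf, (S.D n).s ^ (2 * x) ≤ (S.Pj j n).pr (A n)) {α β : ℕ → Type} (Ya : S.ObsJ j α) (Yc : S.ObsJ j β)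
    (zac zc e' : ℝ) (he' : 0 < e')
    (h1 : ∀ᶠ n in uf, ∀ ρ, A n ρ → ae2vTyp (S.Pj j n) (S.D n).s (pair (Ya n) (Yc n)) zac e' ρ)
    (h2 : ∀ᶠ n in uf, ∀ ρ, A n ρ → ae2vTyp (S.Pj j n) (S.D n).s (Yc n) zc e' ρ) (ε : ℝ) (hε : 0 < ε) :
    ∀ᶠ n in uf, ((S.Pj j n).cnd (A n)).pr (fun ρ => 4 * e' < |((S.Pj j n).cnd (A n)).surC (Ya n) (Yc n) ρ / (S.D n).lgs - (zac - zc)|) ≤ ε := by
  filter_upwards [ae2v_fail_small S j A x0 hx0 hA e' ε he' hε, h1, h2] with n ⟨hp, hf⟩ g1 g2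
  have hl := nm_me_lgs_pos S n
  refine le_trans (ent_pr_mono _ fun ρ _ hρ => ?_)
    ((ae2v_score (S.Pj j n) (A n) hp (S.D n).s (nm_pro_hs S n).1 (Ya n) (Yc n) zac zc e' (e' * (S.D n).lgs) (by positivity)
      (fun ρ _ hA => g1 ρ hA) (fun ρ _ hA => g2 ρ hA)).trans hf)
  have e1 : ((S.Pj j n).cnd (A n)).surC (Ya n) (Yc n) ρ - (zac - zc) * lg (S.D n).s
      = (((S.Pj j n).cnd (A n)).surC (Ya n) (Yc n) ρ / (S.D n).lgs - (zac - zc)) * (S.D n).lgs := by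
    have : lg (S.D n).s = (S.D n).lgs := rfl
    rw [this]
    field_simp
  rw [e1, abs_mul, abs_of_pos hl]
  have : lg (S.D n).s = (S.D n).lgs := rfl
  rw [this]
  nlinarith

/-- **the conditional entropies under the restriction to the good rows.**   `Cs` = exponent of a support of `Ya`. -/
theorem ae2v_seq_entC (j : ℝ) (A : ∀ n, (S.D n).Row ((S.D n).gt j) → Prop) (x0 : ℝ) (hx0 : 0 < x0)
    (hA : ∀ x : ℝ, 0 < x → x ≤ x0 → ∀ᶠ n in uf, (S.D n).s ^ (2 * x) ≤ (S.Pj j n).pr (A n)) {α β : ℕ → Type} (Ya : S.ObsJ j α) (Yc : S.ObsJ j β)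
    (zac zc e' : ℝ) (he' : 0 < e') (hz : 0 ≤ zac - zc)
    (h1 : ∀ᶠ n in uf, ∀ ρ, A n ρ → ae2vTyp (S.Pj j n) (S.D n).s (pair (Ya n) (Yc n)) zac e' ρ)
    (h2 : ∀ᶠ n in uf, ∀ ρ, A n ρ → ae2vTyp (S.Pj j n) (S.D n).s (Yc n) zc e' ρ)
    (Cs : ℝ) (hCs : 0 ≤ Cs) (hsupp : ∀ᶠ n in uf, ∃ T : Finset (α n), Real.log T.card ≤ Cs * (S.D n).lgs ∧ ∀ ρ, (S.Pj j n).p ρ ≠ 0 → A n ρ → Ya n ρ ∈ T)
    (σ : ℝ) (hσ : 0 < σ) :
    ∀ᶠ n in uf, |((S.Pj j n).cnd (A n)).entC (Ya n) (Yc n) / (S.D n).lgs - (zac - zc)| ≤ 4 * e' + σ := by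
  obtain ⟨ε, hεd⟩ : ∃ ε : ℝ, ε = min 1 (σ / (2 * (Cs + (zac - zc) + 1))) := ⟨_, rfl⟩
  have hden : 0 < 2 * (Cs + (zac - zc) + 1) := by positivity
  have hε : 0 < ε := hεd ▸ lt_min one_pos (by positivity)
  have hε1 : ε ≤ 1 := hεd ▸ min_le_left _ _
  have hε2 : ε * (2 * (Cs + (zac - zc) + 1)) ≤ σ := by
    have : ε ≤ σ / (2 * (Cs + (zac - zc) + 1)) := hεd ▸ min_le_right _ _
    rwa [le_div_iff₀ hden] at this
  filter_upwards [ae2v_fail_small S j A x0 hx0 hA e' ε he' hε, h1, h2, hsupp, nm_pc_small S 1 (σ / 2) (by positivity)] with n ⟨hp, hf⟩ g1 g2 ⟨T, hT, hm⟩ g3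
  have hl := nm_me_lgs_pos S n
  obtain ⟨s0, s1⟩ := nm_pro_hs S n
  obtain ⟨u1, u2⟩ := ae2v_entC (S.Pj j n) (A n) hp (S.D n).s s0 s1 (Ya n) (Yc n) zac zc e' (e' * (S.D n).lgs) ε (by positivity) he'.le hz
    (fun ρ _ hA => g1 ρ hA) (fun ρ _ hA => g2 ρ hA) hf hε1 T hm
  have hlg : lg (S.D n).s = (S.D n).lgs := rfl
  rw [hlg] at u1 u2
  have b1 : 1 ≤ σ / 2 * (S.D n).lgs := (div_le_iff₀ hl).1 g3
  obtain ⟨L, hL⟩ : ∃ L : ℝ, L = (S.D n).lgs := ⟨_, rfl⟩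
  rw [← hL] at u1 u2 hT b1 hl ⊢
  have c1 : ε * Real.log T.card ≤ ε * (Cs * L) := mul_le_mul_of_nonneg_left hT hε.le
  have c2 : 0 ≤ ε * Cs := by positivity
  have c3 : 0 ≤ ε * (zac - zc) := by positivity
  have c4 : 0 ≤ ε * e' := by positivity
  rw [abs_le]
  constructor
  · rw [le_sub_iff_add_le, le_div_iff₀ hl]
    have : ((zac - zc) * L - 2 * e' * L - 2 * (e' * L)) * (1 - ε) = ((zac - zc) - 4 * e' - ε * (zac - zc) + 4 * (ε * e')) * L := by ring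
    rw [this] at u2
    refine le_trans (mul_le_mul_of_nonneg_right ?_ hl.le) u2
    nlinarith
  · rw [sub_le_iff_le_add, div_le_iff₀ hl]
    refine u1.trans ?_
    have : ε * (Cs * L) = ε * Cs * L := by ring
    have d1 : ε * Cs * L ≤ σ / 2 * L := by
      refine mul_le_mul_of_nonneg_right ?_ hl.le
      nlinarith
    nlinarith

end seq

end

end Claimed.Agent.R256
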