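import Claimed.Agent.R256.Act.E2H.Sc
import Claimed.Agent.R256.Act.E2H.VfSeq
import Claimed.Agent.R256.Act.E2H.Cd
import Claimed.Agent.R256.Act.E2H.Tan

/-!
# Row 256, section Act, block E2H (hybrid boundary experiment), part SCO-H, file 2: TYPICAL FINAL NAMES, THE MASS OF THE GOOD ROWS, THE THREE CLAUSES AT ONE CONFIGURATION      (helper279; prefix `ae2u_`)

* `ae2u_typ_nm`, `ae2u_typ_pair` : from `S.Flat Ds`:   `S.TypF (S.ats [nm q a v]) (𝓗(a,v))`,   `S.TypF (S.ats [Xc x, nm q a v]) (𝓗(a,v) + U(x; a, v))`.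
* `ae2u_mass` : a finite family `Fs` of (list of queries, profile value), typical for the final laws, with (CD): for `uf`-most `n`, for EVERY `Bad` with `E2hSpb j0 Bad (s^(-x)) (1/4)`:   `s^(2x) ≤ ν(A)`,
  `A = D.e2uA π p Fs e' Bad = {¬ Bad, A0, all the scores of `ats L ∘ sel` under `ν` are `z ± e'`}`.
* `ae2u_doc_prof`, `ae2u_doc_stat`, `ae2u_doc_ent` : the clauses `prof`, `stat` of `LtPrb` and the entropy of the child name for `ae2hTan D π p dsp` on `ν.cnd A`, for ANY event `A` on which the lists are typical.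
-/

set_option autoImplicit false

namespace Claimed.Agent.R256

open Claimed.Agent.R255
open Claimed.Agent.R255.FLaw (pair)
open Filter Topology
open Classical

noncomputable section

/-! ## typical final names -/

section typ

variable {π : SfPar} {C0 : ℝ} {κ : ℝ → ℝ} (S : NmSeq π C0 κ)

/-- one name -/
theorem ae2u_typ_nm (Ds : Set ℝ) (hF : S.Flat Ds) (q : NmQ) (a v : ℝ) (hok : (NmAt.nm q a v).Ok π Ds) :
    S.TypF (S.ats [NmAt.nm q a v]) (S.H q a v) := by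
  have hHom : S.Hom (S.ats [NmAt.nm q a v]) (fun n _ => ([] : List (NmVl (S.D n).Idx))) :=
    hF [NmAt.nm q a v] [] (fun x hx => by
      rw [List.mem_singleton] at hx
      subst hx
      exact ⟨fun h => (by cases h), hok⟩) (fun x hx => by cases hx)
  have h := ae2v_typ_of_hom S (S.ats [NmAt.nm q a v]) (fun n => ([] : List (NmVl (S.D n).Idx))) hHom
  have e : S.HC (S.ats [NmAt.nm q a v]) (fun n _ => ([] : List (NmVl (S.D n).Idx))) = S.H q a v := by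
    unfold NmSeq.HC NmSeq.H NmSeq.Hn
    congr 1
    funext n
    congr 1
    rw [ent_entC_const]
    refine ent_congr_ker _ _ _ fun ω ω' _ _ => ?_
    simp [NmSeq.ats, SfDoc.ats, SfDoc.atq, NmSeq.nm]
  rwa [e] at h

/-- an angular cell and a name -/
theorem ae2u_typ_pair (Ds : Set ℝ) (hF : S.Flat Ds) (x : ℝ) (q : NmQ) (a v : ℝ) (hok : (NmAt.nm q a v).Ok π Ds) :
    S.TypF (S.ats [NmAt.Xc x, NmAt.nm q a v]) (S.H q a v + S.U q x a v) := by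
  intro e he
  have T1 := ae2u_typ_nm S Ds hF q a v hok (e / 2) (by positivity)
  have hHom := hF [NmAt.Xc x] [NmAt.nm q a v]
    (fun y hy => by
      rw [List.mem_singleton] at hy
      subst hy
      exact ⟨fun h => (by cases h), trivial⟩)
    (fun y hy => by
      rw [List.mem_singleton] at hy
      subst hy
      exact hok)
  have hHC : S.HC (S.ats [NmAt.Xc x]) (S.ats [NmAt.nm q a v]) = S.U q x a v := by
    unfold NmSeq.U NmSeq.HC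
    congr 1
    funext n
    congr 1
    refine ent_entC_congr _ _ _ _ _ (fun ω ω' _ _ => ?_) (fun ω ω' _ _ _ => ?_)
    · simp [NmSeq.ats, SfDoc.ats, SfDoc.atq, NmSeq.nm]
    · simp [NmSeq.ats, SfDoc.ats, SfDoc.atq, NmSeq.Xc]
  have T2 := hHom (e / 2) (by positivity)
  rw [hHC] at T2
  have T3 := T1.add T2
  rw [add_zero] at T3
  refine squeeze_zero (fun n => ent_pr_nonneg _ _) (fun n => ?_) T3
  refine le_trans (ent_pr_mono _ fun ω hω hn => ?_) (ent_pr_or_le _ _ _)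
  by_contra hcon
  push Not at hcon
  obtain ⟨c1, c2⟩ := hcon
  obtain ⟨h0, -⟩ := nm_pro_hs S n
  have hl := nm_me_lgs_pos S n
  have hlg : lg (S.D n).s = (S.D n).lgs := rfl
  refine hn (ae2v_of_log _ _ h0 _ _ _ ω hω ?_)
  have l1 := abs_le.1 (ae2v_log _ _ h0 _ _ _ ω c1)
  have s1 := ent_surC_eq_sub ((S.D n).P 1) (S.ats [NmAt.Xc x] n) (S.ats [NmAt.nm q a v] n) hω
  have f1 : ((S.D n).P 1).fib (S.ats [NmAt.Xc x, NmAt.nm q a v] n) ω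
      = ((S.D n).P 1).fib (pair (S.ats [NmAt.Xc x] n) (S.ats [NmAt.nm q a v] n)) ω := by
    refine ent_pr_congr _ fun ω' _ => ?_
    simp [NmSeq.ats, SfDoc.ats, SfDoc.atq, pair]
  rw [f1]
  have c3 := abs_le.1 c2
  have c4 : ((S.D n).P 1).surC (S.ats [NmAt.Xc x] n) (S.ats [NmAt.nm q a v] n) ω
      = (((S.D n).P 1).surC (S.ats [NmAt.Xc x] n) (S.ats [NmAt.nm q a v] n) ω / (S.D n).lgs) * (S.D n).lgs := by
    field_simp
  obtain ⟨w, hw⟩ : ∃ w : ℝ, w = ((S.D n).P 1).surC (S.ats [NmAt.Xc x] n) (S.ats [NmAt.nm q a v] n) ω / (S.D n).lgs := ⟨_, rfl⟩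
  rw [← hw] at c3 c4
  rw [hlg] at l1 ⊢
  rw [abs_le]
  constructor <;> nlinarith [l1.1, l1.2, c3.1, c3.2]

end typ

/-! ## the good rows and their mass -/

/-- **the good rows**: not `Bad`, a charged final successor, all the scores of the lists `∘ sel` under the law of the gate are typical -/
def SfDoc.e2uA (D : SfDoc) (π : SfPar) (p : Ae2P) (Fs : Finset (List NmAt × ℝ)) (e' : ℝ) (Bad : D.Row (D.gt p.j) → Prop) (ρ : D.Row (D.gt p.j)) : Prop :=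
  ¬ Bad ρ ∧ D.e2hA0 (D.gt p.j) ρ ∧
    ∀ i ∈ Fs, ae2vTyp (D.P (D.gt p.j)) D.s (fun ρ' => D.ats π i.1 (D.e2hSel (D.gt p.j) ρ')) i.2 e' ρ

theorem ae2u_doc_eqns_cite : True := by
  have := @SfDoc.e2uA.eq_1
  trivial

section mass

variable {π : SfPar} {C0 : ℝ} {κ : ℝ → ℝ} (S : NmSeq π C0 κ)

/-- **the good rows have the mass `s^(2x)`** -/
theorem ae2u_mass (p : Ae2P) (Fs : Finset (List NmAt × ℝ)) (htyp : ∀ i ∈ Fs, S.TypF (S.ats i.1) i.2)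
    (hcd : ∀ i ∈ Fs, ∀ acc : ℝ, 0 < acc → ∀ᶠ n in uf, (S.D n).E2hCd π ((S.D n).gt p.j) i.1 ((S.D n).s ^ (-acc)))
    (e' x : ℝ) (hx : 0 < x) (hxe : 8 * x ≤ e') :
    ∀ᶠ n in uf, ∀ Bad : (S.D n).Row ((S.D n).gt p.j) → Prop, (S.D n).E2hSpb ((S.D n).gt p.j) Bad ((S.D n).s ^ (-x)) (1 / 4) →
      (S.D n).s ^ (2 * x) ≤ ((S.D n).P ((S.D n).gt p.j)).pr ((S.D n).e2uA π p Fs e' Bad) := by
  have he' : 0 < e' := by linarith
  obtain ⟨c, hc⟩ : ∃ c : ℝ, c = Fintype.card {i // i ∈ Fs} := ⟨_, rfl⟩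
  have hc0 : 0 ≤ c := hc ▸ Nat.cast_nonneg _
  have E1 : ∀ᶠ n in uf, ∀ i ∈ Fs, ((S.D n).P 1).pr (fun ω => ¬ ae2vTyp ((S.D n).P 1) (S.D n).s (S.ats i.1 n) i.2 (e' / 4) ω) ≤ 1 / (16 * (c + 1)) :=
    (Filter.eventually_all_finset Fs).2 fun i hi => (htyp i hi (e' / 4) (by positivity)).eventually_le_const (by positivity)
  have E2 : ∀ᶠ n in uf, ∀ i ∈ Fs, (S.D n).E2hCd π ((S.D n).gt p.j) i.1 ((S.D n).s ^ (-(e' / 4))) :=
    (Filter.eventually_all_finset Fs).2 fun i hi => hcd i hi (e' / 4) (by positivity)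
  have E3 := ae2v_pow_small S (x / 2) (1 / (8 * (c + 1))) (by positivity) (by positivity)
  have E4 := ae2v_pow_small S (e' / 2) (1 / (16 * (c + 1))) (by positivity) (by positivity)
  filter_upwards [E1, E2, E3, E4] with n f1 f2 f3 f4 Bad hsp
  obtain ⟨h0, h1⟩ := nm_pro_hs S n
  have hpw : (S.D n).s ^ (-(e' / 4)) * (S.D n).s ^ (e' - e' / 4) = (S.D n).s ^ (e' / 2) := by
    rw [← Real.rpow_add h0]
    congr 1
    ring
  have key := ae2v_mass ((S.D n).P ((S.D n).gt p.j)) ((S.D n).P 1) ((S.D n).e2hR ((S.D n).gt p.j)) (S.D n).s h0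
    (fun (i : {i // i ∈ Fs}) ρ => (S.D n).ats π i.1.1 ((S.D n).e2hSel ((S.D n).gt p.j) ρ)) (fun (i : {i // i ∈ Fs}) => (S.D n).ats π i.1.1)
    ((S.D n).s ^ (-(e' / 4))) (Real.rpow_nonneg h0.le _)
    (fun i y => by
      obtain ⟨T, hT, hm⟩ := f2 i.1 i.2 y
      exact ⟨T, hT, fun ρ ω hR hy => hm ρ _ ω (ae2h_sel_R (S.D n) _ ρ ⟨ω, hR⟩) hR hy⟩)
    (fun i y => by
      obtain ⟨T, hT, hm⟩ := f2 i.1 i.2 y
      exact ⟨T, hT, fun ρ ω hR hy => hm ρ ω _ hR (ae2h_sel_R (S.D n) _ ρ ⟨ω, hR⟩) hy⟩)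
    (fun i => i.1.2) (e' / 4) e' (1 / (16 * (c + 1))) (fun i => f1 i.1 i.2) (fun _ => True) 0
    (by rw [ent_pr_eq_zero _ fun _ _ h => h trivial]) Bad ((S.D n).s ^ (-x)) (1 / 4) (Real.rpow_pos_of_pos h0 _)
    (fun U S' _ hp => hsp U S' hp)
    (by
      rw [hpw, ← hc]
      have a1 : c * (1 / (16 * (c + 1)) + (S.D n).s ^ (e' / 2)) ≤ c * (1 / (16 * (c + 1)) + 1 / (16 * (c + 1))) :=
        mul_le_mul_of_nonneg_left (by linarith) hc0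
      have a2 : c * (1 / (16 * (c + 1)) + 1 / (16 * (c + 1))) ≤ 1 / 8 := by
        rw [← two_mul, ← mul_assoc, mul_one_div, div_le_iff₀ (by positivity)]
        linarith
      linarith)
  rw [← hc] at key
  have hfin := ae2v_mass_num (S.D n).s x e' c _ h0 h1 hx hxe hc0 f3 key
  refine hfin.trans (ent_pr_mono _ fun ρ _ hρ => ?_)
  obtain ⟨a1, ⟨ω, -, a3⟩, a4⟩ := hρ
  exact ⟨a1, ⟨ω, a3⟩, fun i hi => a4 ⟨i, hi⟩⟩

end mass

/-! ## the three clauses at one configuration -/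

section doc

variable (D : SfDoc) (π : SfPar) (p : Ae2P) (dsp : ℝ → NmNm → NmNm → ItDsp)

/-- `L = h lg s` -/
theorem ae2u_L (h0 : 0 < D.s) : (ae2hTan D π p dsp).L = p.h * lg D.s := by
  show lg (D.s ^ p.h) = p.h * lg D.s
  unfold lg
  rw [one_div, one_div, Real.log_inv, Real.log_inv, Real.log_rpow h0]
  ring

/-- typicality of a pair of atoms -/
theorem ae2u_typ2 (A : D.Row (D.gt p.j) → Prop) (x : ℝ) (q : NmQ) (y v z e' : ℝ)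
    (t : ∀ ρ, A ρ → ae2vTyp (D.P (D.gt p.j)) D.s (fun ρ' => D.ats π [NmAt.Xc x, NmAt.nm q y v] (D.e2hSel (D.gt p.j) ρ')) z e' ρ) :
    ∀ ρ, (D.P (D.gt p.j)).p ρ ≠ 0 → A ρ → ae2vTyp (D.P (D.gt p.j)) D.s
      (pair (fun ρ' => D.Xc x (D.e2hSel (D.gt p.j) ρ')) (fun ρ' => D.nm π q y v (D.e2hSel (D.gt p.j) ρ'))) z e' ρ := by
  intro ρ _ hA
  refine ae2u_typ_congr _ _ _ _ (fun ρ1 ρ2 => ?_) _ _ _ (t ρ hA)
  simp [SfDoc.ats, SfDoc.atq, pair]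

/-- typicality of one atom -/
theorem ae2u_typ1 (A : D.Row (D.gt p.j) → Prop) (q : NmQ) (y v z e' : ℝ)
    (t : ∀ ρ, A ρ → ae2vTyp (D.P (D.gt p.j)) D.s (fun ρ' => D.ats π [NmAt.nm q y v] (D.e2hSel (D.gt p.j) ρ')) z e' ρ) :
    ∀ ρ, (D.P (D.gt p.j)).p ρ ≠ 0 → A ρ → ae2vTyp (D.P (D.gt p.j)) D.s (fun ρ' => D.nm π q y v (D.e2hSel (D.gt p.j) ρ')) z e' ρ := by
  intro ρ _ hA
  refine ae2u_typ_congr _ _ _ _ (fun ρ1 ρ2 => ?_) _ _ _ (t ρ hA)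
  simp [SfDoc.ats, SfDoc.atq]

/-- **the clause `prof`** -/
theorem ae2u_doc_prof (K0 e z : ℝ) (hs : 0 < D.s ∧ D.s < 1) (hR : NmRep D π (p.rt π) K0 e) (hz : 0 ≤ z) (hh : 0 < p.h)
    (hze : D.s ^ e ≤ (D.s ^ p.h) ^ z / 4) (A : D.Row (D.gt p.j) → Prop) (hA : 0 < (D.P (D.gt p.j)).pr A) (zXC zC e' : ℝ) (he' : 0 < e')
    (t1 : ∀ ρ, A ρ → ae2vTyp (D.P (D.gt p.j)) D.s
      (fun ρ' => D.ats π [NmAt.Xc (π.u p.De + z * p.h), NmAt.nm (ae2Q π p.De) p.a (π.u p.De)] (D.e2hSel (D.gt p.j) ρ')) zXC e' ρ)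
    (t2 : ∀ ρ, A ρ → ae2vTyp (D.P (D.gt p.j)) D.s (fun ρ' => D.ats π [NmAt.nm (ae2Q π p.De) p.a (π.u p.De)] (D.e2hSel (D.gt p.j) ρ')) zC e' ρ)
    (acc : ℝ) (he : 16 * e' ≤ acc * p.h) (hL1 : 12 * Real.log (max K0 8) ≤ acc * (p.h * lg D.s))
    (hL2 : 6 * Real.exp (-(acc * (p.h * lg D.s) / 12)) ≤ acc / 2)
    (hfail : 2 * ((Real.log (1 / (D.P (D.gt p.j)).pr A) + Real.exp (-1)) / (e' * lg D.s) + Real.exp (-(e' * lg D.s))) ≤ acc / 2) :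
    ((D.P (D.gt p.j)).cnd A).pr (fun ρ => acc * (ae2hTan D π p dsp).L
      < |((D.P (D.gt p.j)).cnd A).surC ((ae2hTan D π p dsp).Xn z) (ae2hTan D π p dsp).Cs ρ - (zXC - zC) / p.h * (ae2hTan D π p dsp).L|) ≤ acc := by
  rw [ae2u_L D π p dsp hs.1]
  have hN8 : (8 : ℝ) ≤ max K0 8 := le_max_right _ _
  have hNK : K0 ≤ max K0 8 := le_max_left _ _
  obtain ⟨x1, x2⟩ := ae2_xcell D π p dsp K0 e z hs hR hz hh hze
  have y1 : (D.P 1).NVal (fun _ => True) ((ae2Tan D π p dsp).Xn z)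
      (pair (D.Xc (π.u p.De + z * p.h)) (pair (D.nm π (ae2Q π p.De) p.a (π.u p.De)) (D.cs π (p.rt π)))) (max K0 8) :=
    ae2_prof_nval_mono _ (lay_nval_refine _ x1 (fun ω ω' hω => by
      simp only [FLaw.pair, Prod.mk.injEq] at hω ⊢
      exact ⟨hω.1, hω.2.2⟩)) hN8
  have y2 : (D.P 1).NVal (fun _ => True) (D.Xc (π.u p.De + z * p.h))
      (pair ((ae2Tan D π p dsp).Xn z) (pair (D.nm π (ae2Q π p.De) p.a (π.u p.De)) (D.cs π (p.rt π)))) (max K0 8) :=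
    ae2_prof_nval_mono _ (lay_nval_refine _ x2 (fun ω ω' hω => by
      simp only [FLaw.pair, Prod.mk.injEq] at hω ⊢
      exact ⟨hω.1, hω.2.2⟩)) hN8
  exact ae2u_prof_abs (D.P (D.gt p.j)) A hA D.s hs.1 hs.2 ((ae2hTan D π p dsp).Xn z) (fun ρ' => D.Xc (π.u p.De + z * p.h) (D.e2hSel (D.gt p.j) ρ'))
    (ae2hTan D π p dsp).Cs (fun ρ' => D.nm π (ae2Q π p.De) p.a (π.u p.De) (D.e2hSel (D.gt p.j) ρ')) (N := max K0 8) (by linarith)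
    (ae2h_nval D _ _ _ _ _ (ae2_prof_nval_mono _ hR.rep1 hNK)) (ae2h_nval D _ _ _ _ _ (ae2_prof_nval_mono _ hR.rep2 hNK))
    (ae2h_nval D _ _ _ _ _ y1) (ae2h_nval D _ _ _ _ _ y2)
    zXC zC e' he' (ae2u_typ2 D π p A _ _ _ _ _ _ t1) (ae2u_typ1 D π p A _ _ _ _ _ t2) acc p.h hh he hL1 hL2 hfail

/-- **the clause `stat`** -/
theorem ae2u_doc_stat (hq : (ae2Q π p.De).Ok π) (K0 e R N : ℝ) (hs : 0 < D.s ∧ D.s < 1) (hR : NmRep D π (p.rt π) K0 e) (hh : 0 < p.h)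
    (hze : D.s ^ e ≤ (D.s ^ p.h) ^ (6 : ℝ) / 4)
    (hV : (D.P 1).NVal (fun _ => True) ((ae2Tan D π p dsp).ltS R) (pair ((ae2Tan D π p dsp).O 40) (ae2Tan D π p dsp).Cs) N)
    (A : D.Row (D.gt p.j) → Prop) (zXC zC zXN zN e' m : ℝ) (hm : 0 ≤ m) (hA : D.s ^ m ≤ (D.P (D.gt p.j)).pr A)
    (t1 : ∀ ρ, A ρ → ae2vTyp (D.P (D.gt p.j)) D.s
      (fun ρ' => D.ats π [NmAt.Xc (π.u p.De + 6 * p.h), NmAt.nm (ae2Q π p.De) p.a (π.u p.De)] (D.e2hSel (D.gt p.j) ρ')) zXC e' ρ)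
    (t2 : ∀ ρ, A ρ → ae2vTyp (D.P (D.gt p.j)) D.s (fun ρ' => D.ats π [NmAt.nm (ae2Q π p.De) p.a (π.u p.De)] (D.e2hSel (D.gt p.j) ρ')) zC e' ρ)
    (t3 : ∀ ρ, A ρ → ae2vTyp (D.P (D.gt p.j)) D.s
      (fun ρ' => D.ats π [NmAt.Xc (π.u p.De + 6 * p.h), NmAt.nm (ae2Q π p.De) (p.a + 40 * p.h) (π.u p.De)] (D.e2hSel (D.gt p.j) ρ')) zXN e' ρ)
    (t4 : ∀ ρ, A ρ → ae2vTyp (D.P (D.gt p.j)) D.s
      (fun ρ' => D.ats π [NmAt.nm (ae2Q π p.De) (p.a + 40 * p.h) (π.u p.De)] (D.e2hSel (D.gt p.j) ρ')) zN e' ρ) :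
    ((D.P (D.gt p.j)).cnd A).miC ((ae2hTan D π p dsp).Xn 6) ((ae2hTan D π p dsp).ltS R) (ae2hTan D π p dsp).Cs
      ≤ ((zXC - zC) - (zXN - zN) + 4 * (e' + m)) * lg D.s + Real.log N + 6 * (|Real.log K0| + Real.log 8 + |Real.log nmK0|) := by
  obtain ⟨x1, x2⟩ := ae2_xcell D π p dsp K0 e 6 hs hR (by norm_num) hh hze
  have hup : (D.P 1).NVal (fun _ => True) (D.nm π (ae2Q π p.De) p.a (π.u p.De)) (D.nm π (ae2Q π p.De) (p.a + 40 * p.h) (π.u p.De)) nmK0 :=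
    nm_nval_up D π hq hs.1 hs.2 (by linarith) le_rfl
  exact ae2u_stat_abs (D.P (D.gt p.j)) A D.s hs.1 hs.2 ((ae2hTan D π p dsp).Xn 6) (fun ρ' => D.Xc (π.u p.De + 6 * p.h) (D.e2hSel (D.gt p.j) ρ'))
    (ae2hTan D π p dsp).Cs (fun ρ' => D.nm π (ae2Q π p.De) p.a (π.u p.De) (D.e2hSel (D.gt p.j) ρ'))
    (fun ρ' => D.nm π (ae2Q π p.De) (p.a + 40 * p.h) (π.u p.De) (D.e2hSel (D.gt p.j) ρ')) ((ae2hTan D π p dsp).ltS R)
    (ae2h_nval D _ _ _ _ _ hR.rep1) (ae2h_nval D _ _ _ _ _ hR.rep2) (ae2h_nval D _ _ _ _ _ x1) (ae2h_nval D _ _ _ _ _ x2)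
    (ae2h_nval D _ _ _ _ _ hup) (ae2h_nval D _ _ _ _ _ hV) zXC zC zXN zN e' m hm hA
    (ae2u_typ2 D π p A _ _ _ _ _ _ t1) (ae2u_typ1 D π p A _ _ _ _ _ t2) (ae2u_typ2 D π p A _ _ _ _ _ _ t3) (ae2u_typ1 D π p A _ _ _ _ _ t4)

/-- **the entropy of the child name** -/
theorem ae2u_doc_ent (hq : (ae2Q π p.De).Ok π) (K0 e : ℝ) (hs : 0 < D.s ∧ D.s < 1) (hR : NmRep D π (p.rt π) K0 e) (hh : 0 < p.h)
    (A : D.Row (D.gt p.j) → Prop) (z1 zC e' m : ℝ) (hm : 0 ≤ m) (hA : D.s ^ m ≤ (D.P (D.gt p.j)).pr A)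
    (t1 : ∀ ρ, A ρ → ae2vTyp (D.P (D.gt p.j)) D.s
      (fun ρ' => D.ats π [NmAt.nm (ae2Q π p.De) (p.a + p.h) (π.u p.De)] (D.e2hSel (D.gt p.j) ρ')) z1 e' ρ)
    (t2 : ∀ ρ, A ρ → ae2vTyp (D.P (D.gt p.j)) D.s (fun ρ' => D.ats π [NmAt.nm (ae2Q π p.De) p.a (π.u p.De)] (D.e2hSel (D.gt p.j) ρ')) zC e' ρ) :
    ((D.P (D.gt p.j)).cnd A).entC ((ae2hTan D π p dsp).O 1) (ae2hTan D π p dsp).Cs
      ≤ (z1 - zC + 2 * (e' + m)) * lg D.s + Real.log K0 + Real.log nmK0 := by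
  have hup : (D.P 1).NVal (fun _ => True) (D.nm π (ae2Q π p.De) p.a (π.u p.De)) (D.nm π (ae2Q π p.De) (p.a + p.h) (π.u p.De)) nmK0 :=
    nm_nval_up D π hq hs.1 hs.2 (by linarith) le_rfl
  have e1 : ((D.P (D.gt p.j)).cnd A).entC ((ae2hTan D π p dsp).O 1) (ae2hTan D π p dsp).Cs
      = ((D.P (D.gt p.j)).cnd A).entC (fun ρ' => D.nm π (ae2Q π p.De) (p.a + p.h) (π.u p.De) (D.e2hSel (D.gt p.j) ρ')) (ae2hTan D π p dsp).Cs := by
    apply ent_entC_congr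
    · intro ω ω' _ _
      exact Iff.rfl
    · intro ω ω' _ _ hY
      have hY' : D.cs π (p.rt π) (D.e2hSel (D.gt p.j) ω) = D.cs π (p.rt π) (D.e2hSel (D.gt p.j) ω') := hY
      show (D.nm π (ae2Q π p.De) (p.a + 1 * p.h) (π.u p.De) (D.e2hSel (D.gt p.j) ω), D.cs π (p.rt π) (D.e2hSel (D.gt p.j) ω))
        = (D.nm π (ae2Q π p.De) (p.a + 1 * p.h) (π.u p.De) (D.e2hSel (D.gt p.j) ω'), D.cs π (p.rt π) (D.e2hSel (D.gt p.j) ω')) ↔ _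
      rw [one_mul]
      exact ⟨fun h => (Prod.mk.inj h).1, fun h => Prod.ext h hY'⟩
  rw [e1]
  exact ae2u_ent_abs (D.P (D.gt p.j)) A D.s hs.1 hs.2 _ (ae2hTan D π p dsp).Cs (fun ρ' => D.nm π (ae2Q π p.De) p.a (π.u p.De) (D.e2hSel (D.gt p.j) ρ'))
    (ae2h_nval D _ _ _ _ _ hR.rep1) (ae2h_nval D _ _ _ _ _ hup) z1 zC e' m hm hA
    (ae2u_typ1 D π p A _ _ _ _ _ t1) (ae2u_typ1 D π p A _ _ _ _ _ t2)

end doc

end

end Claimed.Agent.R256
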