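import Claimed.Agent.R256.Act.E2H.ScDoc

/-!
# Row 256, section Act, block E2H (hybrid boundary experiment), part SCO-H, file 3: THE EVENT AND THE PROFILES      (helper279; prefix `ae2u_`)

`ae2u_sco` = the statement of the contract `ae2h_sco` (Act/E2H/Sco.lean), VERBATIM.
CONSTANTS:   `e' = tl h / 64`,   `c1 = min (e'/8) (tl e'/32)`,   `m = 2 c0`.
Family:   `[nm a]`, `[nm (a + h)]`, `[nm (a + 40 h)]`, `[Xc (u + 6 h), nm (a + 40 h)]`, `[Xc (u + z h), nm a]` (`z ∈ Q ∪ {6}`), with the profile values `𝓗`, `𝓗 + U`.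
-/

set_option autoImplicit false

namespace Claimed.Agent.R256

open Claimed.Agent.R255
open Claimed.Agent.R255.FLaw (pair)
open Filter Topology
open Classical

noncomputable section

section seq

variable {π : SfPar} {C0 : ℝ} {κ : ℝ → ℝ} (S : NmSeq π C0 κ)

/-- `s^e ≤ (s^h)^z / 4` for `z ≤ 6`, `10 h ≤ e`, `s^h ≤ 1/2` -/
theorem ae2u_hze (s h e z : ℝ) (h0 : 0 < s) (h1 : s < 1) (he : 10 * h ≤ e) (hz6 : z ≤ 6) (hs : s ^ h < 1 / 2) :
    s ^ e ≤ (s ^ h) ^ z / 4 := by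
  have hδ0 : 0 < s ^ h := Real.rpow_pos_of_pos h0 _
  have a1 : s ^ e ≤ s ^ (10 * h) := Real.rpow_le_rpow_of_exponent_ge h0 h1.le he
  have a2 : s ^ (10 * h) = (s ^ h) ^ z * (s ^ h) ^ (10 - z) := by
    rw [← Real.rpow_add hδ0, ← Real.rpow_mul h0.le]
    congr 1
    ring
  have a3 : (s ^ h) ^ (10 - z) ≤ (s ^ h) ^ (2 : ℝ) := Real.rpow_le_rpow_of_exponent_ge hδ0 (by linarith) (by linarith)
  have a4 : (s ^ h) ^ (2 : ℝ) ≤ 1 / 4 := by
    rw [Real.rpow_two]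
    nlinarith
  have a5 : 0 < (s ^ h) ^ z := Real.rpow_pos_of_pos hδ0 _
  rw [a2] at a1
  refine a1.trans ?_
  have := mul_le_mul_of_nonneg_left (a3.trans a4) a5.le
  linarith

/-- **the event and the profiles** -/
theorem ae2u_sco (hπ : π.Valid) (h1 : π.c2 = 1) (h2 : π.q < 1) (hc : π.hyb = true) (hX : S.HasX) (hF : S.Flat {1}) : ∃ Λ : ℝ, ∀ p : Ae2P, p.Ok π Λ → p.De = 1 →
    ∀ (K0 e : ℝ), 10 * p.h ≤ e → ∀ Q : Finset ℝ, (∀ x ∈ Q, 0 ≤ x ∧ x ≤ 6) → ∀ (R tl : ℝ), 0 < tl →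
    S.U (ae2Q π p.De) (π.u p.De + 6 * p.h) p.a (π.u p.De) - S.U (ae2Q π p.De) (π.u p.De + 6 * p.h) (p.a + 40 * p.h) (π.u p.De) ≤ tl * p.h / 4 →
    ∃ c1 : ℝ, 0 < c1 ∧ ∀ c0 : ℝ, 0 < c0 → c0 ≤ c1 → ∀ᶠ n in uf, NmRep (S.D n) π (p.rt π) K0 e →
    ∀ (dsp : ℝ → NmNm → NmNm → ItDsp) (N : ℝ), Real.log N ≤ tl / 4 * (ae2Tan (S.D n) π p dsp).L →
      ((S.D n).P 1).NVal (fun _ => True) ((ae2Tan (S.D n) π p dsp).ltS R) (pair ((ae2Tan (S.D n) π p dsp).O 40) (ae2Tan (S.D n) π p dsp).Cs) N →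
    ∀ Bad : (S.D n).Row ((S.D n).gt p.j) → Prop, (S.D n).E2hSpb ((S.D n).gt p.j) Bad ((S.D n).s ^ (-c0)) (1 / 4) →
    ∃ A : (S.D n).Row ((S.D n).gt p.j) → Prop, (∀ ρ, A ρ → (S.D n).e2hA0 ((S.D n).gt p.j) ρ ∧ ¬ Bad ρ) ∧
      (S.D n).s ^ (2 * c0) ≤ ((S.D n).P ((S.D n).gt p.j)).pr A ∧
      (∀ z ∈ Q, (((S.D n).P ((S.D n).gt p.j)).cnd A).pr (fun ρ => tl * (ae2hTan (S.D n) π p dsp).L
        < |(((S.D n).P ((S.D n).gt p.j)).cnd A).surC ((ae2hTan (S.D n) π p dsp).Xn z) (ae2hTan (S.D n) π p dsp).Cs ρ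
            - S.U (ae2Q π p.De) (π.u p.De + z * p.h) p.a (π.u p.De) / p.h * (ae2hTan (S.D n) π p dsp).L|) ≤ tl) ∧
      (((S.D n).P ((S.D n).gt p.j)).cnd A).miC ((ae2hTan (S.D n) π p dsp).Xn 6) ((ae2hTan (S.D n) π p dsp).ltS R) (ae2hTan (S.D n) π p dsp).Cs
        ≤ tl * (ae2hTan (S.D n) π p dsp).L ∧
      (((S.D n).P ((S.D n).gt p.j)).cnd A).entC ((ae2hTan (S.D n) π p dsp).O 1) (ae2hTan (S.D n) π p dsp).Cs
        ≤ ((S.H (ae2Q π p.De) (p.a + p.h) (π.u p.De) - S.H (ae2Q π p.De) p.a (π.u p.De)) / p.h + tl) * (ae2hTan (S.D n) π p dsp).L := by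
  refine ⟨0, fun p hp hD1 K0 e he Q hQ R tl htl hng => ?_⟩
  have hh : 0 < p.h := hp.h0
  have hq : (ae2Q π p.De).Ok π := nm_fam_ok π hπ _ hp.root.q
  have hg : 400 * p.h ≤ p.j - p.a := hp.hgap.trans (min_le_left _ _)
  have hjD := hp.hjD
  have ha0 : 0 < p.a := hp.root.ha.1
  obtain ⟨e', he'd⟩ : ∃ e' : ℝ, e' = tl * p.h / 64 := ⟨_, rfl⟩
  have he' : 0 < e' := by rw [he'd]; positivity
  -- the atoms
  have hok : ∀ y : ℝ, p.a ≤ y → y ≤ p.a + 40 * p.h → (NmAt.nm (ae2Q π p.De) y (π.u p.De)).Ok π {1} := fun y hy1 hy2 =>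
    ⟨hp.root.q, hD1, by linarith, by show y ≤ p.De; linarith, hp.root.hv⟩
  obtain ⟨nmA, hnmA⟩ : ∃ f : ℝ → NmAt, f = fun y => NmAt.nm (ae2Q π p.De) y (π.u p.De) := ⟨_, rfl⟩
  obtain ⟨Hf, hHf⟩ : ∃ f : ℝ → ℝ, f = fun y => S.H (ae2Q π p.De) y (π.u p.De) := ⟨_, rfl⟩
  obtain ⟨Uf, hUf⟩ : ∃ f : ℝ → ℝ → ℝ, f = fun z y => S.U (ae2Q π p.De) (π.u p.De + z * p.h) y (π.u p.De) := ⟨_, rfl⟩
  obtain ⟨Fs, hFs⟩ : ∃ Fs : Finset (List NmAt × ℝ), Fs = ({([nmA p.a], Hf p.a), ([nmA (p.a + p.h)], Hf (p.a + p.h)),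
      ([nmA (p.a + 40 * p.h)], Hf (p.a + 40 * p.h)),
      ([NmAt.Xc (π.u p.De + 6 * p.h), nmA (p.a + 40 * p.h)], Hf (p.a + 40 * p.h) + Uf 6 (p.a + 40 * p.h))} : Finset (List NmAt × ℝ))
      ∪ (insert 6 Q).image (fun z => ([NmAt.Xc (π.u p.De + z * p.h), nmA p.a], Hf p.a + Uf z p.a)) := ⟨_, rfl⟩
  have m1 : ([nmA p.a], Hf p.a) ∈ Fs := by rw [hFs]; exact Finset.mem_union_left _ (by simp)
  have m2 : ([nmA (p.a + p.h)], Hf (p.a + p.h)) ∈ Fs := by rw [hFs]; exact Finset.mem_union_left _ (by simp)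
  have m3 : ([nmA (p.a + 40 * p.h)], Hf (p.a + 40 * p.h)) ∈ Fs := by rw [hFs]; exact Finset.mem_union_left _ (by simp)
  have m4 : ([NmAt.Xc (π.u p.De + 6 * p.h), nmA (p.a + 40 * p.h)], Hf (p.a + 40 * p.h) + Uf 6 (p.a + 40 * p.h)) ∈ Fs := by
    rw [hFs]; exact Finset.mem_union_left _ (by simp)
  have m5 : ∀ z ∈ insert 6 Q, ([NmAt.Xc (π.u p.De + z * p.h), nmA p.a], Hf p.a + Uf z p.a) ∈ Fs := fun z hz => by
    rw [hFs]; exact Finset.mem_union_right _ (Finset.mem_image.2 ⟨z, hz, rfl⟩)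
  have hQ6 : ∀ z ∈ insert 6 Q, 0 ≤ z ∧ z ≤ 6 := fun z hz => by
    rcases Finset.mem_insert.1 hz with rfl | hz
    · norm_num
    · exact hQ z hz
  have htyp : ∀ i ∈ Fs, S.TypF (S.ats i.1) i.2 := by
    intro i hi
    rw [hFs, Finset.mem_union] at hi
    rcases hi with hi | hi
    · simp only [Finset.mem_insert, Finset.mem_singleton] at hi
      rcases hi with rfl | rfl | rfl | rfl
      · rw [hnmA, hHf]; exact ae2u_typ_nm S {1} hF _ _ _ (hok _ le_rfl (by linarith))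
      · rw [hnmA, hHf]; exact ae2u_typ_nm S {1} hF _ _ _ (hok _ (by linarith) (by linarith))
      · rw [hnmA, hHf]; exact ae2u_typ_nm S {1} hF _ _ _ (hok _ (by linarith) le_rfl)
      · rw [hnmA, hHf, hUf]; exact ae2u_typ_pair S {1} hF _ _ _ _ (hok _ (by linarith) le_rfl)
    · obtain ⟨z, -, rfl⟩ := Finset.mem_image.1 hi
      rw [hnmA, hHf, hUf]; exact ae2u_typ_pair S {1} hF _ _ _ _ (hok _ le_rfl (by linarith))
  have hcdL : ∀ L : List NmAt, (∀ x ∈ L, (∃ y : ℝ, p.a ≤ y ∧ y ≤ p.a + 40 * p.h ∧ x = NmAt.nm (ae2Q π 1) y (π.u 1)) ∨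
      (∃ z : ℝ, π.u 1 ≤ z ∧ z ≤ π.u 1 + 6 * p.h ∧ x = NmAt.Xc z)) →
      ∀ acc : ℝ, 0 < acc → ∀ᶠ n in uf, (S.D n).E2hCd π ((S.D n).gt p.j) L ((S.D n).s ^ (-acc)) := fun L hL acc hacc =>
    nm_pro_A_uf S hX 1 one_pos _ (ae2h_cd π hπ h1 h2 hc C0 1 (κ 1) 0 p hp hD1 L hL) acc hacc
  have hatN : ∀ y : ℝ, p.a ≤ y → y ≤ p.a + 40 * p.h → ((∃ y' : ℝ, p.a ≤ y' ∧ y' ≤ p.a + 40 * p.h ∧ nmA y = NmAt.nm (ae2Q π 1) y' (π.u 1)) ∨
      (∃ z : ℝ, π.u 1 ≤ z ∧ z ≤ π.u 1 + 6 * p.h ∧ nmA y = NmAt.Xc z)) := fun y hy1 hy2 =>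
    Or.inl ⟨y, hy1, hy2, by rw [hnmA, hD1]⟩
  have hatX : ∀ z : ℝ, 0 ≤ z → z ≤ 6 → ((∃ y' : ℝ, p.a ≤ y' ∧ y' ≤ p.a + 40 * p.h ∧ NmAt.Xc (π.u p.De + z * p.h) = NmAt.nm (ae2Q π 1) y' (π.u 1)) ∨
      (∃ z' : ℝ, π.u 1 ≤ z' ∧ z' ≤ π.u 1 + 6 * p.h ∧ NmAt.Xc (π.u p.De + z * p.h) = NmAt.Xc z')) := fun z hz0 hz6 =>
    Or.inr ⟨π.u 1 + z * p.h, by nlinarith, by nlinarith, by rw [hD1]⟩
  have hcd : ∀ i ∈ Fs, ∀ acc : ℝ, 0 < acc → ∀ᶠ n in uf, (S.D n).E2hCd π ((S.D n).gt p.j) i.1 ((S.D n).s ^ (-acc)) := by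
    intro i hi
    rw [hFs, Finset.mem_union] at hi
    rcases hi with hi | hi
    · simp only [Finset.mem_insert, Finset.mem_singleton] at hi
      rcases hi with rfl | rfl | rfl | rfl
      · refine hcdL _ fun x hx => ?_
        rw [List.mem_singleton] at hx
        subst hx
        exact hatN _ le_rfl (by linarith)
      · refine hcdL _ fun x hx => ?_
        rw [List.mem_singleton] at hx
        subst hx
        exact hatN _ (by linarith) (by linarith)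
      · refine hcdL _ fun x hx => ?_
        rw [List.mem_singleton] at hx
        subst hx
        exact hatN _ (by linarith) le_rfl
      · refine hcdL _ fun x hx => ?_
        rcases List.mem_cons.1 hx with rfl | hx
        · exact hatX 6 (by norm_num) le_rfl
        · rw [List.mem_singleton] at hx
          subst hx
          exact hatN _ (by linarith) le_rfl
    · obtain ⟨z, hz, rfl⟩ := Finset.mem_image.1 hi
      refine hcdL _ fun x hx => ?_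
      rcases List.mem_cons.1 hx with rfl | hx
      · exact hatX z (hQ6 z hz).1 (hQ6 z hz).2
      · rw [List.mem_singleton] at hx
        subst hx
        exact hatN _ le_rfl (by linarith)
  refine ⟨min (e' / 8) (tl * e' / 32), lt_min (by positivity) (by positivity), fun c0 hc0 hc1 => ?_⟩
  have hc8 : 8 * c0 ≤ e' := by have := hc1.trans (min_le_left _ _); linarith
  have hc32 : c0 ≤ tl / 2 * e' / 16 := by have := hc1.trans (min_le_right _ _); linarith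
  have E1 := ae2u_mass S p Fs htyp hcd e' c0 hc0 hc8
  have E2 := ae2_small S p.h (1 / 2) hh (by norm_num)
  have E3 := nm_pc_small S (12 * Real.log (max K0 8)) (tl * p.h) (by positivity)
  have E4 := ae2v_pow_small S (tl * p.h / 12) (tl / 12) (by positivity) (by positivity)
  have E5 := nm_pc_small S 1 (tl / 2 * e' / 8) (by positivity)
  have E6 := ae2v_pow_small S e' (tl / 2 / 8) he' (by positivity)
  have E7 := nm_pc_small S (6 * (|Real.log K0| + Real.log 8 + |Real.log nmK0|)) (tl * p.h / 8) (by positivity)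
  have E8 := nm_pc_small S (|Real.log K0| + |Real.log nmK0|) (tl * p.h / 2) (by positivity)
  filter_upwards [E1, E2, E3, E4, E5, E6, E7, E8] with n f1 ⟨s0, s1, f2⟩ f3 f4 f5 f6 f7 f8 hR dsp N hN hV Bad hsp
  have hl := nm_me_lgs_pos S n
  have hlg : lg (S.D n).s = (S.D n).lgs := rfl
  have hmass := f1 Bad hsp
  have hpA : 0 < ((S.D n).P ((S.D n).gt p.j)).pr ((S.D n).e2uA π p Fs e' Bad) := lt_of_lt_of_le (Real.rpow_pos_of_pos s0 _) hmass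
  have hL : (ae2hTan (S.D n) π p dsp).L = p.h * (S.D n).lgs := ae2u_L (S.D n) π p dsp s0
  have hL' : (ae2Tan (S.D n) π p dsp).L = p.h * (S.D n).lgs := hL
  have typ : ∀ i ∈ Fs, ∀ ρ, (S.D n).e2uA π p Fs e' Bad ρ →
      ae2vTyp ((S.D n).P ((S.D n).gt p.j)) (S.D n).s (fun ρ' => (S.D n).ats π i.1 ((S.D n).e2hSel ((S.D n).gt p.j) ρ')) i.2 e' ρ :=
    fun i hi ρ hρ => hρ.2.2 i hi
  have g3 := (div_le_iff₀ hl).1 f3
  have g5 := (div_le_iff₀ hl).1 f5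
  have g7 := (div_le_iff₀ hl).1 f7
  have g8 := (div_le_iff₀ hl).1 f8
  have hexp : Real.exp (-(tl * (p.h * lg (S.D n).s) / 12)) = (S.D n).s ^ (tl * p.h / 12) := by
    rw [Real.rpow_def_of_pos s0]
    congr 1
    unfold lg
    rw [one_div, Real.log_inv]
    ring
  have hfail := ae2u_fail (S.D n).s c0 e' (tl / 2) _ s0 s1 he' (by positivity) hmass hc32 g5 f6
  simp only [hnmA, hHf, hUf] at m1 m2 m3 m4 m5
  refine ⟨(S.D n).e2uA π p Fs e' Bad, fun ρ hρ => ⟨hρ.2.1, hρ.1⟩, hmass, fun z hz => ?_, ?_, ?_⟩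
  · have hz' : z ∈ insert (6 : ℝ) Q := Finset.mem_insert_of_mem hz
    have key := ae2u_doc_prof (S.D n) π p dsp K0 e z ⟨s0, s1⟩ hR (hQ z hz).1 hh (ae2u_hze _ _ _ _ s0 s1 he (hQ z hz).2 f2) _ hpA _ _ e' he'
      (typ _ (m5 z hz')) (typ _ m1) tl (by rw [he'd]; linarith) (by rw [hlg]; linarith) (by rw [hexp]; linarith) hfail
    rwa [add_sub_cancel_left] at key
  · have key := ae2u_doc_stat (S.D n) π p dsp hq K0 e R N ⟨s0, s1⟩ hR hh (ae2u_hze _ _ _ _ s0 s1 he le_rfl f2) hV _ _ _ _ _ e' (2 * c0) (by linarith) hmass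
      (typ _ (m5 6 (Finset.mem_insert_self _ _))) (typ _ m1) (typ _ m4) (typ _ m3)
    rw [add_sub_cancel_left, add_sub_cancel_left, hlg] at key
    refine key.trans ?_
    rw [hL]
    rw [hL'] at hN
    have k1 := mul_le_mul_of_nonneg_right hng hl.le
    have k2 : (4 * (e' + 2 * c0)) * (S.D n).lgs ≤ (5 * e') * (S.D n).lgs := mul_le_mul_of_nonneg_right (by linarith) hl.le
    have k3 : 0 < tl * p.h * (S.D n).lgs := by positivity
    have k7 : e' * (S.D n).lgs = tl * p.h / 64 * (S.D n).lgs := by rw [he'd]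
    linarith
  · have key := ae2u_doc_ent (S.D n) π p dsp hq K0 e ⟨s0, s1⟩ hR hh _ _ _ e' (2 * c0) (by linarith) hmass (typ _ m2) (typ _ m1)
    rw [hlg] at key
    dsimp only at key
    refine key.trans ?_
    rw [hL]
    have k2 : (2 * (e' + 2 * c0)) * (S.D n).lgs ≤ (5 / 2 * e') * (S.D n).lgs := mul_le_mul_of_nonneg_right (by linarith) hl.le
    have k3 : 0 < tl * p.h * (S.D n).lgs := by positivity
    have k4 := le_abs_self (Real.log K0)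
    have k5 := le_abs_self (Real.log nmK0)
    have k6 : ((S.H (ae2Q π p.De) (p.a + p.h) (π.u p.De) - S.H (ae2Q π p.De) p.a (π.u p.De)) / p.h + tl) * (p.h * (S.D n).lgs)
        = (S.H (ae2Q π p.De) (p.a + p.h) (π.u p.De) - S.H (ae2Q π p.De) p.a (π.u p.De)) * (S.D n).lgs + tl * p.h * (S.D n).lgs := by
      field_simp
    rw [k6]
    have k7 : e' * (S.D n).lgs = tl * p.h / 64 * (S.D n).lgs := by rw [he'd]
    linarith

end seq

end

end Claimed.Agent.R256
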