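import Claimed.Agent.R256.Act.E2H.Cd
import Claimed.Agent.R256.Act.E2H.Tan
import Claimed.Agent.R256.Act.E2H.ScTop

/-!
# Row 256, Act, block E2 HYBRID, unit SCO = THE EVENT `A` AND THE PROFILES ON `ν.cnd A`      (owner helper98; chief helper198; prefix `ae2s_`, exit `ae2h_sco`)      06 l.487-493, 02 l.1381-1465

EXIT `ae2h_sco`: for ANY set `Bad` of rows of `j0` with rarity transport modulo `Bad` (`D.E2hSpb j0 Bad (s^(-c0)) (1/4)`; supplied by `ae2h_spb`, Mis.lean) there is an event `A ⊆ A0 \ Bad` of `ν`-mass `≥ s^(2 c0)` such that on `ν.cnd A`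
the clauses `prof`, `stat` of `LtPrb` and the entropy bound of the child name hold with the FINAL profiles `S.U`, `S.H`.   `c0 ≤ c1`, `c1` chosen by you after `tl`, `p`.
PLAN (= VF).   Family of names `N1 i = D.ats π L_i`, `Nj i = N1 i ∘ sel`, `R = D.e2hR j0`; lists `hl1`, `hl2` = `ae2h_cd` (with `ae2h_sel_R`); final typicality from `S.Flat {1}` (`L' = []`: `ae2v_surC_const`); `ae2v_mass`; `A = {A0, ¬ Bad, all scores typical}`.
Lists needed: `[nm a]`, `[Xc (u 1 + z h), nm a]` (`z ∈ Q ∪ {6}`), `[nm (a + 40 h)]`, `[Xc (u 1 + 6 h), nm (a + 40 h)]`, `[nm (a + h), nm a]` (all `nm (ae2Q π 1) · (u 1)`).   `ae2v_score`, `ae2v_entC` on `ν.cnd A`.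
From the atoms to the observables of the datum: the law-free lemmas `ae2_prof_abs`, `ae2_stat_fin` (E2/Sco.lean), with the lists `NmRep.rep1/2`, `ae2_xcell`, `nm_nval_up`, the hypothesis `read`, all pulled back by `ae2h_nval` (Tan.lean).   `H(a + h) - H(a)`: as in `nm_gr_mean` / `ae2_ent`.
-/

set_option autoImplicit false

namespace Claimed.Agent.R256

open Claimed.Agent.R255
open Claimed.Agent.R255.FLaw (pair)
open Filter Topology
open Classical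

noncomputable section

section seq

variable {π : SfPar} {C0 : ℝ} {κ : ℝ → ℝ} (S : NmSeq π C0 κ)

/-- **the event and the profiles** (contract; OWNER helper98).   PROVED: `ae2u_sco` (Act/E2H/Sc, ScDoc, ScTop; helper279) -/
theorem ae2h_sco (hπ : π.Valid) (h1 : π.c2 = 1) (h2 : π.q < 1) (hc : π.hyb = true) (hX : S.HasX) (hF : S.Flat {1}) : ∃ Λ : ℝ, ∀ p : Ae2P, p.Ok π Λ → p.De = 1 →
    ∀ (K0 e : ℝ), 10 * p.h ≤ e → ∀ Q : Finset ℝ, (∀ x ∈ Q, 0 ≤ x ∧ x ≤ 6) → ∀ (R tl : ℝ), 0 < tl →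
    S.U (ae2Q π p.De) (π.u p.De + 6 * p.h) p.a (π.u p.De) - S.U (ae2Q π p.De) (π.u p.De + 6 * p.h) (p.a + 40 * p.h) (π.u p.De) ≤ tl * p.h / 4 →
    ∃ c1 : ℝ, 0 < c1 ∧ ∀ c0 : ℝ, 0 < c0 → c0 ≤ c1 → ∀ᶠ n in uf, NmRep (S.D n) π (p.rt π) K0 e →
    ∀ (dsp : ℝ → NmNm → NmNm → ItDsp) (N : ℝ), Real.log N ≤ tl / 4 * (ae2Tan (S.D n) π p dsp).L →
      ((S.D n).P 1).NVal (fun _ => True) ((ae2Tan (S.D n) π p dsp).ltS R) (pair ((ae2Tan (S.D n) π p dsp).O 40) (ae2Tan (S.D n) π p dsp).Cs) N →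
    ∀ Bad : (S.D n).Row ((S.D n).gt p.j) → Prop, (S.D n).E2hSpb ((S.D n).gt p.j) Bad ((S.D n).s ^ (-c0)) (1 / 4) →
    ∃ A : (S.D n).Row ((S.D n).gt p.j) → Prop, (∀ ρ, A ρ → (S.D n).e2hA0 ((S.D n).gt p.j) ρ ∧ ¬ Bad ρ) ∧
      (S.D n).s ^ (2 * c0) ≤ ((S.D n).P ((S.D n).gt p.j)).pr A ∧
      (∀ z ∈ Q, (((S.D n).P ((S.D n).gt p.j)).cnd A).pr (fun ρ => tl * (ae2hTan (S.D n) π p dsp).L
        < |(((S.D n).P ((S.D n).gt p.j)).cnd A).surC ((ae2hTan (S.D n) π p dsp).Xn z) (ae2hTan (S.D n) π p dsp).Cs ρ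
            - S.U (ae2Q π p.De) (π.u p.De + z * p.h) p.a (π.u p.De) / p.h * (ae2hTan (S.D n) π p dsp).L|) ≤ tl) ∧
      (((S.D n).P ((S.D n).gt p.j)).cnd A).miC ((ae2hTan (S.D n) π p dsp).Xn 6) ((ae2hTan (S.D n) π p dsp).ltS R) (ae2hTan (S.D n) π p dsp).Cs
        ≤ tl * (ae2hTan (S.D n) π p dsp).L ∧
      (((S.D n).P ((S.D n).gt p.j)).cnd A).entC ((ae2hTan (S.D n) π p dsp).O 1) (ae2hTan (S.D n) π p dsp).Cs
        ≤ ((S.H (ae2Q π p.De) (p.a + p.h) (π.u p.De) - S.H (ae2Q π p.De) p.a (π.u p.De)) / p.h + tl) * (ae2hTan (S.D n) π p dsp).L :=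
  ae2u_sco S hπ h1 h2 hc hX hF

end seq

end

end Claimed.Agent.R256
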