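-- KEEP
import Claimed.Agent.R256.Act.E2.Sco
import Claimed.Agent.R256.Act.E2H.Tan

/-!
# Row 256, section Act, block E2H (hybrid boundary experiment), unit TIME      (architect + prover helper93; chief helper198; prefix `ae2t_`)      06 l.520-556

EXITS `ae2t_time_tan` (field `LtPrb.time` VERBATIM for `ae2hTanG D π p dsp j0 ((D.P j0).cnd A) sel`, side `ae2hZG`, sure event) and `ae2t_time` = the clause `time` of `Tan.LtPrb` on the law `(D.P j0).cnd A` of the rows of the gate `j0 = D.gt p.j`, SEL-AGNOSTIC: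
`sel : D.Row j0 → D.Row 1` is ANY map and `A` ANY event with  `A ρ → D.Conn j0 1 ρ (sel ρ) ∧ (D.P 1).p (sel ρ) ≠ 0`  and  `s^(acc h / 8) ≤ (D.P j0).pr A`.
* time names      `ρ ↦ tcell δ v (D.smk π (p.rt π) (sel ρ)).th`      (`δ = s^h`; `= T.thn 0 v` for every `Tan` on `Row j0` with `mrk 0 = smk ∘ sel`),
* refined side    `ρ ↦ (D.side .. (sel ρ), (tcell δ 30 (D.e2B .. (D.lab j0 ρ) (sel ρ)), tcell δ 30 (D.e2K .. (D.lab j0 ρ) (sel ρ))))`.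
PROOF = the classical one (`ae2_time`, E2/Sco.lean) with the end gate `j0`:
* `ae2t_count_gen`, `ae2t_count_cnd` : causal counting (`tp` on `(i, i')`, `sp` on `(i', j0)`) where the score is read on ANOTHER law (`cnd A`); the popular values are counted for that law, the mass is divided by `pr A`.
* lists: a row `ρi` of a prefix gate with `Conn i j0 ρi ρ` is connected to `sel ρ` (`trans`), so `nm_side_pr` (hybrid allowed: coarse side), `ae2t_th_pr`, `ae2t_th_time` (`De = 1`: the time of the end label is `T_1`) apply to the final row `sel ρ`;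
  `ae2t_bin_pr` : (A) on `(i, j0)` for the GIVEN pair `ρi, ρ`.
-/

set_option autoImplicit false

namespace Claimed.Agent.R256

open Claimed.Agent.R255
open Claimed.Agent.R255.FLaw (pair)
open Filter Topology
open Classical

noncomputable section

/-! ## causal counting for a score read on another law -/

/-- **causal counting**, the score is read on an arbitrary law `Qm` of the rows of the end gate.   Copy of `ae2_count`. -/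
theorem ae2t_count_gen (D : SfDoc) (π : SfPar) (C0 t i j e : ℝ) (hD : D.Core π C0 t) (hi : i ∈ D.G) (hj : j ∈ D.G) (he : e ∈ D.G)
    (hij : i < j) (hje : j < e) {β γ : Type} (Qm : FLaw (D.Row e)) (E : D.Row e → Prop) (W : D.Row e → β) (Θ : D.Row e → γ) (N N' Mp : ℝ)
    (hN : 0 ≤ N) (hN' : 0 ≤ N') (hMp : 0 < Mp)
    (hW : ∀ ρ : D.Row i, ∃ S : Finset β, (S.card : ℝ) ≤ N ∧ ∀ ω : D.Row e, D.Conn i e ρ ω → E ω → W ω ∈ S)
    (hΘ : ∀ (w : β) (θ : γ), ∃ Lt : Finset ℝ, (Lt.card : ℝ) ≤ N' ∧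
      ∀ (ω : D.Row e) (ρ' : D.Row j), E ω → W ω = w → Θ ω = θ → D.Conn j e ρ' ω → D.T j ρ' ∈ Lt) :
    (D.P e).pr (fun ω => E ω ∧ Qm.p ω ≠ 0 ∧ Qm.surC Θ W ω < Real.log Mp)
      ≤ D.s ^ (-t) * (D.s ^ (-t) * (N * N' * Mp) * D.s ^ (π.d * (j - i)) + D.s ^ (1 / t)) ^ ((2 : ℝ) / 3) + D.s ^ (1 / t) := by
  have hs := hD.hs
  have hsp := hD.sp j hj e he hje (fun ω => E ω ∧ Qm.p ω ≠ 0 ∧ Qm.surC Θ W ω < Real.log Mp)
    (fun ρ' => ∃ ω, (E ω ∧ Qm.p ω ≠ 0 ∧ Qm.surC Θ W ω < Real.log Mp) ∧ D.Conn j e ρ' ω) (fun ω hU ρ' hc => ⟨ω, hU, hc⟩)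
  have htp := hD.tp i hi j hj hij (fun ρ' => ∃ ω, (E ω ∧ Qm.p ω ≠ 0 ∧ Qm.surC Θ W ω < Real.log Mp) ∧ D.Conn j e ρ' ω)
    (fun ρ => ∃ ρ', (∃ ω, (E ω ∧ Qm.p ω ≠ 0 ∧ Qm.surC Θ W ω < Real.log Mp) ∧ D.Conn j e ρ' ω) ∧ D.Conn i j ρ ρ')
    (N * N' * Mp) (fun ρ' hU ρ hc => ⟨ρ', hU, hc⟩) (by
      intro ρ _
      obtain ⟨SW, hSW1, hSW2⟩ := hW ρ
      choose Pop hPop1 hPop2 using (fun w => ae2_count_pop Qm W Θ Mp hMp w)
      choose Lt hLt1 hLt2 using hΘ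
      have c1 : ∀ w, (((Pop w).biUnion (fun θ => Lt w θ)).card : ℝ) ≤ Mp * N' := by
        intro w
        calc (((Pop w).biUnion (fun θ => Lt w θ)).card : ℝ) ≤ ((∑ θ ∈ Pop w, (Lt w θ).card : ℕ) : ℝ) := by
              exact_mod_cast Finset.card_biUnion_le
          _ = ∑ θ ∈ Pop w, ((Lt w θ).card : ℝ) := by push_cast; rfl
          _ ≤ ∑ _θ ∈ Pop w, N' := Finset.sum_le_sum (fun θ _ => hLt1 w θ)
          _ = (Pop w).card * N' := by rw [Finset.sum_const, nsmul_eq_mul]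
          _ ≤ Mp * N' := mul_le_mul_of_nonneg_right (hPop1 w) hN'
      have c2 : ((SW.biUnion (fun w => (Pop w).biUnion (fun θ => Lt w θ))).card : ℝ) ≤ N * N' * Mp := by
        calc ((SW.biUnion (fun w => (Pop w).biUnion (fun θ => Lt w θ))).card : ℝ)
            ≤ ((∑ w ∈ SW, ((Pop w).biUnion (fun θ => Lt w θ)).card : ℕ) : ℝ) := by exact_mod_cast Finset.card_biUnion_le
          _ = ∑ w ∈ SW, (((Pop w).biUnion (fun θ => Lt w θ)).card : ℝ) := by push_cast; rfl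
          _ ≤ ∑ _w ∈ SW, Mp * N' := Finset.sum_le_sum (fun w _ => c1 w)
          _ = SW.card * (Mp * N') := by rw [Finset.sum_const, nsmul_eq_mul]
          _ ≤ N * (Mp * N') := mul_le_mul_of_nonneg_right hSW1 (mul_nonneg hMp.le hN')
          _ = N * N' * Mp := by ring
      refine le_trans ?_ c2
      rw [← Set.ncard_coe_finset]
      refine Nat.cast_le.2 (Set.ncard_le_ncard ?_ (Finset.finite_toSet _))
      rintro t' ⟨ρ', ⟨ω, ⟨hE, hp, hsur⟩, hc2⟩, hc1, rfl⟩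
      have hc3 := hD.trans i hi j hj e he hij hje ρ ρ' ω hc1 hc2
      rw [Finset.mem_coe, Finset.mem_biUnion]
      refine ⟨W ω, hSW2 ω hc3 hE, ?_⟩
      rw [Finset.mem_biUnion]
      exact ⟨Θ ω, hPop2 (W ω) ω hp rfl hsur, hLt2 (W ω) (Θ ω) ω ρ' hE rfl rfl hc2⟩)
  have hco : 0 ≤ D.s ^ (-t) * (N * N' * Mp) * D.s ^ (π.d * (j - i)) :=
    mul_nonneg (mul_nonneg (Real.rpow_nonneg hs.1.le _) (mul_nonneg (mul_nonneg hN hN') hMp.le)) (Real.rpow_nonneg hs.1.le _)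
  have h1 := htp.trans (add_le_add_left (mul_le_of_le_one_right hco (ent_pr_le_one _ _)) _)
  have h2 := Real.rpow_le_rpow (ent_pr_nonneg _ _) h1 (show (0 : ℝ) ≤ 2 / 3 by norm_num)
  have h3 := mul_le_mul_of_nonneg_left h2 (Real.rpow_nonneg hs.1.le (-t))
  linarith

/-- **causal counting on the restricted law** `(D.P e).cnd A` -/
theorem ae2t_count_cnd (D : SfDoc) (π : SfPar) (C0 t i j e : ℝ) (hD : D.Core π C0 t) (hi : i ∈ D.G) (hj : j ∈ D.G) (he : e ∈ D.G)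
    (hij : i < j) (hje : j < e) {β γ : Type} (A : D.Row e → Prop) (hA : 0 < (D.P e).pr A) (W : D.Row e → β) (Θ : D.Row e → γ) (N N' Mp : ℝ)
    (hN : 0 ≤ N) (hN' : 0 ≤ N') (hMp : 0 < Mp)
    (hW : ∀ ρ : D.Row i, ∃ S : Finset β, (S.card : ℝ) ≤ N ∧ ∀ ω : D.Row e, D.Conn i e ρ ω → A ω → W ω ∈ S)
    (hΘ : ∀ (w : β) (θ : γ), ∃ Lt : Finset ℝ, (Lt.card : ℝ) ≤ N' ∧
      ∀ (ω : D.Row e) (ρ' : D.Row j), A ω → W ω = w → Θ ω = θ → D.Conn j e ρ' ω → D.T j ρ' ∈ Lt) :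
    ((D.P e).cnd A).pr (fun ω => ((D.P e).cnd A).surC Θ W ω < Real.log Mp)
      ≤ (D.s ^ (-t) * (D.s ^ (-t) * (N * N' * Mp) * D.s ^ (π.d * (j - i)) + D.s ^ (1 / t)) ^ ((2 : ℝ) / 3) + D.s ^ (1 / t)) / (D.P e).pr A := by
  rw [ent_cnd_pr _ A hA]
  refine div_le_div_of_nonneg_right ?_ hA.le
  refine (ent_pr_mono _ fun ω hω h => ?_).trans
    (ae2t_count_gen D π C0 t i j e hD hi hj he hij hje ((D.P e).cnd A) A W Θ N N' Mp hN hN' hMp hW hΘ)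
  exact ⟨h.1, (ent_cnd_supp _ A hA).2 ⟨h.1, hω⟩, h.2⟩

/-- lists of pairs -/
theorem ae2t_list_pair {R α β : Type} (Rel : R → Prop) (A : R → α) (B : R → β) (N1 N2 : ℝ) (hN2 : 0 ≤ N2)
    (h1 : ∃ S : Finset α, (S.card : ℝ) ≤ N1 ∧ ∀ r, Rel r → A r ∈ S)
    (h2 : ∀ x : α, ∃ S : Finset β, (S.card : ℝ) ≤ N2 ∧ ∀ r, Rel r → A r = x → B r ∈ S) :
    ∃ S : Finset (α × β), (S.card : ℝ) ≤ N1 * N2 ∧ ∀ r, Rel r → (A r, B r) ∈ S := by
  obtain ⟨S1, hS1, hm1⟩ := h1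
  choose S2 hS2 hm2 using h2
  refine ⟨S1.biUnion fun x => (S2 x).image fun b => (x, b), ?_, ?_⟩
  · have hc : ((S1.biUnion fun x => (S2 x).image fun b => (x, b)).card : ℝ) ≤ ∑ x ∈ S1, ((S2 x).card : ℝ) := by
      have h3 : (S1.biUnion fun x => (S2 x).image fun b => (x, b)).card ≤ ∑ x ∈ S1, (S2 x).card :=
        Finset.card_biUnion_le.trans (Finset.sum_le_sum fun x _ => Finset.card_image_le)
      exact_mod_cast h3
    refine hc.trans ?_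
    calc ∑ x ∈ S1, ((S2 x).card : ℝ) ≤ ∑ _x ∈ S1, N2 := Finset.sum_le_sum fun x _ => hS2 x
      _ = S1.card * N2 := by rw [Finset.sum_const, nsmul_eq_mul]
      _ ≤ N1 * N2 := mul_le_mul_of_nonneg_right hS1 hN2
  · intro r hr
    exact Finset.mem_biUnion.2 ⟨A r, hm1 r hr, Finset.mem_image.2 ⟨B r, hm2 (A r) r hr rfl, rfl⟩⟩

/-- the numerics of `ae2t_time`: the bound of the causal count divided by the mass `m ≥ s^(x/8)` of the event -/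
theorem ae2t_time_num (s t x d w ji acc m : ℝ) (hs0 : 0 < s) (hs1 : s < 1) (hst : s ≤ t) (ht : 0 < t) (hx : 0 < x) (hd0 : 0 < d) (hd1 : d ≤ 1)
    (h3 : 30 * t ≤ x) (h4 : t * x ≤ 1) (h6 : 11 * t ^ (x / 8) ≤ acc) (hji : w - 2 * t ≤ ji) (hm : s ^ (x / 8) ≤ m) :
    (s ^ (-t) * (s ^ (-t) * (s ^ (-(x / 20)) * 9 * s ^ (-(x / 20)) * s ^ (-(x / 20)) * s ^ (-(d * w - x))) * s ^ (d * ji) + s ^ (1 / t)) ^ ((2 : ℝ) / 3)
      + s ^ (1 / t)) / m ≤ acc := by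
  have mo : ∀ {a b : ℝ}, b ≤ a → s ^ a ≤ s ^ b := fun h => Real.rpow_le_rpow_of_exponent_ge hs0 hs1.le h
  have hxt : x ≤ 1 / t := by rw [le_div_iff₀ ht]; linarith
  have e1 : s ^ (-t) * (s ^ (-(x / 20)) * 9 * s ^ (-(x / 20)) * s ^ (-(x / 20)) * s ^ (-(d * w - x))) * s ^ (d * ji)
      = 9 * s ^ (-t + -(x / 20) + -(x / 20) + -(x / 20) + -(d * w - x) + d * ji) := by
    simp only [Real.rpow_add hs0]
    ring
  have e2 : s ^ (-t + -(x / 20) + -(x / 20) + -(x / 20) + -(d * w - x) + d * ji) ≤ s ^ (3 * x / 4) := by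
    apply mo
    have : d * (w - 2 * t) ≤ d * ji := mul_le_mul_of_nonneg_left hji hd0.le
    nlinarith
  have e3 : s ^ (1 / t) ≤ s ^ (3 * x / 4) := mo (by linarith)
  have e4 : s ^ (1 / t) ≤ s ^ (x / 4) := mo (by linarith)
  have hp : 0 < s ^ (3 * x / 4) := Real.rpow_pos_of_pos hs0 _
  have e5 : (s ^ (-t) * (s ^ (-(x / 20)) * 9 * s ^ (-(x / 20)) * s ^ (-(x / 20)) * s ^ (-(d * w - x))) * s ^ (d * ji) + s ^ (1 / t)) ^ ((2 : ℝ) / 3)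
      ≤ 10 * s ^ (x / 2) := by
    rw [e1]
    have h10 : (10 : ℝ) ^ ((2 : ℝ) / 3) ≤ 10 := by
      calc (10 : ℝ) ^ ((2 : ℝ) / 3) ≤ (10 : ℝ) ^ (1 : ℝ) := Real.rpow_le_rpow_of_exponent_le (by norm_num) (by norm_num)
        _ = 10 := Real.rpow_one _
    calc (9 * s ^ (-t + -(x / 20) + -(x / 20) + -(x / 20) + -(d * w - x) + d * ji) + s ^ (1 / t)) ^ ((2 : ℝ) / 3)
        ≤ (10 * s ^ (3 * x / 4)) ^ ((2 : ℝ) / 3) := by
          refine Real.rpow_le_rpow (by positivity) (by linarith) (by norm_num)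
      _ = (10 : ℝ) ^ ((2 : ℝ) / 3) * s ^ (x / 2) := by
          rw [Real.mul_rpow (by norm_num) hp.le, ← Real.rpow_mul hs0.le]
          congr 2
          ring
      _ ≤ 10 * s ^ (x / 2) := mul_le_mul_of_nonneg_right h10 (Real.rpow_pos_of_pos hs0 _).le
  have e6 : s ^ (-t) * (10 * s ^ (x / 2)) ≤ 10 * s ^ (x / 4) := by
    calc s ^ (-t) * (10 * s ^ (x / 2)) = 10 * s ^ (-t + x / 2) := by rw [Real.rpow_add hs0]; ring
      _ ≤ 10 * s ^ (x / 4) := mul_le_mul_of_nonneg_left (mo (by linarith)) (by norm_num)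
  have e7 : s ^ (x / 8) ≤ t ^ (x / 8) := Real.rpow_le_rpow hs0.le hst (by linarith)
  have e8 := mul_le_mul_of_nonneg_left e5 (Real.rpow_pos_of_pos hs0 (-t)).le
  have hq : 0 < s ^ (x / 8) := Real.rpow_pos_of_pos hs0 _
  have hm0 : 0 < m := lt_of_lt_of_le hq hm
  have e9 : s ^ (x / 4) = s ^ (x / 8) * s ^ (x / 8) := by
    rw [← Real.rpow_add hs0]
    congr 1
    ring
  rw [div_le_iff₀ hm0]
  have e10 : 11 * s ^ (x / 4) ≤ acc * m := by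
    rw [e9]
    have a1 : 11 * s ^ (x / 8) ≤ acc := by linarith
    have a2 : 0 ≤ acc := le_trans (by positivity) a1
    calc 11 * (s ^ (x / 8) * s ^ (x / 8)) = (11 * s ^ (x / 8)) * s ^ (x / 8) := by ring
      _ ≤ acc * s ^ (x / 8) := mul_le_mul_of_nonneg_right a1 hq.le
      _ ≤ acc * m := mul_le_mul_of_nonneg_left hm a2
  linarith

/-- the choice of the tolerance -/
theorem ae2t_time_t0 (x acc g : ℝ) (hx : 0 < x) (hacc : 0 < acc) (hg : 0 < g) :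
    ∃ t : ℝ, 0 < t ∧ t ≤ g ∧ 30 * t ≤ x ∧ t * x ≤ 1 ∧ 11 * t ^ (x / 8) ≤ acc := by
  obtain ⟨ta, hta, hg1, a3, a4, -⟩ := ae2_time_t0 x acc g hx hacc hg
  obtain ⟨t, ht, hg2, -, -, b6⟩ := ae2_time_t0 (x / 2) acc ta (by positivity) hacc hta
  refine ⟨t, ht, hg2.trans hg1, by linarith, (mul_le_mul_of_nonneg_right hg2 hx.le).trans a4, ?_⟩
  have e : x / 2 / 4 = x / 8 := by ring
  rwa [e] at b6

/-! ## prediction from the prefix gates -/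

/-- **a row of a prefix gate and the standard side list the bins of the line of every `j0`-row between them** (06 l.527-545; classical AND hybrid: the `j0`-row is GIVEN).   Copy of `ae2_bin_pr`. -/
theorem ae2t_bin_pr (π : SfPar) (hπ : π.Valid) (h1 : π.c2 = 1) (h2 : π.q < 1) (C0 τ κ0 Λ : ℝ) (p : Ae2P) (hp : p.Ok π Λ)
    (i : ℝ) (hi : p.a ≤ i) (hi' : i ≤ p.a + 6 * p.h) :
    ∃ t0 : ℝ, 0 < t0 ∧ ∀ D : SfDoc, D.Fine π C0 τ κ0 t0 → ∀ (ρ : D.Row (D.gt i)) (x : NmZv D.Idx), ∃ S : Finset (ℤ × ℤ), (S.card : ℝ) ≤ 9 ∧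
      ∀ (ρ' : D.Row (D.gt p.j)) (ω : D.Row 1), D.Conn (D.gt i) (D.gt p.j) ρ ρ' → D.Conn (D.gt p.j) 1 ρ' ω →
        D.side π (ae2Q π p.De) (p.rt π).σ p.a ω = x →
        (tcell (D.s ^ p.h) 30 (D.e2B π p.De p.a (D.lab (D.gt p.j) ρ') ω), tcell (D.s ^ p.h) 30 (D.e2K π p.De (D.lab (D.gt p.j) ρ') ω)) ∈ S := by
  obtain ⟨t, ht, hth, htq, Hs⟩ := ae2_g4_small p.h π.q hp.h0
  refine ⟨t, ht, fun D hD ρ x => ?_⟩
  have hcore := hD.ok.core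
  have hs0 : 0 < D.s := hcore.hs.1
  obtain ⟨hs1, hδ10⟩ := Hs D.s hs0 hD.sm
  have hh := hp.h0
  have ha0 : 0 < p.a := hp.root.ha.1
  have hgap := hp.hgap
  have g1 : p.gap π ≤ p.j - p.a := min_le_left _ _
  have g2 : p.gap π ≤ p.De - p.j := (min_le_right _ _).trans (min_le_left _ _)
  have g3 : p.gap π ≤ (1 - π.q) * (p.De - p.j) := (min_le_right _ _).trans (min_le_right _ _)
  have hD1 := hp.hD1
  have hne : D.G.Nonempty := ⟨1, hcore.gate.1⟩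
  have hiG : D.gt i ∈ D.G := nm_gt_mem D hne i
  have hjG : D.gt p.j ∈ D.G := nm_gt_mem D hne p.j
  have ni := abs_le.1 (nm_gt_near hD (i := i) (by linarith) (by linarith))
  have nj := abs_le.1 (nm_gt_near hD (i := p.j) (by linarith) (by linarith))
  have hij : D.gt i < D.gt p.j := by linarith [ni.2, nj.1]
  have hj1 : D.gt p.j < 1 := by linarith [nj.2]
  obtain ⟨δ, hδ⟩ : ∃ δ : ℝ, δ = D.s ^ p.h := ⟨_, rfl⟩
  have hδ0 : 0 < δ := by rw [hδ]; exact Real.rpow_pos_of_pos hs0 _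
  have hδ1 : δ ≤ 1 / 10 := by rw [hδ]; exact hδ10
  -- the known numbers
  obtain ⟨kb, hkb⟩ : ∃ kb : ℝ, kb = nmVal D.s (π.b2 p.De - p.De) x.2.1.1 := ⟨_, rfl⟩
  obtain ⟨ta, hta⟩ : ∃ ta : ℝ, ta = nmVal D.s p.a x.2.1.2.2 := ⟨_, rfl⟩
  obtain ⟨Ra, hRa⟩ : ∃ Ra : ℝ, Ra = nmVal D.s ((nmDsStr π p.De).b p.a) x.2.2.1 := ⟨_, rfl⟩
  obtain ⟨SB, hSB, mB⟩ := ae2_g4_cells hδ0 hδ1 (((D.lab (D.gt i) ρ).beAt ta - kb * ta - Ra) / D.s ^ ((nmDsStr π p.De).b p.a))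
  obtain ⟨SK, hSK, mK⟩ := ae2_g4_cells hδ0 hδ1 (((D.lab (D.gt i) ρ).K - kb) / D.s ^ (π.b2 p.De - p.De))
  refine ⟨SB ×ˢ SK, ?_, fun ρ' ω c1 c2 hx => ?_⟩
  · rw [Finset.card_product]
    push_cast
    have : (0 : ℝ) ≤ SB.card := Nat.cast_nonneg _
    have : (0 : ℝ) ≤ SK.card := Nat.cast_nonneg _
    nlinarith
  have ekb : D.kbar π (nmDsStr π p.De) ω = kb := by
    rw [nm_kbar_val, hkb, ← hx]; rfl
  have eta : (D.raw π (nmDsStr π p.De) ω).ta D.s p.a = ta := by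
    rw [hta, ← hx]; rfl
  have eRa : (D.raw π (nmDsStr π p.De) ω).Ra D.s (ae2Q π p.De) p.a = Ra := by
    rw [hRa, ← hx]; rfl
  obtain ⟨A1, A2, -⟩ := hD.ok.aff.cmpA _ hiG _ hjG hij ρ ρ' c1
  obtain ⟨lI, hlI⟩ : ∃ lI : SfTest, lI = D.lab (D.gt i) ρ := ⟨_, rfl⟩
  obtain ⟨lJ, hlJ⟩ : ∃ lJ : SfTest, lJ = D.lab (D.gt p.j) ρ' := ⟨_, rfl⟩
  have eT : D.T (D.gt p.j) ρ' = lJ.T := by rw [hlJ]; rfl
  rw [← hlI, ← hlJ, eT] at A1
  rw [← hlI, ← hlJ] at A2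
  rw [← hlI] at mB mK
  -- exponents
  obtain ⟨ζ, hζ⟩ : ∃ ζ : ℝ, ζ = π.b2 p.De - p.De := ⟨_, rfl⟩
  have hba : (nmDsStr π p.De).b p.a = p.a + ζ := by
    rw [hζ]; unfold NmDs.b nmDsStr; ring
  obtain ⟨W, hW⟩ : ∃ W : ℝ, W = D.s ^ (399 * p.h) := ⟨_, rfl⟩
  have hW0 : 0 < W := by rw [hW]; exact Real.rpow_pos_of_pos hs0 _
  have hq1 : 1 - π.q ≤ |π.q| + 1 := by linarith [neg_abs_le π.q]
  have hq0 : 0 < 1 - π.q := by linarith
  have hqt : (1 - π.q) * t ≤ (|π.q| + 1) * t := mul_le_mul_of_nonneg_right hq1 ht.le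
  have h3t : 3 * t ≤ p.h := by
    have := mul_nonneg (abs_nonneg π.q) ht.le
    linarith
  have E2 : ζ + 399 * p.h ≤ min (π.b2 (D.gt i) - D.gt i) (π.b2 (D.gt p.j) - D.gt p.j) - t := by
    have e1 : ∀ y : ℝ, π.b2 y - y - ζ = (1 - π.q) * (p.De - y) := fun y => by rw [hζ]; unfold SfPar.b2; ring
    have f1 : (1 - π.q) * (p.De - p.j) - (1 - π.q) * t ≤ (1 - π.q) * (p.De - D.gt p.j) := by
      have : (1 - π.q) * (p.De - p.j - t) ≤ (1 - π.q) * (p.De - D.gt p.j) := mul_le_mul_of_nonneg_left (by linarith [nj.2]) hq0.le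
      linarith
    have f2 : (1 - π.q) * (p.De - D.gt p.j) ≤ (1 - π.q) * (p.De - D.gt i) := mul_le_mul_of_nonneg_left (by linarith) hq0.le
    have := e1 (D.gt i)
    have := e1 (D.gt p.j)
    rw [le_sub_iff_add_le, le_min_iff]
    constructor <;> linarith
  have E1 : p.a + ζ + 399 * p.h ≤ min (π.b2 (D.gt i)) (π.b2 (D.gt p.j)) - t := by
    have e1 : ∀ y : ℝ, π.b2 y - (p.a + ζ) = (1 - π.q) * (p.De - y) + (y - p.a) := fun y => by rw [hζ]; unfold SfPar.b2; ring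
    have f1 : 0 ≤ (1 - π.q) * (p.De - D.gt p.j) := mul_nonneg hq0.le (by linarith [nj.2])
    have f2 : (1 - π.q) * (p.De - p.j) ≤ (1 - π.q) * (p.De - D.gt i) := mul_le_mul_of_nonneg_left (by linarith [ni.2]) hq0.le
    have := e1 (D.gt i)
    have := e1 (D.gt p.j)
    rw [le_sub_iff_add_le, le_min_iff]
    constructor <;> linarith [ni.1, nj.1]
  have B1 : |lJ.be - lI.beAt lJ.T| ≤ D.s ^ p.a * D.s ^ ζ * W := by
    rw [abs_sub_comm, hW, ← Real.rpow_add hs0, ← Real.rpow_add hs0]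
    exact A1.trans (Real.rpow_le_rpow_of_exponent_ge hs0 hs1.le E1)
  have B2 : |lJ.K - lI.K| ≤ D.s ^ ζ * W := by
    rw [abs_sub_comm, hW, ← Real.rpow_add hs0]
    exact A2.trans (Real.rpow_le_rpow_of_exponent_ge hs0 hs1.le E2)
  -- times
  have B3 : |ta - lJ.T| ≤ 2 * D.s ^ p.a := by
    obtain ⟨n1, n2, n3⟩ := lay_near D π C0 t _ 1 hcore hjG hcore.gate.1 hj1 ρ' ω c2
    rw [eT] at n1 n2
    have r1 : |D.T 1 ω - ta| ≤ D.s ^ p.a := by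
      rw [← eta]; exact nm_rep_abs hs0 hs1 p.a (D.T 1 ω)
    have r2 : D.s ^ (D.gt p.j - t) ≤ D.s ^ p.a := Real.rpow_le_rpow_of_exponent_ge hs0 hs1.le (by linarith [nj.1])
    rw [abs_le] at r1 ⊢
    constructor <;> linarith [r1.1, r1.2]
  obtain ⟨R1, R2⟩ := ae2_g4_real (Real.rpow_pos_of_pos hs0 p.a) (Real.rpow_pos_of_pos hs0 ζ) hW0.le B1 B2 B3
  have hWδ : 3 * W ≤ δ ^ (100 : ℝ) := by
    have e : W = δ ^ (299 : ℝ) * δ ^ (100 : ℝ) := by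
      rw [hW, ← Real.rpow_add hδ0, hδ, ← Real.rpow_mul hs0.le]; congr 1; ring
    have f : δ ^ (299 : ℝ) ≤ 1 / 10 := by
      calc δ ^ (299 : ℝ) ≤ δ ^ (1 : ℝ) := Real.rpow_le_rpow_of_exponent_ge hδ0 (by linarith) (by norm_num)
        _ = δ := Real.rpow_one _
        _ ≤ 1 / 10 := hδ1
    have g : 0 < δ ^ (100 : ℝ) := Real.rpow_pos_of_pos hδ0 _
    have fg := mul_le_mul_of_nonneg_right f g.le
    rw [e]
    linarith
  have eB : D.e2B π p.De p.a (D.lab (D.gt p.j) ρ') ω - (lI.beAt ta - kb * ta - Ra) / D.s ^ ((nmDsStr π p.De).b p.a)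
      = ((lJ.be - lI.beAt lJ.T) + (ta - lJ.T) * (lJ.K - lI.K)) / (D.s ^ p.a * D.s ^ ζ) := by
    unfold SfDoc.e2B
    rw [ekb, eta, eRa, ← hlJ, hba, Real.rpow_add hs0, ← sub_div]
    congr 1
    unfold SfTest.beAt
    ring
  have eK : D.e2K π p.De (D.lab (D.gt p.j) ρ') ω - (lI.K - kb) / D.s ^ (π.b2 p.De - p.De) = (lJ.K - lI.K) / D.s ^ ζ := by
    unfold SfDoc.e2K
    rw [ekb, ← hlJ, ← hζ, ← sub_div]
    congr 1
    ring
  rw [← hδ, Finset.mem_product]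
  refine ⟨mB _ ?_, mK _ ?_⟩
  · rw [eB]; exact R2.trans hWδ
  · rw [eK]; exact R1.trans (by linarith)

/-- the time window, end point `De = 1` (classical and hybrid) -/
theorem ae2t_win (π : SfPar) (C0 τ κ0 Λ : ℝ) (p : Ae2P) (hp : p.Ok π Λ) (hDe : p.De = 1) (u : ℝ) (hu : 0 ≤ u) (hu6 : u ≤ 6)
    (t : ℝ) (ht1 : t ≤ p.h) (D : SfDoc) (hD : D.Fine π C0 τ κ0 t)
    (ρ : D.Row (D.gt (p.a + u * p.h))) (ω : D.Row 1) (hcn : D.Conn (D.gt (p.a + u * p.h)) 1 ρ ω) :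
    |(D.labAt p.De ω).T - D.T (D.gt (p.a + u * p.h)) ρ| ≤ D.s ^ (p.a + u * p.h - 2 * t) ∧
      D.s ^ (p.a + u * p.h + 2 * t) ≤ D.len (D.gt (p.a + u * p.h)) ∧ D.gt (p.a + u * p.h) ∈ D.G := by
  have hC := hD.ok.core
  obtain ⟨hs0, hs1⟩ := hC.hs
  have ht0 := hD.pos
  have ha0 : 0 < p.a := hp.root.ha.1
  have hh0 := hp.h0
  have hgap : 400 * p.h ≤ p.j - p.a := hp.hgap.trans (min_le_left _ _)
  have hgap2 : 400 * p.h ≤ p.De - p.j := hp.hgap.trans ((min_le_right _ _).trans (min_le_left _ _))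
  have huh : u * p.h ≤ 6 * p.h := mul_le_mul_of_nonneg_right hu6 hh0.le
  have huh0 : 0 ≤ u * p.h := mul_nonneg hu hh0.le
  have hD1 := hp.hD1
  have hne : D.G.Nonempty := ⟨1, hC.gate.1⟩
  have hi := nm_gt_mem D hne (p.a + u * p.h)
  have hnear := abs_le.1 (nm_gt_near hD (i := p.a + u * p.h) (by linarith) (by linarith [hp.haj, hp.hjD]))
  have hi1 : D.gt (p.a + u * p.h) < 1 := by linarith [hnear.2, hp.haj, hp.hjD]
  obtain ⟨b1, b2, -, -⟩ := hC.base _ hi 1 hC.gate.1 hi1 ρ ω hcn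
  rw [hC.hlen.1] at b2
  obtain ⟨l1, l2⟩ := hC.hlen.2 _ hi
  have l3 : D.len (D.gt (p.a + u * p.h)) ≤ D.s ^ (p.a + u * p.h - 2 * t) := l2.trans (lay_rpow_anti hs0 hs1 (by linarith [hnear.1]))
  have l4 : D.s ^ (p.a + u * p.h + 2 * t) ≤ D.len (D.gt (p.a + u * p.h)) := le_trans (lay_rpow_anti hs0 hs1 (by linarith [hnear.2])) l1
  refine ⟨?_, l4, hi⟩
  have hW : 0 < D.s ^ (p.a + u * p.h - 2 * t) := Real.rpow_pos_of_pos hs0 _
  rw [hDe, nm_labAt_one]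
  have e : (D.lab 1 ω).T = D.T 1 ω := rfl
  rw [e, abs_le]
  constructor <;> linarith

/-- a row of the gate near `a + u h` and the side list the time cell of depth `u`;   `De = 1`.   Copy of `ae2_th_pr`. -/
theorem ae2t_th_pr (π : SfPar) (C0 τ κ0 Λ : ℝ) (p : Ae2P) (hp : p.Ok π Λ) (hDe : p.De = 1)
    (u : ℝ) (hu : 0 ≤ u) (hu6 : u ≤ 6) (acc : ℝ) (hacc : 0 < acc) :
    ∃ t0 : ℝ, 0 < t0 ∧ ∀ D : SfDoc, D.Fine π C0 τ κ0 t0 → ∀ (ρ : D.Row (D.gt (p.a + u * p.h))) (x : NmZv D.Idx), ∃ S : Finset ℤ,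
      (S.card : ℝ) ≤ D.s ^ (-acc) ∧ ∀ ω : D.Row 1, D.Conn (D.gt (p.a + u * p.h)) 1 ρ ω →
        D.side π (ae2Q π p.De) (p.rt π).σ p.a ω = x → tcell (D.s ^ p.h) u (D.smk π (p.rt π) ω).th ∈ S := by
  obtain ⟨t1, ht1, hsm⟩ := ae2_th_aux_small 11 (acc / 2) (by norm_num) (by positivity)
  obtain ⟨t0, ht0⟩ : ∃ t0 : ℝ, t0 = min (min p.h (acc / 4)) (min t1 (if p.De < 1 then (1 - p.De) / 2 else 1)) := ⟨_, rfl⟩
  have hif : 0 < (if p.De < 1 then (1 - p.De) / 2 else 1 : ℝ) := by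
    split_ifs with h
    · linarith
    · exact one_pos
  have a1 : t0 ≤ p.h := by rw [ht0]; exact (min_le_left _ _).trans (min_le_left _ _)
  have a2 : t0 ≤ acc / 4 := by rw [ht0]; exact (min_le_left _ _).trans (min_le_right _ _)
  have a3 : t0 ≤ t1 := by rw [ht0]; exact (min_le_right _ _).trans (min_le_left _ _)
  have a4 : p.De < 1 → t0 ≤ (1 - p.De) / 2 := by
    intro h
    have : t0 ≤ (if p.De < 1 then (1 - p.De) / 2 else 1 : ℝ) := by rw [ht0]; exact (min_le_right _ _).trans (min_le_right _ _)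
    rwa [if_pos h] at this
  have a0 : 0 < t0 := by
    rw [ht0]
    exact lt_min (lt_min hp.h0 (by positivity)) (lt_min ht1 hif)
  refine ⟨t0, a0, fun D hD ρ x => ?_⟩
  have hC := hD.ok.core
  obtain ⟨hs0, hs1⟩ := hC.hs
  have hδ0 : 0 < D.s ^ p.h := Real.rpow_pos_of_pos hs0 _
  have hδ1 : D.s ^ p.h < 1 := Real.rpow_lt_one hs0.le hs1 hp.h0
  have hsa : 0 < D.s ^ p.a := Real.rpow_pos_of_pos hs0 _
  obtain ⟨S, hS, hmem⟩ := ae2_th_aux_cells hδ0 hδ1 hu p.Rm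
    ((D.T (D.gt (p.a + u * p.h)) ρ - (x.2.1.2.2 : ℝ) / (2 : ℝ) ^ nmLev D.s p.a) / D.s ^ p.a) (D.s ^ (u * p.h - 2 * t0))
    (Real.rpow_pos_of_pos hs0 _).le (by linarith [hp.hRm])
  refine ⟨insert (tcell (D.s ^ p.h) u 0) S, ?_, fun ω hcn hx => ?_⟩
  · have c1 : ((insert (tcell (D.s ^ p.h) u 0) S).card : ℝ) ≤ (S.card : ℝ) + 1 := by exact_mod_cast Finset.card_insert_le _ _
    have c2 : D.s ^ (u * p.h - 2 * t0) * (D.s ^ p.h) ^ (-u) = D.s ^ (-(2 * t0)) := by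
      rw [← Real.rpow_mul hs0.le, ← Real.rpow_add hs0]
      congr 1
      ring
    have c3 : D.s ^ (-(2 * t0)) ≤ D.s ^ (-(acc / 2)) := lay_rpow_anti hs0 hs1 (by linarith)
    have c4 : (11 : ℝ) ≤ D.s ^ (-(acc / 2)) := hsm D.s hs0 (hD.sm.trans a3)
    have c5 : D.s ^ (-(acc / 2)) * D.s ^ (-(acc / 2)) = D.s ^ (-acc) := by
      rw [← Real.rpow_add hs0]
      congr 1
      ring
    have c6 : (1 : ℝ) ≤ D.s ^ (-(acc / 2)) := by linarith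
    calc ((insert (tcell (D.s ^ p.h) u 0) S).card : ℝ) ≤ 4 * (D.s ^ (u * p.h - 2 * t0) * (D.s ^ p.h) ^ (-u)) + 7 := by linarith
      _ ≤ 4 * D.s ^ (-(acc / 2)) + 7 * D.s ^ (-(acc / 2)) := by rw [c2]; linarith
      _ = 11 * D.s ^ (-(acc / 2)) := by ring
      _ ≤ D.s ^ (-(acc / 2)) * D.s ^ (-(acc / 2)) := mul_le_mul_of_nonneg_right c4 (by linarith)
      _ = _ := c5
  · obtain ⟨w1, -, -⟩ := ae2t_win π C0 τ κ0 Λ p hp hDe u hu hu6 t0 a1 D hD ρ ω hcn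
    have hta := ae2_th_aux_ta D π p ω x hx
    obtain ⟨μ, hμ⟩ : ∃ μ : ItMk, μ = (D.raw π (nmDsStr π p.De) ω).mark D.s π (ae2Q π p.De) p.a true := ⟨_, rfl⟩
    have hsmk : D.smk π (p.rt π) ω = nmStore (D.s ^ p.h) p.Rm p.B μ := by
      rw [hμ]
      rfl
    have hth : μ.th = ((D.labAt p.De ω).T - (x.2.1.2.2 : ℝ) / (2 : ℝ) ^ nmLev D.s p.a) / D.s ^ p.a := by
      rw [hμ, ← hta]
      rfl
    rw [hsmk]
    unfold nmStore
    split_ifs with hb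
    · refine Finset.mem_insert_of_mem (hmem μ.th ?_)
      rw [hth, ← sub_div, abs_div, abs_of_pos hsa, div_le_iff₀ hsa, ← Real.rpow_add hs0]
      refine le_trans (le_of_eq ?_) (w1.trans (le_of_eq ?_))
      · congr 1
        ring
      · congr 1
        ring
    · exact Finset.mem_insert_self _ _

/-- the marks of a final row are bounded;   `De = 1` -/
theorem ae2t_mark (π : SfPar) (C0 τ κ0 Λ : ℝ) (p : Ae2P) (hp : p.Ok π Λ) (hDe : p.De = 1)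
    (t : ℝ) (ht1 : t ≤ p.h) (D : SfDoc) (hD : D.Fine π C0 τ κ0 t) (ω : D.Row 1) :
    |((D.raw π (nmDsStr π p.De) ω).mark D.s π (ae2Q π p.De) p.a true).th| ≤ 1 ∧
      |((D.raw π (nmDsStr π p.De) ω).mark D.s π (ae2Q π p.De) p.a true).r| ≤ 1 ∧
      ((D.raw π (nmDsStr π p.De) ω).mark D.s π (ae2Q π p.De) p.a true).k = 0 := by
  have hC := hD.ok.core
  obtain ⟨hs0, hs1⟩ := hC.hs
  have ht0 := hD.pos
  have ha0 : 0 < p.a := hp.root.ha.1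
  have hh0 := hp.h0
  have hgap : 400 * p.h ≤ p.j - p.a := hp.hgap.trans (min_le_left _ _)
  have hD1 := hp.hD1
  have hne : D.G.Nonempty := ⟨1, hC.gate.1⟩
  have hsa : 0 < D.s ^ p.a := Real.rpow_pos_of_pos hs0 _
  have hka : (D.raw π (nmDsStr π p.De) ω).ka D.s (ae2Q π p.De) p.a = 0 := nm_rep_zero _ _
  refine ⟨?_, ?_, ?_⟩
  · -- the time
    have hT : D.T 1 ω - D.s ^ p.a ≤ (D.labAt p.De ω).T ∧ (D.labAt p.De ω).T ≤ D.T 1 ω := by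
      rw [hDe, nm_labAt_one]
      have e : (D.lab 1 ω).T = D.T 1 ω := rfl
      rw [e]
      constructor <;> linarith
    have hrep := abs_le.1 (nm_rep_abs hs0 hs1 p.a (D.T 1 ω))
    have hle := nm_rep_le D.s p.a (D.T 1 ω)
    show |((D.labAt p.De ω).T - nmRep D.s p.a (D.T 1 ω)) / D.s ^ p.a| ≤ 1
    rw [abs_div, abs_of_pos hsa, div_le_one hsa, abs_le]
    constructor <;> linarith [hT.1, hT.2, hrep.1, hrep.2]
  · have hb : 0 < D.s ^ ((ae2Q π p.De).ds.b p.a) := Real.rpow_pos_of_pos hs0 _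
    show |((D.raw π (nmDsStr π p.De) ω).be - ((D.raw π (nmDsStr π p.De) ω).Ra D.s (ae2Q π p.De) p.a
      + ((D.raw π (nmDsStr π p.De) ω).Te - (D.raw π (nmDsStr π p.De) ω).ta D.s p.a) * (D.raw π (nmDsStr π p.De) ω).ka D.s (ae2Q π p.De) p.a))
        / D.s ^ ((ae2Q π p.De).ds.b p.a)| ≤ 1
    rw [hka, mul_zero, add_zero, abs_div, abs_of_pos hb, div_le_one hb]
    exact nm_rep_abs hs0 hs1 _ _
  · show ((D.raw π (nmDsStr π p.De) ω).kraw (ae2Q π p.De) - (D.raw π (nmDsStr π p.De) ω).ka D.s (ae2Q π p.De) p.a) * _ = 0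
    rw [hka]
    have : (D.raw π (nmDsStr π p.De) ω).kraw (ae2Q π p.De) = 0 := rfl
    rw [this, sub_zero, zero_mul]

/-- the side and the time cell of depth `u` confine the time of every predecessor at the gate near `a + u h`;   `De = 1`.   Copy of `ae2_th_time`. -/
theorem ae2t_th_time (π : SfPar) (C0 τ κ0 Λ : ℝ) (p : Ae2P) (hp : p.Ok π Λ) (hDe : p.De = 1)
    (u : ℝ) (hu : 0 ≤ u) (hu6 : u ≤ 6) (acc : ℝ) (hacc : 0 < acc) :
    ∃ t0 : ℝ, 0 < t0 ∧ ∀ D : SfDoc, D.Fine π C0 τ κ0 t0 → ∀ (x : NmZv D.Idx) (θ : ℤ), ∃ Lt : Finset ℝ, (Lt.card : ℝ) ≤ D.s ^ (-acc) ∧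
      ∀ (ω : D.Row 1) (ρ' : D.Row (D.gt (p.a + u * p.h))), D.side π (ae2Q π p.De) (p.rt π).σ p.a ω = x →
        tcell (D.s ^ p.h) u (D.smk π (p.rt π) ω).th = θ → D.Conn (D.gt (p.a + u * p.h)) 1 ρ' ω → D.T (D.gt (p.a + u * p.h)) ρ' ∈ Lt := by
  obtain ⟨t1, ht1, hsm⟩ := ae2_th_aux_small 5 (acc / 2) (by norm_num) (by positivity)
  obtain ⟨t0, ht0⟩ : ∃ t0 : ℝ, t0 = min (min p.h (acc / 8)) (min t1 (if p.De < 1 then (1 - p.De) / 2 else 1)) := ⟨_, rfl⟩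
  have hif : 0 < (if p.De < 1 then (1 - p.De) / 2 else 1 : ℝ) := by
    split_ifs with h
    · linarith
    · exact one_pos
  have a1 : t0 ≤ p.h := by rw [ht0]; exact (min_le_left _ _).trans (min_le_left _ _)
  have a2 : t0 ≤ acc / 8 := by rw [ht0]; exact (min_le_left _ _).trans (min_le_right _ _)
  have a3 : t0 ≤ t1 := by rw [ht0]; exact (min_le_right _ _).trans (min_le_left _ _)
  have a4 : p.De < 1 → t0 ≤ (1 - p.De) / 2 := by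
    intro h
    have : t0 ≤ (if p.De < 1 then (1 - p.De) / 2 else 1 : ℝ) := by rw [ht0]; exact (min_le_right _ _).trans (min_le_right _ _)
    rwa [if_pos h] at this
  have a0 : 0 < t0 := by
    rw [ht0]
    exact lt_min (lt_min hp.h0 (by positivity)) (lt_min ht1 hif)
  refine ⟨t0, a0, fun D hD x θ => ?_⟩
  have hC := hD.ok.core
  obtain ⟨hs0, hs1⟩ := hC.hs
  have hδ0 : 0 < D.s ^ p.h := Real.rpow_pos_of_pos hs0 _
  have hδ1 : D.s ^ p.h < 1 := Real.rpow_lt_one hs0.le hs1 hp.h0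
  have hsa : 0 < D.s ^ p.a := Real.rpow_pos_of_pos hs0 _
  obtain ⟨W, hW⟩ : ∃ W : ℝ, W = D.s ^ (p.a + u * p.h - 2 * t0) := ⟨_, rfl⟩
  have hW0 : 0 < W := by rw [hW]; exact Real.rpow_pos_of_pos hs0 _
  obtain ⟨l, hl⟩ : ∃ l : ℝ, l = D.s ^ (p.a + u * p.h + 2 * t0) := ⟨_, rfl⟩
  have hl0 : 0 < l := by rw [hl]; exact Real.rpow_pos_of_pos hs0 _
  obtain ⟨Sset, hSset⟩ : ∃ Sset : Set ℝ, Sset = {T : ℝ | ∃ (ω : D.Row 1) (ρ' : D.Row (D.gt (p.a + u * p.h))),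
      D.side π (ae2Q π p.De) (p.rt π).σ p.a ω = x ∧ tcell (D.s ^ p.h) u (D.smk π (p.rt π) ω).th = θ ∧
      D.Conn (D.gt (p.a + u * p.h)) 1 ρ' ω ∧ D.T (D.gt (p.a + u * p.h)) ρ' = T} := ⟨_, rfl⟩
  obtain ⟨x0, hx0⟩ : ∃ x0 : ℝ, x0 = (x.2.1.2.2 : ℝ) / (2 : ℝ) ^ nmLev D.s p.a + D.s ^ p.a * ((θ : ℝ) * msh (D.s ^ p.h) u) - W := ⟨_, rfl⟩
  have hwin : ∀ T ∈ Sset, x0 ≤ T ∧ T ≤ x0 + 4 * W := by
    intro T hT
    rw [hSset] at hT
    obtain ⟨ω, ρ', hx, hθ, hcn, rfl⟩ := hT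
    obtain ⟨w1, -, -⟩ := ae2t_win π C0 τ κ0 Λ p hp hDe u hu hu6 t0 a1 D hD ρ' ω hcn
    obtain ⟨k1, k2, k3⟩ := ae2t_mark π C0 τ κ0 Λ p hp hDe t0 a1 D hD ω
    have hta := ae2_th_aux_ta D π p ω x hx
    obtain ⟨μ, hμ⟩ : ∃ μ : ItMk, μ = (D.raw π (nmDsStr π p.De) ω).mark D.s π (ae2Q π p.De) p.a true := ⟨_, rfl⟩
    rw [← hμ] at k1 k2 k3
    have hsmk : D.smk π (p.rt π) ω = nmStore (D.s ^ p.h) p.Rm p.B μ := by
      rw [hμ]
      rfl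
    have hth : μ.th = ((D.labAt p.De ω).T - (x.2.1.2.2 : ℝ) / (2 : ℝ) ^ nmLev D.s p.a) / D.s ^ p.a := by
      rw [hμ, ← hta]
      rfl
    have hB := hp.hB
    have hst : (nmStore (D.s ^ p.h) p.Rm p.B μ).th = trep (D.s ^ p.h) p.Rm μ.th := by
      unfold nmStore
      rw [if_pos ⟨by linarith, by linarith, by rw [k3, abs_zero]; linarith⟩]
    rw [hsmk, hst] at hθ
    have g1 := ae2_th_aux_cell (D.s ^ p.h) u (trep (D.s ^ p.h) p.Rm μ.th)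
    rw [hθ] at g1
    have g2 := ae2_th_aux_cell (D.s ^ p.h) p.Rm μ.th
    rw [add_mul, one_mul, ← ae2_th_aux_trep] at g2
    have g3 : msh (D.s ^ p.h) p.Rm ≤ msh (D.s ^ p.h) u := ig_msh_anti _ _ _ hδ0 hδ1 (by linarith [hp.hRm])
    have g4 : msh (D.s ^ p.h) u ≤ (D.s ^ p.h) ^ u := ig_msh_le _ _ hδ0
    have g5 : D.s ^ p.a * (D.s ^ p.h) ^ u ≤ W := by
      rw [hW, ← Real.rpow_mul hs0.le, ← Real.rpow_add hs0]
      exact lay_rpow_anti hs0 hs1 (by nlinarith)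
    have g6 : D.s ^ p.a * msh (D.s ^ p.h) u ≤ W := (mul_le_mul_of_nonneg_left g4 hsa.le).trans g5
    have hTe : (D.labAt p.De ω).T = (x.2.1.2.2 : ℝ) / (2 : ℝ) ^ nmLev D.s p.a + D.s ^ p.a * μ.th := by
      rw [hth]
      field_simp
      ring
    have g7 : D.s ^ p.a * ((θ : ℝ) * msh (D.s ^ p.h) u) ≤ D.s ^ p.a * μ.th := mul_le_mul_of_nonneg_left (by linarith [g1.1, g2.1]) hsa.le
    have g8 : D.s ^ p.a * μ.th ≤ D.s ^ p.a * ((θ : ℝ) * msh (D.s ^ p.h) u + 2 * msh (D.s ^ p.h) u) :=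
      mul_le_mul_of_nonneg_left (by linarith [g1.2, g2.2]) hsa.le
    rw [mul_add] at g8
    rw [← hW] at w1
    rw [abs_le] at w1
    rw [hx0]
    constructor <;> linarith [w1.1, w1.2]
  have hsep : ∀ T ∈ Sset, ∀ T' ∈ Sset, T ≠ T' → l ≤ |T - T'| := by
    intro T hT T' hT' hne
    rw [hSset] at hT hT'
    obtain ⟨ω, ρ', hx, hθ, hcn, rfl⟩ := hT
    obtain ⟨ω2, ρ2, -, -, -, rfl⟩ := hT'
    obtain ⟨-, w2, w3⟩ := ae2t_win π C0 τ κ0 Λ p hp hDe u hu hu6 t0 a1 D hD ρ' ω hcn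
    rw [hl]
    exact w2.trans (hC.grid _ w3 ρ' ρ2 hne)
  obtain ⟨hfin, hcard⟩ := lay_sep_count Sset x0 (4 * W) l hl0 (by linarith) hwin hsep
  refine ⟨hfin.toFinset, ?_, fun ω ρ' hx hθ hcn => ?_⟩
  · rw [← Set.ncard_eq_toFinset_card _ hfin]
    refine hcard.trans ?_
    have c2 : W / l = D.s ^ (-(4 * t0)) := by
      rw [hW, hl, ← Real.rpow_sub hs0]
      congr 1
      ring
    have c3 : D.s ^ (-(4 * t0)) ≤ D.s ^ (-(acc / 2)) := lay_rpow_anti hs0 hs1 (by linarith)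
    have c4 : (5 : ℝ) ≤ D.s ^ (-(acc / 2)) := hsm D.s hs0 (hD.sm.trans a3)
    have c5 : D.s ^ (-(acc / 2)) * D.s ^ (-(acc / 2)) = D.s ^ (-acc) := by
      rw [← Real.rpow_add hs0]
      congr 1
      ring
    calc 4 * W / l + 1 = 4 * (W / l) + 1 := by ring
      _ ≤ 4 * D.s ^ (-(acc / 2)) + 1 * D.s ^ (-(acc / 2)) := by rw [c2]; linarith
      _ = 5 * D.s ^ (-(acc / 2)) := by ring
      _ ≤ D.s ^ (-(acc / 2)) * D.s ^ (-(acc / 2)) := mul_le_mul_of_nonneg_right c4 (by linarith)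
      _ = _ := c5
  · rw [Set.Finite.mem_toFinset, hSset]
    exact ⟨ω, ρ', hx, hθ, hcn, rfl⟩

/-! ## the time clause -/

/-- one pair of depths -/
theorem ae2t_time_uv (π : SfPar) (hπ : π.Valid) (h1 : π.c2 = 1) (h2 : π.q < 1) (C0 τ κ0 Λ : ℝ)
    (hΛ : ∀ r : NmRt, r.Ok π Λ → ∀ i : ℝ, r.a ≤ i → i < r.q.ds.De →
      ∀ acc : ℝ, 0 < acc → ∃ e0 : ℝ, 0 < e0 ∧ ∃ t0 : ℝ, 0 < t0 ∧ ∀ D : SfDoc, D.Fine π C0 τ κ0 t0 → nmX π D t0 → ∀ G : D.Row 1 → Prop,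
      (r.σ.exact = true → r.σ.lin = false → (D.P 1).NVal G (D.Pc π r.q.ds r.σ.xs) (pair D.y0 (D.tc r.a)) (D.s ^ (-e0))) →
      D.RowPr (D.gt i) (fun ω => (D.P 1).p ω ≠ 0 ∧ G ω) (D.side π r.q r.σ r.a) (D.s ^ (-acc)))
    (p : Ae2P) (hp : p.Ok π Λ) (hDe : p.De = 1) (u v : ℝ) (hu : 0 ≤ u) (huv : u ≤ v) (hv : v ≤ 6) (acc : ℝ) (hacc : 0 < acc) :
    ∃ t0 : ℝ, 0 < t0 ∧ ∀ D : SfDoc, D.Fine π C0 τ κ0 t0 → nmX π D t0 →
      ∀ (sel : D.Row (D.gt p.j) → D.Row 1) (A : D.Row (D.gt p.j) → Prop),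
      (∀ ρ, A ρ → D.Conn (D.gt p.j) 1 ρ (sel ρ) ∧ (D.P 1).p (sel ρ) ≠ 0) → D.s ^ (acc * p.h / 8) ≤ (D.P (D.gt p.j)).pr A →
      ((D.P (D.gt p.j)).cnd A).pr (fun ρ => ((D.P (D.gt p.j)).cnd A).surC (fun ρ => tcell (D.s ^ p.h) v (D.smk π (p.rt π) (sel ρ)).th)
        (pair (fun ρ => (D.side π (ae2Q π p.De) (p.rt π).σ p.a (sel ρ),
            ((tcell (D.s ^ p.h) 30 (D.e2B π p.De p.a (D.lab (D.gt p.j) ρ) (sel ρ)), tcell (D.s ^ p.h) 30 (D.e2K π p.De (D.lab (D.gt p.j) ρ) (sel ρ))) : ℤ × ℤ)))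
          (fun ρ => tcell (D.s ^ p.h) u (D.smk π (p.rt π) (sel ρ)).th)) ρ
        < (π.d * (v - u) - acc) * lg (D.s ^ p.h)) ≤ acc := by
  have hh : 0 < p.h := hp.h0
  have ha0 : 0 < p.a := hp.root.ha.1
  have hgap : 400 * p.h ≤ p.j - p.a := hp.hgap.trans (min_le_left _ _)
  have hgap2 : 400 * p.h ≤ p.De - p.j := hp.hgap.trans ((min_le_right _ _).trans (min_le_left _ _))
  have hjD := hp.hjD
  have hD1 := hp.hD1
  have hL : ∀ (D : SfDoc), 0 < D.s → lg (D.s ^ p.h) = -(p.h * Real.log D.s) := by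
    intro D hs
    unfold lg
    rw [one_div, Real.log_inv, Real.log_rpow hs]
  rcases huv.eq_or_lt with rfl | huv'
  · refine ⟨1, one_pos, fun D hD _ sel A _ _ => ?_⟩
    have hs := hD.ok.core.hs
    have hLp : 0 < lg (D.s ^ p.h) := by
      rw [hL D hs.1]
      have := Real.log_neg hs.1 hs.2
      nlinarith
    rw [ent_pr_eq_zero]
    · exact hacc.le
    · intro ρ hρ hlt
      have h0 := ent_surC_nonneg ((D.P (D.gt p.j)).cnd A) (fun ρ => tcell (D.s ^ p.h) u (D.smk π (p.rt π) (sel ρ)).th)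
        (pair (fun ρ => (D.side π (ae2Q π p.De) (p.rt π).σ p.a (sel ρ),
            ((tcell (D.s ^ p.h) 30 (D.e2B π p.De p.a (D.lab (D.gt p.j) ρ) (sel ρ)), tcell (D.s ^ p.h) 30 (D.e2K π p.De (D.lab (D.gt p.j) ρ) (sel ρ))) : ℤ × ℤ)))
          (fun ρ => tcell (D.s ^ p.h) u (D.smk π (p.rt π) (sel ρ)).th)) hρ
      nlinarith
  · have hx : 0 < acc * p.h := mul_pos hacc hh
    have hx20 : 0 < acc * p.h / 20 := by positivity
    have hv0 : 0 ≤ v := hu.trans huv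
    have hu6 : u ≤ 6 := huv.trans hv
    have huh : 0 ≤ u * p.h := mul_nonneg hu hh.le
    have huh6 : u * p.h ≤ 6 * p.h := mul_le_mul_of_nonneg_right hu6 hh.le
    have hvh : 0 ≤ v * p.h := mul_nonneg hv0 hh.le
    have hvh6 : v * p.h ≤ 6 * p.h := mul_le_mul_of_nonneg_right hv hh.le
    have hw : 0 < (v - u) * p.h := mul_pos (by linarith) hh
    obtain ⟨e0, -, t1, ht1, H1⟩ := hΛ (p.rt π) hp.root (p.a + u * p.h) (show p.a ≤ _ by linarith) (show _ < p.De by linarith) (acc * p.h / 20) hx20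
    obtain ⟨t2, ht2, H2⟩ := ae2t_bin_pr π hπ h1 h2 C0 τ κ0 Λ p hp (p.a + u * p.h) (by linarith) (by linarith)
    obtain ⟨t3, ht3, H3⟩ := ae2t_th_pr π C0 τ κ0 Λ p hp hDe u hu hu6 (acc * p.h / 20) hx20
    obtain ⟨t4, ht4, H4⟩ := ae2t_th_time π C0 τ κ0 Λ p hp hDe v hv0 hv (acc * p.h / 20) hx20
    obtain ⟨t, ht, htg, n3, n4, n6⟩ := ae2t_time_t0 (acc * p.h) acc (min (min t1 t2) (min (min t3 t4) (min ((v - u) * p.h / 3) p.h))) hx hacc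
      (by positivity)
    have g1 : t ≤ t1 := htg.trans ((min_le_left _ _).trans (min_le_left _ _))
    have g2 : t ≤ t2 := htg.trans ((min_le_left _ _).trans (min_le_right _ _))
    have g3 : t ≤ t3 := htg.trans ((min_le_right _ _).trans ((min_le_left _ _).trans (min_le_left _ _)))
    have g4 : t ≤ t4 := htg.trans ((min_le_right _ _).trans ((min_le_left _ _).trans (min_le_right _ _)))
    have g5 : t ≤ (v - u) * p.h / 3 := htg.trans ((min_le_right _ _).trans ((min_le_right _ _).trans (min_le_left _ _)))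
    have g6 : t ≤ p.h := htg.trans ((min_le_right _ _).trans ((min_le_right _ _).trans (min_le_right _ _)))
    refine ⟨t, ht, fun D hD hX sel A hsel hAm => ?_⟩
    have hco := hD.ok.core
    have hs := hco.hs
    have hG : D.G.Nonempty := ⟨1, hco.gate.1⟩
    have ni := abs_le.1 (nm_gt_near hD (i := p.a + u * p.h) (by linarith) (by linarith))
    have nj := abs_le.1 (nm_gt_near hD (i := p.a + v * p.h) (by linarith) (by linarith))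
    have nJ := abs_le.1 (nm_gt_near hD (i := p.j) (by linarith) (by linarith))
    have hij : D.gt (p.a + u * p.h) < D.gt (p.a + v * p.h) := by nlinarith [ni.2, nj.1]
    have hjJ : D.gt (p.a + v * p.h) < D.gt p.j := by linarith [nj.2, nJ.1]
    have hJ1 : D.gt p.j < 1 := by linarith [nJ.2]
    have hiG := nm_gt_mem D hG (p.a + u * p.h)
    have hjG := nm_gt_mem D hG (p.a + v * p.h)
    have hJG := nm_gt_mem D hG p.j
    have hA0 : 0 < (D.P (D.gt p.j)).pr A := lt_of_lt_of_le (Real.rpow_pos_of_pos hs.1 _) hAm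
    have hq0 : 0 < D.s ^ (-(acc * p.h / 20)) := Real.rpow_pos_of_pos hs.1 _
    have hW : ∀ ρi : D.Row (D.gt (p.a + u * p.h)), ∃ S : Finset ((NmZv D.Idx × (ℤ × ℤ)) × ℤ),
        (S.card : ℝ) ≤ D.s ^ (-(acc * p.h / 20)) * 9 * D.s ^ (-(acc * p.h / 20)) ∧
        ∀ ρ : D.Row (D.gt p.j), D.Conn (D.gt (p.a + u * p.h)) (D.gt p.j) ρi ρ → A ρ →
          pair (fun ρ => (D.side π (ae2Q π p.De) (p.rt π).σ p.a (sel ρ),
            ((tcell (D.s ^ p.h) 30 (D.e2B π p.De p.a (D.lab (D.gt p.j) ρ) (sel ρ)), tcell (D.s ^ p.h) 30 (D.e2K π p.De (D.lab (D.gt p.j) ρ) (sel ρ))) : ℤ × ℤ)))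
          (fun ρ => tcell (D.s ^ p.h) u (D.smk π (p.rt π) (sel ρ)).th) ρ ∈ S := by
      intro ρi
      have tr : ∀ ρ : D.Row (D.gt p.j), D.Conn (D.gt (p.a + u * p.h)) (D.gt p.j) ρi ρ ∧ A ρ → D.Conn (D.gt (p.a + u * p.h)) 1 ρi (sel ρ) :=
        fun ρ h => hco.trans _ hiG _ hJG 1 hco.gate.1 (hij.trans hjJ) hJ1 ρi ρ (sel ρ) h.1 (hsel ρ h.2).1
      have L1 : ∃ S : Finset (NmZv D.Idx), (S.card : ℝ) ≤ D.s ^ (-(acc * p.h / 20)) ∧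
          ∀ ρ : D.Row (D.gt p.j), (D.Conn (D.gt (p.a + u * p.h)) (D.gt p.j) ρi ρ ∧ A ρ) → D.side π (ae2Q π p.De) (p.rt π).σ p.a (sel ρ) ∈ S := by
        obtain ⟨S, hS, hm⟩ := H1 D (nm_me_fine_mono hD g1) (nm_me_x_mono hs g1 hX) (fun _ => True) (fun h => (Bool.false_ne_true h).elim) ρi
        exact ⟨S, hS, fun ρ h => hm (sel ρ) (tr ρ h) ⟨(hsel ρ h.2).2, trivial⟩⟩
      have L2 := ae2t_list_pair (fun ρ : D.Row (D.gt p.j) => D.Conn (D.gt (p.a + u * p.h)) (D.gt p.j) ρi ρ ∧ A ρ)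
        (fun ρ => D.side π (ae2Q π p.De) (p.rt π).σ p.a (sel ρ))
        (fun ρ => ((tcell (D.s ^ p.h) 30 (D.e2B π p.De p.a (D.lab (D.gt p.j) ρ) (sel ρ)), tcell (D.s ^ p.h) 30 (D.e2K π p.De (D.lab (D.gt p.j) ρ) (sel ρ))) : ℤ × ℤ))
        (D.s ^ (-(acc * p.h / 20))) 9 (by norm_num) L1 (fun x => by
          obtain ⟨S, hS, hm⟩ := H2 D (nm_me_fine_mono hD g2) ρi x
          exact ⟨S, hS, fun ρ h hx => hm ρ (sel ρ) h.1 (hsel ρ h.2).1 hx⟩)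
      obtain ⟨S, hS, hm⟩ := ae2t_list_pair (fun ρ : D.Row (D.gt p.j) => D.Conn (D.gt (p.a + u * p.h)) (D.gt p.j) ρi ρ ∧ A ρ)
        (fun ρ => (D.side π (ae2Q π p.De) (p.rt π).σ p.a (sel ρ),
            ((tcell (D.s ^ p.h) 30 (D.e2B π p.De p.a (D.lab (D.gt p.j) ρ) (sel ρ)), tcell (D.s ^ p.h) 30 (D.e2K π p.De (D.lab (D.gt p.j) ρ) (sel ρ))) : ℤ × ℤ)))
        (fun ρ => tcell (D.s ^ p.h) u (D.smk π (p.rt π) (sel ρ)).th)
        (D.s ^ (-(acc * p.h / 20)) * 9) (D.s ^ (-(acc * p.h / 20))) hq0.le L2 (fun x => by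
          obtain ⟨S, hS, hm⟩ := H3 D (nm_me_fine_mono hD g3) ρi x.1
          exact ⟨S, hS, fun ρ h hx => hm (sel ρ) (tr ρ h) (congrArg Prod.fst hx)⟩)
      exact ⟨S, hS, fun ρ hc hA => hm ρ ⟨hc, hA⟩⟩
    have cnt := ae2t_count_cnd D π C0 t (D.gt (p.a + u * p.h)) (D.gt (p.a + v * p.h)) (D.gt p.j) hco hiG hjG hJG hij hjJ A hA0
      (pair (fun ρ => (D.side π (ae2Q π p.De) (p.rt π).σ p.a (sel ρ),
            ((tcell (D.s ^ p.h) 30 (D.e2B π p.De p.a (D.lab (D.gt p.j) ρ) (sel ρ)), tcell (D.s ^ p.h) 30 (D.e2K π p.De (D.lab (D.gt p.j) ρ) (sel ρ))) : ℤ × ℤ)))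
          (fun ρ => tcell (D.s ^ p.h) u (D.smk π (p.rt π) (sel ρ)).th))
      (fun ρ => tcell (D.s ^ p.h) v (D.smk π (p.rt π) (sel ρ)).th)
      (D.s ^ (-(acc * p.h / 20)) * 9 * D.s ^ (-(acc * p.h / 20))) (D.s ^ (-(acc * p.h / 20))) (D.s ^ (-(π.d * ((v - u) * p.h) - acc * p.h)))
      (by positivity) hq0.le (Real.rpow_pos_of_pos hs.1 _) hW
      (fun w θ => by
        obtain ⟨Lt, hLt, hm⟩ := H4 D (nm_me_fine_mono hD g4) w.1.1 θ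
        exact ⟨Lt, hLt, fun ρ ρ' hA hWw hθ hcn => hm (sel ρ) ρ' (congrArg (fun z => z.1.1) hWw) hθ
          (hco.trans _ hjG _ hJG 1 hco.gate.1 hjJ hJ1 ρ' ρ (sel ρ) hcn (hsel ρ hA).1)⟩)
    have hlog : Real.log (D.s ^ (-(π.d * ((v - u) * p.h) - acc * p.h))) = (π.d * (v - u) - acc) * lg (D.s ^ p.h) := by
      rw [hL D hs.1, Real.log_rpow hs.1]
      ring
    rw [hlog] at cnt
    refine cnt.trans ?_
    exact ae2t_time_num D.s t (acc * p.h) π.d ((v - u) * p.h) _ acc _ hs.1 hs.2 hD.sm ht hx hπ.d1.1 hπ.d1.2 n3 n4 n6 (by linarith [ni.2, nj.1]) hAm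

/-- **EXIT of the unit TIME: the conditional time score for the refined side on the restricted law of the rows of the gate near `j`** (hybrid AND classical, end point `De = 1`).   `Λ` = the constant of `nm_side_pr`. -/
theorem ae2t_time (π : SfPar) (hπ : π.Valid) (h1 : π.c2 = 1) (h2 : π.q < 1) (C0 τ κ0 : ℝ) : ∃ Λ : ℝ, ∀ p : Ae2P, p.Ok π Λ → p.De = 1 →
    ∀ Q : Finset ℝ, (∀ x ∈ Q, 0 ≤ x ∧ x ≤ 6) → ∀ acc : ℝ, 0 < acc → ∃ t0 : ℝ, 0 < t0 ∧ ∀ D : SfDoc, D.Fine π C0 τ κ0 t0 → nmX π D t0 →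
      ∀ (sel : D.Row (D.gt p.j) → D.Row 1) (A : D.Row (D.gt p.j) → Prop),
      (∀ ρ, A ρ → D.Conn (D.gt p.j) 1 ρ (sel ρ) ∧ (D.P 1).p (sel ρ) ≠ 0) → D.s ^ (acc * p.h / 8) ≤ (D.P (D.gt p.j)).pr A →
      ∀ u ∈ Q, ∀ v ∈ Q, u ≤ v →
      ((D.P (D.gt p.j)).cnd A).pr (fun ρ => ((D.P (D.gt p.j)).cnd A).surC (fun ρ => tcell (D.s ^ p.h) v (D.smk π (p.rt π) (sel ρ)).th)
        (pair (fun ρ => (D.side π (ae2Q π p.De) (p.rt π).σ p.a (sel ρ),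
            ((tcell (D.s ^ p.h) 30 (D.e2B π p.De p.a (D.lab (D.gt p.j) ρ) (sel ρ)), tcell (D.s ^ p.h) 30 (D.e2K π p.De (D.lab (D.gt p.j) ρ) (sel ρ))) : ℤ × ℤ)))
          (fun ρ => tcell (D.s ^ p.h) u (D.smk π (p.rt π) (sel ρ)).th)) ρ
        < (π.d * (v - u) - acc) * lg (D.s ^ p.h)) ≤ acc := by
  obtain ⟨Λ, hΛ⟩ := nm_side_pr π hπ C0 τ κ0
  refine ⟨Λ, fun p hp hDe Q hQ acc hacc => ?_⟩
  have H : ∀ z : ℝ × ℝ, ∃ t0 : ℝ, 0 < t0 ∧ (z.1 ∈ Q → z.2 ∈ Q → z.1 ≤ z.2 → ∀ D : SfDoc, D.Fine π C0 τ κ0 t0 → nmX π D t0 →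
      ∀ (sel : D.Row (D.gt p.j) → D.Row 1) (A : D.Row (D.gt p.j) → Prop),
      (∀ ρ, A ρ → D.Conn (D.gt p.j) 1 ρ (sel ρ) ∧ (D.P 1).p (sel ρ) ≠ 0) → D.s ^ (acc * p.h / 8) ≤ (D.P (D.gt p.j)).pr A →
      ((D.P (D.gt p.j)).cnd A).pr (fun ρ => ((D.P (D.gt p.j)).cnd A).surC (fun ρ => tcell (D.s ^ p.h) z.2 (D.smk π (p.rt π) (sel ρ)).th)
        (pair (fun ρ => (D.side π (ae2Q π p.De) (p.rt π).σ p.a (sel ρ),
            ((tcell (D.s ^ p.h) 30 (D.e2B π p.De p.a (D.lab (D.gt p.j) ρ) (sel ρ)), tcell (D.s ^ p.h) 30 (D.e2K π p.De (D.lab (D.gt p.j) ρ) (sel ρ))) : ℤ × ℤ)))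
          (fun ρ => tcell (D.s ^ p.h) z.1 (D.smk π (p.rt π) (sel ρ)).th)) ρ
        < (π.d * (z.2 - z.1) - acc) * lg (D.s ^ p.h)) ≤ acc) := by
    intro z
    by_cases hz : z.1 ∈ Q ∧ z.2 ∈ Q ∧ z.1 ≤ z.2
    · obtain ⟨t0, ht0, h⟩ := ae2t_time_uv π hπ h1 h2 C0 τ κ0 Λ hΛ p hp hDe z.1 z.2 (hQ _ hz.1).1 hz.2.2 (hQ _ hz.2.1).2 acc hacc
      exact ⟨t0, ht0, fun _ _ _ => h⟩
    · exact ⟨1, one_pos, fun a b c => (hz ⟨a, b, c⟩).elim⟩
  choose f hf0 hf using H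
  obtain ⟨t0, ht0, hle⟩ := ae2_time_min (Q ×ˢ Q) f fun z _ => hf0 z
  refine ⟨t0, ht0, fun D hD hX sel A hsel hAm u hu v hv huv => ?_⟩
  have hz := hle (u, v) (Finset.mem_product.2 ⟨hu, hv⟩)
  exact hf (u, v) hu hv huv D (nm_me_fine_mono hD hz) (nm_me_x_mono hD.ok.core.hs hz hX) sel A hsel hAm

/-- **the clause `time` of `Tan.LtPrb`, verbatim**, for the pulled back datum `ae2hTanG` with the law `(D.P j0).cnd A` and the sure event -/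
theorem ae2t_time_tan (π : SfPar) (hπ : π.Valid) (h1 : π.c2 = 1) (h2 : π.q < 1) (C0 τ κ0 : ℝ) : ∃ Λ : ℝ, ∀ p : Ae2P, p.Ok π Λ → p.De = 1 →
    ∀ Q : Finset ℝ, (∀ x ∈ Q, 0 ≤ x ∧ x ≤ 6) → ∀ acc : ℝ, 0 < acc → ∃ t0 : ℝ, 0 < t0 ∧ ∀ D : SfDoc, D.Fine π C0 τ κ0 t0 → nmX π D t0 →
      ∀ (sel : D.Row (D.gt p.j) → D.Row 1) (A : D.Row (D.gt p.j) → Prop),
      (∀ ρ, A ρ → D.Conn (D.gt p.j) 1 ρ (sel ρ) ∧ (D.P 1).p (sel ρ) ≠ 0) → D.s ^ (acc * p.h / 8) ≤ (D.P (D.gt p.j)).pr A →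
      ∀ dsp : ℝ → NmNm → NmNm → ItDsp, ∀ u ∈ Q, ∀ v ∈ Q, u ≤ v →
      ((ae2hTanG D π p dsp (D.gt p.j) ((D.P (D.gt p.j)).cnd A) sel).P.cnd (fun _ => True)).pr
        (fun ρ => ((ae2hTanG D π p dsp (D.gt p.j) ((D.P (D.gt p.j)).cnd A) sel).P.cnd (fun _ => True)).surC
          ((ae2hTanG D π p dsp (D.gt p.j) ((D.P (D.gt p.j)).cnd A) sel).thn 0 v)
          (pair (ae2hZG D π p (D.gt p.j) sel) ((ae2hTanG D π p dsp (D.gt p.j) ((D.P (D.gt p.j)).cnd A) sel).thn 0 u)) ρ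
        < (π.d * (v - u) - acc) * (ae2hTanG D π p dsp (D.gt p.j) ((D.P (D.gt p.j)).cnd A) sel).L) ≤ acc := by
  obtain ⟨Λ, H⟩ := ae2t_time π hπ h1 h2 C0 τ κ0
  refine ⟨Λ, fun p hp hDe Q hQ acc hacc => ?_⟩
  obtain ⟨t0, ht0, H'⟩ := H p hp hDe Q hQ acc hacc
  refine ⟨t0, ht0, fun D hD hX sel A hsel hAm dsp u hu v hv huv => ?_⟩
  have hct : (ae2hTanG D π p dsp (D.gt p.j) ((D.P (D.gt p.j)).cnd A) sel).P.cnd (fun _ => True) = (D.P (D.gt p.j)).cnd A :=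
    ae2_cnd_true _
  rw [hct]
  exact H' D hD hX sel A hsel hAm u hu v hv huv

end

end Claimed.Agent.R256
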