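import Claimed.Agent.R256.Act.E2H.Defs
import Claimed.Agent.R256.Act.E2H.Tm

/-!
# Row 256, Act, block E2 HYBRID, unit TIME = the conditional time score on `ν.cnd A`      (owner helper93; chief helper198; prefix `ae2t_`, exit `ae2h_time`)      06 l.540-575

EXIT `ae2h_time` = `ae2_time` (E2/Sco.lean) on the law `ν.cnd A`, `ν = D.P j0`, `j0 = D.gt p.j`, for EVERY event `A ⊆ A0` of mass `≥ s^c1` (`c1` chosen by you after `acc`, before `t0`).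
PLAN.  `P' = ν.cnd A`.   The low-score rows have `Θ ρ ∈ Pop (W ρ)`, `Pop` = the popular values for `P'` (`ae2_count_pop P'`: law free).   Variant of `ae2_count` (Kit) with end gate `e = j0`, event `E = A ∧ charged`, the lists `Pop` GIVEN (not built from `D.P e`):
`ν(E ∧ Θ ∈ Pop W) ≤ s^(-t) (s^(-t) N N' Mp s^(d (j' - i')) + s^(1/t))^(2/3) + s^(1/t) ≤ s^(acc h / 4)`;   then `P'(..) ≤ ν(..) / ν(A) ≤ s^(acc h / 4 - c1) ≤ acc` (`ent_cnd_pr`-type lemmas, R255/Ent).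
Gates `i' = gt (a + u h) < j' = gt (a + v h) < j0` (`j - a ≥ 400 h`).   LISTS: `hW`: a row `ρ0` of `i'` sees few values of `W = (Z', θ_u)` among the rows `ρ ∈ A`, `Conn i' j0 ρ0 ρ`: `Core.trans` gives `Conn i' 1 ρ0 (sel ρ)`, so the standard side of `sel ρ`: `nm_side_pr` (RowPr, classical AND hybrid);
the bins of the line of `lab j0 ρ` and the cell `θ_u` of `sel ρ`: hybrid twins of `ae2_bin_pr`, `ae2_th_pr` (labels `D.lab j0 ρ` instead of `D.labAt`; they use `cmpA`, `base`, `grid` on `Conn i' j0`, `Conn j0 1`).   `hΘ`: twin of `ae2_th_time`: `(W, θ_v)` lists the time `T_{j'}` of the prefix rows.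
-/

set_option autoImplicit false

namespace Claimed.Agent.R256

open Claimed.Agent.R255
open Claimed.Agent.R255.FLaw (pair)
open Filter Topology
open Classical

noncomputable section

/-- **the conditional time score** (contract; OWNER helper93) -/
theorem ae2h_time (π : SfPar) (hπ : π.Valid) (h1 : π.c2 = 1) (h2 : π.q < 1) (hc : π.hyb = true) (C0 τ κ0 : ℝ) : ∃ Λ : ℝ, ∀ p : Ae2P, p.Ok π Λ → p.De = 1 →
    ∀ Q : Finset ℝ, (∀ x ∈ Q, 0 ≤ x ∧ x ≤ 6) → ∀ acc : ℝ, 0 < acc → ∃ c1 : ℝ, 0 < c1 ∧ ∃ t0 : ℝ, 0 < t0 ∧ ∀ D : SfDoc, D.Fine π C0 τ κ0 t0 → nmX π D t0 →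
    ∀ (dsp : ℝ → NmNm → NmNm → ItDsp) (A : D.Row (D.gt p.j) → Prop), (∀ ρ, A ρ → D.e2hA0 (D.gt p.j) ρ) → D.s ^ c1 ≤ (D.P (D.gt p.j)).pr A →
    ∀ u ∈ Q, ∀ v ∈ Q, u ≤ v →
      ((D.P (D.gt p.j)).cnd A).pr (fun ρ => ((D.P (D.gt p.j)).cnd A).surC ((ae2hTan D π p dsp).thn 0 v) (pair (D.e2hZ π p) ((ae2hTan D π p dsp).thn 0 u)) ρ
        < (π.d * (v - u) - acc) * (ae2hTan D π p dsp).L) ≤ acc := by
  obtain ⟨Λ, H⟩ := ae2t_time π hπ h1 h2 C0 τ κ0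
  refine ⟨Λ, fun p hp hDe Q hQ acc hacc => ?_⟩
  obtain ⟨t0, ht0, H'⟩ := H p hp hDe Q hQ acc hacc
  refine ⟨acc * p.h / 8, by have := hp.h0; positivity, t0, ht0, fun D hD hX dsp A hA hAm u hu v hv huv => ?_⟩
  exact H' D hD hX (D.e2hSel (D.gt p.j)) A (fun ρ hρ => ⟨ae2h_sel_conn D _ ρ (hA ρ hρ), ae2h_sel_ch D _ ρ⟩) hAm u hu v hv huv

end

end Claimed.Agent.R256
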